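import Vale.Agent.P022S.Rows
import Vale.Agent.P022S.Tw.Crv
import Vale.Agent.P022G.Kdel

/-!
# P022S, row COBJ
-/

set_option linter.all false

noncomputable section

namespace Vale.Agent.P022S

open NumberField IsLocalRing MvPowerSeries
open Vale.Agent.P022 Vale.Agent.P022S.R Vale.Agent.P022S.Loc Vale.Agent.P022S.Tw
open Vale.Agent.P027M.S (Inert mx)
open Vale.Agent.P022D.Sel (M2)
open Vale.Agent.P022E.Loc (Pl)
open Vale.Agent.P022G (Hm)
open Vale.Agent.P022G.Word (wd)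
open Vale.Agent.P022G.Tw (Sb ex_sb j_zero krull fin_tI)

namespace Cob

variable {O F : Type} [CommRing O] [Field F] {A B : Type} [CommRing A] [CommRing B] (u : A →+* B)
  {m : ℕ}

theorem wm_map (Z : Fin m → M2 A) (s : Finset (Fin m)) :
    (wm Z s).map u = wm (fun i => (Z i).map u) s := by
  rw [wm, wm, ← RingHom.mapMatrix_apply, map_list_prod, List.map_map]
  rfl

theorem wm_wd (ρ : GQ →* M2 A) (γ : Fin m → GQ) (s : Finset (Fin m)) :
    ρ (wd γ s) = wm (fun i => ρ (γ i)) s := by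
  rw [wd, wm, map_list_prod, List.map_map]
  rfl

theorem tr_map (M : M2 A) : u M.trace = (M.map u).trace := by
  rw [Matrix.trace_fin_two, Matrix.trace_fin_two, map_add]
  rfl

theorem sv_map (rc : Fin m → M2 O) (j : O →+* A) (Z : Fin m → M2 A) (s : Sy m) :
    u (sv rc j Z s) = sv rc (u.comp j) (fun i => (Z i).map u) s := by
  rcases s with s | i
  · exact (map_sub u _ _).trans (congrArg (· - _) ((tr_map u _).trans (by rw [wm_map])))
  · exact (map_sub u _ _).trans (congrArg (· - _) (RingHom.map_det u _))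

theorem bv_map (rc : Fin m → M2 O) (j : O →+* A) (Z : Fin m → M2 A) (s : Fin m × Fin 2 × Fin 2) :
    u (bv rc j Z s) = bv rc (u.comp j) (fun i => (Z i).map u) s := map_sub u _ _

theorem sv_res (rc : Fin m → M2 O) (j : O →+* A) (Z : Fin m → M2 A)
    (h : ∀ i a b, u (Z i a b) = u (j (rc i a b))) (s : Sy m) : u (sv rc j Z s) = 0 := by
  have e : (fun i => (Z i).map u) = fun i => (rc i).map (u.comp j) :=
    funext fun i => Matrix.ext (h i)
  rw [sv_map, e]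
  rcases s with s | i
  · exact sub_eq_zero.2 (by rw [tr_map, wm_map])
  · exact sub_eq_zero.2 (RingHom.map_det (u.comp j) _).symm

theorem bv_res (rc : Fin m → M2 O) (j : O →+* A) (Z : Fin m → M2 A)
    (h : ∀ i a b, u (Z i a b) = u (j (rc i a b))) (s : Fin m × Fin 2 × Fin 2) :
    u (bv rc j Z s) = 0 := (map_sub u _ _).trans (sub_eq_zero.2 (h _ _ _))

section framed
variable {S : Dat O F} {L : Pl O} {β : Type} {τ ι' : β → Type} (K : Kx O β τ ι' L.C) {n : ℕ}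
  (G : Gs S L K.g n) (r : ℕ)

theorem v0_map (j : O →+* A) (ρ : GQ → M2 A) (α α' : ℕ → M2 A) (τ' : Fin r → GQ)
    (s : V0 τ L n S.T r) :
    u (v0 K G r j ρ α α' τ' s) = v0 K G r (u.comp j) (fun g => (ρ g).map u)
      (fun l => (α l).map u) (fun l => (α' l).map u) τ' s := by
  rcases s with x | s | s | p
  · have := val_map u K j (fun t => α' (K.l t) * ρ (K.g t) * α (K.l t))
      (fun γ => α' γ * ρ (L.φ γ) * α γ) (fun γ => α' γ * ρ (L.τ γ) * α γ) x
    simp only [Matrix.map_mul] at this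
    exact this
  · exact sv_map u _ j _ s
  · exact bv_map u (G.rcr r) j (fun i => ρ (Fin.append G.γ τ' i)) s
  · show u (α p.1 p.2.1 p.2.2 - (1 : M2 A) p.2.1 p.2.2) =
      u (α p.1 p.2.1 p.2.2) - (1 : M2 B) p.2.1 p.2.2
    rw [map_sub, ← P022D.R.map_one' u]
    rfl

theorem v0_congr (j : O →+* A) (ρ : GQ → M2 A) (α α' : ℕ → M2 A) {τ' τ'' : Fin r → GQ}
    (h : ∀ i, ρ (τ' i) = ρ (τ'' i)) : v0 K G r j ρ α α' τ' = v0 K G r j ρ α α' τ'' := by
  have : (fun i => ρ (Fin.append G.γ τ' i)) = fun i => ρ (Fin.append G.γ τ'' i) := by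
    funext i
    refine Fin.addCases (fun i => ?_) (fun i => ?_) i
    · rw [Fin.append_left, Fin.append_left]
    · rw [Fin.append_right, Fin.append_right, h]
  unfold v0
  rw [this]

theorem v0_res (hl : ∀ g, (L.r g).map S.red = mx S.rb g) (X : Obj S A)
    (hc : ∀ i, X.π (K.crd L S A X i) = 0) (τ' : Fin r → GQ) (hτ : ∀ i, mx S.rb (τ' i) = 1)
    (s : V0 τ L n S.T r) : X.π (v0 K G r X.ι X.ρ X.α X.β τ' s) = 0 := by
  have h : ∀ i a b, X.π (X.ρ (Fin.append G.γ τ' i) a b) = X.π (X.ι (G.rcr r i a b)) := by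
    intro i a b
    refine Fin.addCases (fun i => ?_) (fun i => ?_) i
    · rw [Gs.rcr, Fin.append_left, Fin.append_left]
      exact ent_res hl X _ a b
    · rw [Gs.rcr, Fin.append_right, Fin.append_right, X.alg]
      refine (congrFun (congrFun (X.res (τ' i)) a) b).trans ?_
      rw [hτ, ← P022D.R.map_one' S.red]
      rfl
  rcases s with x | s | s | p
  · exact hc x
  · exact sv_res _ _ _ _ h s
  · exact bv_res _ _ _ _ h s
  · show X.π (X.α p.1 p.2.1 p.2.2 - (1 : M2 A) p.2.1 p.2.2) = 0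
    rw [map_sub, sub_eq_zero]
    exact (congrFun (congrFun (X.one p.1) _) _).trans
      (congrFun (congrFun (P022D.R.map_one' X.π) _) _).symm

end framed

variable {S : Dat O F} {L : Pl O}

theorem mx_one (h1 : ∀ g, S.rb g = 1) (g : GQ) : mx S.rb g = 1 := congrArg Units.val (h1 g)

/-- the pseudo object of an object -/
def po [CharP F 2] (h1 : ∀ g, S.rb g = 1) (Y : Obj S A) : PO S A where
  ι := Y.ι
  π := Y.π
  t := fun g => (Y.ρ g).trace
  d := Matrix.GeneralLinearGroup.det.comp Y.ρ.toHomUnits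
  fin := Y.fin
  loc := Y.loc
  alg := Y.alg
  tf := _root_.P022G.Kd.tf_rep Y.ρ
  rt := fun g => by
    rw [tr_map, Y.res, mx_one h1, Matrix.trace_one]
    exact CharP.cast_eq_zero F 2
  rd := fun g => by
    show Y.π (Y.ρ g).det = 1
    rw [RingHom.map_det, RingHom.mapMatrix_apply, Y.res, mx_one h1, Matrix.det_one]
  opn := ⟨Y.ρ.ker, Y.opn, fun v hv => ⟨fun g => by rw [map_mul, MonoidHom.mem_ker.1 hv, mul_one],
    Units.ext (by
      show (Y.ρ v).det = 1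
      rw [MonoidHom.mem_ker.1 hv, Matrix.det_one])⟩⟩

theorem po_cl [CharP F 2] (h1 : ∀ g, S.rb g = 1) {Y : Obj S A} {Q : Finset ℕ}
    (h : Ty (ClG L S) Q A Y) : (po h1 Y).Cl L Q :=
  ⟨h.1.d2, h.1.dc, h.1.dl, fun l a1 a2 a3 P a4 a5 s a6 => ⟨fun g => by
    show (Y.ρ (g * s)).trace = (Y.ρ g).trace
    rw [map_mul, h.2 l a1 a2 a3 P a4 a5 s a6, mul_one], Units.ext (by
      show (Y.ρ s).det = 1
      rw [h.2 l a1 a2 a3 P a4 a5 s a6, Matrix.det_one])⟩⟩

theorem po_val [CharP F 2] (h1 : ∀ g, S.rb g = 1) (Y : Obj S A) (rc : Fin m → M2 O)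
    (γ : Fin m → GQ) : (po h1 Y).val rc γ = sv rc Y.ι fun i => Y.ρ (γ i) :=
  congrArg (fun t => gv rc Y.ι t fun i => (Y.ρ (γ i)).det)
    (funext fun s => congrArg Matrix.trace (wm_wd Y.ρ γ s))

/-- the data of a curve -/
theorem cd {κ : Type} {gk : κ → GQ} {n : ℕ} {G : Gs S L gk n} {V : Type} [CommRing V] {t : V}
    {j : O →+* V} {ρ : GQ →* GL (Fin 2) V} {θ : P022D.Core.PS O (Sy n) →+* V} (hW : L.W = ∅)
    (hc : G.Crv t j ρ θ) : Cd S L t j ρ :=
  ⟨hc.res, hc.lv, hc.det, fun l hl => absurd (hW ▸ hl) (Finset.notMem_empty l)⟩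

end Cob

open Cob in
theorem cobjC : COBJ := by
  intro O F _ _ _ _ _ _ _ ϖ S L X as β τ ι' _ _ _ K n G hϖ hC hK _ V _ _ _ _ _ _ t j ρ θ ht hc
  have hL := hC.ok
  have hd := cd hC.W0 hc
  have hj : ∀ c, S.red c = 0 → j c = 0 := fun c h => j_zero j ((hL.ker c).1 h)
  have key : ∀ N, ∃ (A : Type) (_ : CommRing A) (u : A →+* V ⧸ _root_.P022G.Sel.tI t (N + 1))
      (Z : PO S A) (ψ : P022D.Core.PS O (Sy n) →+* A), Z.Cl L ∅ ∧ Hm Z.ι (Z.val G.rc G.γ) ψ ∧
      (∀ f, u (ψ f) = Ideal.Quotient.mk _ (θ f)) ∧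
      ∀ g, u (Z.t g) = Ideal.Quotient.mk _ (ρ g : M2 V).trace := fun N => by
    obtain ⟨A, _, u, ι0, π, H⟩ := ex_sb t j N S.red hL.ker ht.not_isUnit (fin_tI ht _)
    obtain ⟨Y, rfl, rfl, -, -, hρ, hY⟩ := crv_obj hL hj hd H
    have e : u.comp Y.ι = (Ideal.Quotient.mk _).comp j := RingHom.ext H.cst
    obtain ⟨ψ, h1, h2⟩ := H.cor hj (sv G.rc Y.ι fun i => Y.ρ (G.γ i))
      (sv_res _ _ _ _ fun i a b => ent_res hL.lift Y _ a b) θ hc.hm.c fun s => by
        rw [hc.hm.x, sv_map, sv_map, e]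
        simp only [hρ]
    exact ⟨A, inferInstance, u, po hC.rb1 Y, ψ, po_cl _ hY, by rw [po_val]; exact h1, h2,
      fun g => (tr_map u _).trans (by rw [hρ, tr_map])⟩
  refine ⟨fun f hf => krull ht.not_isUnit fun N => ?_,
    fun tu htu g => sub_eq_zero.1 (krull ht.not_isUnit fun N => ?_),
    fun r q τ' hq θ0 h0 f hf => krull ht.not_isUnit fun N => ?_⟩
  · obtain ⟨A, _, u, Z, ψ, h1, h2, h3, -⟩ := key N
    rw [← h3, hf A _ _ ψ ⟨Z, h1, rfl, rfl⟩ h2, map_zero]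
  · obtain ⟨A, _, u, Z, ψ, h1, h2, h3, h4⟩ := key N
    rw [map_sub, ← h3, htu A Z ψ h1 h2 g, h4, sub_self]
  · obtain ⟨A, _, u, ι0, π, H⟩ := ex_sb t j N S.red hL.ker ht.not_isUnit (fin_tI ht _)
    obtain ⟨Y, rfl, rfl, hα, hβ, hρ, hY⟩ := crv_obj hL hj hd H
    have e : u.comp Y.ι = (Ideal.Quotient.mk _).comp j := RingHom.ext H.cst
    have hτ : ∀ i, ρ (τ' i) = 1 := fun i => by
      obtain ⟨h1, P, h2, h3⟩ := hq i
      exact crv_unr ht.not_isUnit hd h1 h2 h3.1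
    obtain ⟨ψ, h1, h2⟩ := H.cor hj (v0 K G r Y.ι Y.ρ Y.α Y.β τ')
      (v0_res K G r hL.lift Y (hK.loc.res A Y hY.1) τ' fun i => mx_one hC.rb1 _) θ0 h0.c
      fun s => by
        rw [h0.x, v0_congr K G r j (fun g => (ρ g : M2 V)) _ _ (τ'' := τ')
          (fun i => by rw [hτ, map_one]), v0_map, v0_map, e]
        simp only [hρ, hα, hβ, P022D.R.map_one']
    rw [← h2, hf A _ _ ψ ⟨Y, ⟨hY.1, hY.2.mono (Finset.empty_subset _)⟩, rfl, rfl⟩ h1, map_zero]

end Vale.Agent.P022S
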