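import Vale.Agent.P022S.Rows
import Vale.Agent.P022S.Crv.Fth

/-!
P022S: rows LAM, LAM0, CRV.
-/

set_option linter.all false

noncomputable section

namespace Vale.Agent.P022S.CrvR

open NumberField IsLocalRing MvPowerSeries
open Vale.Agent.P022 Vale.Agent.P022.H346 Vale.Agent.P022S.R Vale.Agent.P022S.Loc
open Vale.Agent.P022S.Uni Vale.Agent.P022S.Crv
open Vale.Agent.P022D.Sel (M2)
open Vale.Agent.P022D.Core (PS Coef)
open Vale.Agent.P022E.Loc (Pl)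
open Vale.Agent.P022G (Hm KI)
open Vale.Agent.P022G.Word (wd)
open Vale.Agent.P022S.Mod (Gen2)

variable {O F : Type} [CommRing O] [Field F] {S : Dat O F} {L : Pl O} {m : ℕ}

theorem hm_t {rc : Fin m → M2 O} {B : Type} [CommRing B] {j : O →+* B} {t : Finset (Fin m) → B}
    {d : Fin m → B} {ψ : PS O (Sy m) →+* B} (h : Hm j (gv rc j t d) ψ) (s : Finset (Fin m)) :
    ψ (tS rc id s) = t s := by
  rw [tS, map_add, h.c, h.x]
  exact add_sub_cancel _ _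

theorem hm_d {rc : Fin m → M2 O} {B : Type} [CommRing B] {j : O →+* B} {t : Finset (Fin m) → B}
    {d : Fin m → B} {ψ : PS O (Sy m) →+* B} (h : Hm j (gv rc j t d) ψ) (i : Fin m) :
    ψ (dS rc id i) = d i := by
  rw [dS, map_add, h.c, h.x]
  exact add_sub_cancel _ _

theorem hm_of {rc : Fin m → M2 O} {B : Type} [CommRing B] {t : Finset (Fin m) → B}
    {d : Fin m → B} {ψ : PS O (Sy m) →+* B} (h1 : ∀ s, ψ (tS rc id s) = t s)
    (h2 : ∀ i, ψ (dS rc id i) = d i) : Hm (ψ.comp C) (gv rc (ψ.comp C) t d) ψ := by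
  refine ⟨fun _ => rfl, fun z => ?_⟩
  rcases z with s | i
  · have := h1 s
    rw [tS, map_add] at this
    exact eq_sub_of_add_eq' this
  · have := h2 i
    rw [dS, map_add] at this
    exact eq_sub_of_add_eq' this

theorem wm_map {B : Type} [CommRing B] (ρ : GQ →* M2 B) (γ : Fin m → GQ) (s : Finset (Fin m)) :
    wm (fun i => ρ (γ i)) s = ρ (wd γ s) := by
  rw [wm, wd, map_list_prod, List.map_map]
  rfl

/-- the points which belong to pseudo objects -/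
def QP (S : Dat O F) (L : Pl O) (Q : Finset ℕ) (rc : Fin m → M2 O) (γ : Fin m → GQ) :
    Cls (PS O (Sy m)) := fun B _ ψ t d =>
  ∃ Z : PO S B, Z.Cl L Q ∧ Hm Z.ι (Z.val rc γ) ψ ∧ t = Z.t ∧ d = Z.d

/-- the ideal of these points -/
def KP (S : Dat O F) (L : Pl O) (Q : Finset ℕ) (rc : Fin m → M2 O) (γ : Fin m → GQ) :
    Ideal (PS O (Sy m)) :=
  KI fun B _ j v => ∃ Z : PO S B, Z.Cl L Q ∧ j = Z.ι ∧ v = Z.val rc γ

variable {Q : Finset ℕ} {rc : Fin m → M2 O} {γ : Fin m → GQ}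

theorem qp_pf (B : Type) [CommRing B] (ψ : PS O (Sy m) →+* B) (t : GQ → B) (d : GQ →* Bˣ)
    (h : QP S L Q rc γ B ψ t d) : Pf F γ (tS rc id) (dS rc id) (In S.T Q) ψ t d := by
  obtain ⟨Z, h1, h2, rfl, rfl⟩ := h
  refine ⟨Z.fin, Z.tf, ⟨Z.π, Z.loc, fun y => ?_, fun g => ⟨Z.rt g, Z.rd g⟩⟩, ?_, ?_,
    hm_t h2, hm_d h2⟩
  · obtain ⟨c, rfl⟩ := S.surj y
    exact ⟨C c, by rw [RingHom.comp_apply, h2.c, Z.alg]⟩
  · obtain ⟨U, a1, a2⟩ := Z.opn
    exact Subgroup.isOpen_mono (H₁ := U) (fun u hu => a2 u hu) a1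
  · rintro _ ⟨l, a1, a2, a3, P, a4, a5, a6⟩
    exact h1.unr l a1 a2 a3 P a4 a5 _ a6

theorem qp_ker (f : PS O (Sy m))
    (h : ∀ (B : Type) [CommRing B] ψ t d, QP S L Q rc γ B ψ t d → ψ f = 0) :
    f ∈ KP S L Q rc γ := by
  rintro B _ _ _ ψ ⟨Z, h1, rfl, rfl⟩ h2
  exact h B ψ _ _ ⟨Z, h1, h2, rfl, rfl⟩

variable [IsDomain O] [IsDiscreteValuationRing O] [Coef O] [Finite F]

theorem fin_res (S : Dat O F) : Finite (ResidueField O) :=
  Finite.of_equiv F ((Ideal.quotEquivOfEq (ker_eq_maximalIdeal S.red S.surj).symm).trans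
    (RingHom.quotientKerEquivOfSurjective S.surj)).symm.toEquiv

/-- **the universal traces of the pseudo objects** -/
theorem qp_un [CharP F 2] (hG : Gen2 S.T Q γ) :
    ∃ ta da, Un (QP S L Q rc γ) (KP S L Q rc γ) ta da := by
  have := Coef.cpl (O := O)
  have hc := P022D.CA.Cpl.isAdicCompleteV (σ := Sy m) (V := O) inferInstance
  have := fin_res S
  have : Finite (ResidueField (PS O (Sy m))) := P022D.CA.Cpl.finite_residue
  exact uni (gn_of hG) qp_pf qp_ker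

theorem lam : LAM := by
  intro O F _ _ _ _ _ _ _ ϖ S L X as β τ ι' _ _ _ K n G _ _ _ _ r q τ' h
  obtain ⟨ta, da, hU⟩ := qp_un (L := L) (rc := G.rcr r) (G.gen r q τ' h)
  exact ⟨ta, da, fun B _ Z ψ h1 h2 => hU.ev B ψ _ _ ⟨Z, h1, h2, rfl, rfl⟩⟩

theorem lam0 : LAM0 := by
  intro O F _ _ _ _ _ _ _ ϖ S L X as β τ ι' _ _ _ K n G _ _ _ _
  obtain ⟨ta, da, hU⟩ := qp_un (L := L) (rc := G.rc) G.gen1
  exact ⟨ta, da, fun B _ Z ψ h1 h2 g => (hU.ev B ψ _ _ ⟨Z, h1, h2, rfl, rfl⟩ g).1,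
    fun B _ Z ψ h1 h2 g => (hU.ev B ψ _ _ ⟨Z, h1, h2, rfl, rfl⟩ g).2⟩

theorem crv : CRV := by
  intro O F _ _ _ _ _ _ _ ϖ S L X as β τ ι' _ _ _ K n G hϖ hC hK _ p hp ha hπ
  obtain ⟨ta, da, hU⟩ := qp_un (L := L) (rc := G.rc) G.gen1
  have := Coef.cpl (O := O)
  have hc := P022D.CA.Cpl.isAdicCompleteV (σ := Sy n) (V := O) inferInstance
  have := fin_res S
  have : Finite (ResidueField (PS O (Sy n))) := P022D.CA.Cpl.finite_residue
  obtain ⟨V, _, _, _, _, _, _, t, ρ, θ, a1, a2, -, a4, -, a6, a7, a8⟩ :=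
    crv1 C hC.ok hC.rb1 hC.W0 hK.dec hU qp_pf qp_ker (by
      rintro B _ ψ _ _ ⟨Z, h1, h2, rfl, rfl⟩ g (hg | rfl | ⟨l, hl, rfl⟩ | ⟨l, hl, rfl⟩)
      · rw [h2.c, h1.d2 g hg]
      · rw [h2.c, h1.dc, hC.ok.odd, map_neg, map_one]
      · rw [h2.c, h1.dl l hl]
      · rw [hC.W0] at hl
        exact absurd hl (Finset.notMem_empty l)) p hp.1 ha (fun o ho => by
      rw [hϖ.maximalIdeal_eq, Ideal.mem_span_singleton] at ho
      obtain ⟨c, rfl⟩ := ho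
      rw [map_mul]
      exact Ideal.mul_mem_right _ _ hπ) hp.2
  exact ⟨V, inferInstance, inferInstance, inferInstance, inferInstance, inferInstance,
    inferInstance, t, θ.comp C, ρ, θ, a1, ⟨hm_of (fun s => (a6 s).trans (congrArg _
      (wm_map ((Units.coeHom _).comp ρ) G.γ s).symm)) fun i => (a7 i).trans (a4.det _).symm,
      a4.res, a4.lv, a4.det, a8⟩, a2⟩

end Vale.Agent.P022S.CrvR
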