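import Vale.Agent.P022S.Rw.Seed
import Vale.Agent.P022S.Mod.La
import Vale.Agent.P022S.Mod.Sf
import Vale.Agent.P022S.Exq

/-!
# P022S, row EXQ: auxiliary primes which avoid finitely many surfaces
-/

set_option linter.all false

noncomputable section

namespace Vale.Agent.P022S.X65

open NumberField IsLocalRing MvPowerSeries
open Vale.Agent.P022 Vale.Agent.P022S.R Vale.Agent.P022S.Loc
open Vale.Agent.P022D.Sel (M2 Ginf)
open Vale.Agent.P022D.Core (PS Coef)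
open Vale.Agent.P022E.Loc (Pl)
open Vale.Agent.P022E.As (Tg cc tt dd yy mT)
open Vale.Agent.P022G (Hm)
open Vale.Agent.P022G.Mod (Fm Kr Ph Lm ph_hm mem_Kr hm_ext)
open Vale.Agent.P022S.Mod (GS Fs)

variable {O F : Type} [CommRing O] [IsDomain O] [IsDiscreteValuationRing O] [Coef O] [Field F]
  [CharP F 2] {ϖ : O} {S : Dat O F} {L : Pl O} {κ : Type} {gk : κ → GQ} {n : ℕ} (G : Gs S L gk n)

/-- the standard presentation of a pseudo object -/
theorem ex_std {B : Type} [CommRing B] (Z : PO S B) :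
    ∃ u : Tg O →+* B, Z.Std u ∧ ∀ i, u (yy i) = 0 :=
  ⟨MvPolynomial.eval₂Hom Z.ι (Sum.elim Z.t (Sum.elim (fun g => (Z.d g : B)) fun _ => 0)),
    ⟨fun o => MvPolynomial.eval₂Hom_C _ _ o, fun g => MvPolynomial.eval₂Hom_X' _ _ _,
      fun g => MvPolynomial.eval₂Hom_X' _ _ _⟩, fun i => MvPolynomial.eval₂Hom_X' _ _ _⟩

/-- the evaluation at a pseudo object factors through the evaluation at its ideal -/
theorem br (H : Fs ϖ L S.T) {B : Type} [CommRing B] (Z : PO S B) {u : Tg O →+* B} (hu : Z.Std u)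
    (ha : RingHom.ker u ∈ GS ϖ L S.T ∅ 0) {ψ : PS O (Sy n) →+* B}
    (h : Hm Z.ι (Z.val G.rc G.γ) ψ) :
    ψ = (RingHom.kerLift u).comp (Ph (vT G.rc G.γ) (RingHom.ker u)) := by
  obtain ⟨k, hk⟩ := H.nil ha.gw
  have p := ph_hm hk (Sd.v_mem G)
  have e : ∀ s, u (vT G.rc G.γ s) = Z.val G.rc G.γ s := by
    rintro (s | i)
    · exact (map_sub u _ _).trans (congrArg₂ _ (hu.t _) (hu.c _))
    · exact (map_sub u _ _).trans (congrArg₂ _ (hu.d _) (hu.c _))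
  refine hm_ext h ⟨fun o => ?_, fun s => ?_⟩ (m := (mT L.r).map u) (n := k) ?_ fun s => ?_
  · exact (congrArg (RingHom.kerLift u) (p.c o)).trans
      ((RingHom.kerLift_mk u _).trans (hu.c o))
  · exact (congrArg (RingHom.kerLift u) (p.x s)).trans ((RingHom.kerLift_mk u _).trans (e s))
  · rw [← Ideal.map_pow, Ideal.map_eq_bot_iff_le_ker]
    exact hk
  · rw [← e]
    exact Ideal.mem_map_of_mem _ (Sd.v_mem G s)

theorem exqS (hO : GPO) : EXQ := by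
  intro O F _ _ _ _ _ _ _ ϖ S L X as β τ ι' _ _ _ K n G hϖ hC hK hD tu hu s hs r σ U u1 u2 u3 A n₀ hA
  have f := Sd.fs hϖ hC
  haveI b := P022D.As.base O (Sy n)
  have fm := Sd.fm0 G f
  obtain ⟨lam, l1, l2⟩ := f.lam0 fm (Sd.v_mem G)
  have key : ∀ x : PS O (Sy n), (∀ (B : Type) [CommRing B] (Z : PO S B) (u : Tg O →+* B)
      (ψ : PS O (Sy n) →+* B), Z.Cl L ∅ → Z.Std u → RingHom.ker u ∈ GS ϖ L S.T ∅ 0 →
      Hm Z.ι (Z.val G.rc G.γ) ψ →
      ψ = (RingHom.kerLift u).comp (Ph (vT G.rc G.γ) (RingHom.ker u)) → ψ x = 0) → x ∈ G.aP := by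
    rintro x hx B _ j v ψ ⟨Z, hZ, rfl, rfl⟩ h
    obtain ⟨u, a1, a2⟩ := ex_std Z
    have a3 := ((hO O F ϖ S L X as β τ ι' K n G hϖ hC hK hD).1 ∅ 0 B Z u a1 hZ
      (fun i => by rw [a2, map_zero]) fun i _ => a2 i).2
    exact hx B Z u ψ hZ a1 a3 h (br G f Z a1 a3 h)
  have k1 : Kr (GS ϖ L S.T ∅ 0) (Ph (vT G.rc G.γ)) ≤ G.aP := fun x hx =>
    key x fun B _ Z u ψ _ _ a3 _ e => by
      rw [e, RingHom.comp_apply, mem_Kr.1 hx _ a3, map_zero]
  have k2 : ∀ g, lam (tt g) - tu g ∈ G.aP := fun g =>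
    key _ fun B _ Z u ψ a1 a2 a3 a4 e => by
      rw [map_sub, hu B Z ψ a1 a4, e, RingHom.comp_apply, l1 _ a3, RingHom.kerLift_mk, a2.t,
        sub_self]
  have le : ∀ E ∈ s, G.aP ≤ E := fun E hE => le_sup_left.trans (hs E hE).1.2.1
  have sf : ∀ E ∈ s, Clf.Sf (fun g => lam (tt g)) S.T E := fun E hE => by
    obtain ⟨⟨a1, a2, a3⟩, g, a4, a5⟩ := hs E hE
    refine Mod.sf_of f ⟨hC.ok.hT, hC.ok.hP, hC.ok.h2, hC.ok.cj, hC.ok.tm⟩ fm l1 a1
      (k1.trans (le E hE)) ?_ (by exact_mod_cast a3) ⟨g, a4, fun k => a5 ?_⟩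
    · rw [l2]
      exact a2 (Ideal.mem_sup_right (Ideal.mem_span_singleton_self _))
    · have := E.sub_mem k (le E hE (k2 g))
      rwa [sub_sub_cancel] at this
  have h2 : 2 ∈ S.T := by
    rw [hC.ok.hT]
    exact Finset.mem_insert_of_mem (Finset.mem_insert_self _ _)
  haveI := b.cpl
  haveI : Finite (ResidueField (PS O (Sy n))) := b.fin
  obtain ⟨c, hc⟩ := Exq.exq h2 s sf u1 u2 σ u3 A
  choose q q1 q2 using fun m => hc (m + n₀) A
  refine ⟨q, c, fun m => ⟨q1 m, fun i => ?_⟩⟩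
  obtain ⟨⟨a1, a2, a3, a4, a5⟩, a6⟩ := q2 m i
  refine ⟨a6, ⟨a1, fun k => a2 (Finset.mem_union_left _ k), a3, a4⟩, fun φ h E hE k => ?_⟩
  refine a5 φ h E hE ?_
  have := Ideal.add_mem _ (Ideal.mem_sup_left (le E hE (k2 φ))) k
  rwa [sub_add_cancel] at this

end Vale.Agent.P022S.X65
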