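import Vale.Agent.P022S.Rows
import Vale.Agent.P022S.Mod.Out

/-! # P022S, rows GPW GPO GPG OUTG TRA -/

set_option linter.all false

open IsLocalRing NumberField MvPowerSeries

noncomputable section

namespace Vale.Agent.P022S.H94

open Vale.Agent.P022 Vale.Agent.P022.H346 Vale.Agent.P022S.R Vale.Agent.P022S.Loc
open Vale.Agent.P027M.S (Inert mx)
open Vale.Agent.P022D.Sel (M2)
open Vale.Agent.P022D.Core (PS Coef)
open Vale.Agent.P022E.As (Tg cc tt dd yy ev0 mT Gw Gm)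
open Vale.Agent.P022E.Loc (Pl)
open Vale.Agent.P022F.End0 (evc evt evd evy)
open Vale.Agent.P022G (Hm subL)
open Vale.Agent.P022G.Mod (Fm Gd Ph hm_ext ph_hm)
open Vale.Agent.P022G.Word (wd)
open Vale.Agent.P022S.Mod (GS Fs tq dq gw_tf Dm gd_of)
open Ideal (torsionOf mem_torsionOf_iff)

section po
variable {O F : Type} [CommRing O] [Field F] {S : Dat O F} {L : Pl O} {B : Type} [CommRing B]

theorem po_nil (Z : PO S B) : ∃ n : ℕ, RingHom.ker Z.π ^ n = ⊥ :=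
  haveI := Z.fin
  Kd.nil Z.π Z.loc

theorem po_pow (Z : PO S B) {x : B} (h : Z.π x = 0) : ∃ k : ℕ, x ^ k = 0 := by
  obtain ⟨n, hn⟩ := po_nil Z
  exact ⟨n, (Submodule.mem_bot B).1 (hn ▸ Ideal.pow_mem_pow (RingHom.mem_ker.2 h) n)⟩

theorem po_open (Z : PO S B) : IsOpen (Kd.N Z.t Z.d : Set GQ) := by
  obtain ⟨U, h1, h2⟩ := Z.opn
  exact Subgroup.isOpen_mono (H₁ := U) h2 h1

theorem po_two [CharP F 2] (Z : PO S B) (g : GQ) : ∃ k : ℕ, g ^ 2 ^ k ∈ Kd.N Z.t Z.d := by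
  obtain ⟨n, hn⟩ := po_nil Z
  refine ⟨n, Kd.pow_mem Z.tf _ hn ?_ (Z.rt g) ?_⟩
  · rw [RingHom.mem_ker, map_ofNat]; exact CharTwo.two_eq_zero
  · rw [RingHom.mem_ker, map_sub, map_one, Z.rd, sub_self]

/-- every element is a word in the generators modulo the kernel -/
theorem po_gen [CharP F 2] {Z : PO S B} {Q : Finset ℕ} (h : Z.Cl L Q) {ι : Type} {γ : ι → GQ}
    (hG : Mod.Gen2 S.T Q γ) (g : GQ) :
    ∃ w ∈ Subgroup.closure (Set.range γ), g⁻¹ * w ∈ Kd.N Z.t Z.d :=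
  haveI := Kd.N_normal Z.tf
  hG.mod _ (po_open Z) (po_two Z) h.unr g

theorem wm_r (ρ : GQ →* M2 O) {m : ℕ} (γ : Fin m → GQ) (s : Finset (Fin m)) :
    wm (fun i => ρ (γ i)) s = ρ (wd γ s) := by
  rw [wm, wd, map_list_prod, List.map_map]
  rfl

theorem std_val {Z : PO S B} {u : Tg O →+* B} (h : Z.Std u) {m : ℕ} (rc : Fin m → M2 O)
    (γ : Fin m → GQ) (s : Sy m) : u (vT rc γ s) = Z.val rc γ s := by
  rcases s with s | s
  · exact (map_sub u _ _).trans (congrArg₂ _ (h.t _) (h.c _))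
  · exact (map_sub u _ _).trans (congrArg₂ _ (h.d _) (h.c _))

theorem ev_vT (ρ : GQ →* M2 O) {m : ℕ} (γ : Fin m → GQ) (s : Sy m) :
    ev0 ρ (vT (fun i => ρ (γ i)) γ s) = 0 := by
  rcases s with s | s
  · refine (map_sub _ (tt (wd γ s)) (cc _)).trans ?_
    rw [evt, evc, wm_r, sub_self]
  · refine (map_sub _ (dd (γ s)) (cc _)).trans ?_
    rw [evd, evc, sub_self]

/-- the pseudo object of an object -/
def ofObj [CharP F 2] (h1 : ∀ g, S.rb g = 1) (Y : Obj S B) : PO S B where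
  ι := Y.ι
  π := Y.π
  t := fun g => (Y.ρ g).trace
  d := Matrix.GeneralLinearGroup.det.comp Y.ρ.toHomUnits
  fin := Y.fin
  loc := Y.loc
  alg := Y.alg
  tf := _root_.P022G.Kd.tf_rep Y.ρ
  rt := fun g => by
    rw [AddMonoidHom.map_trace Y.π (Y.ρ g), Y.res, mx, h1, Units.val_one, Matrix.trace_one]
    exact CharTwo.two_eq_zero
  rd := fun g => by
    change Y.π (Y.ρ g).det = 1
    rw [RingHom.map_det, RingHom.mapMatrix_apply, Y.res, mx, h1, Units.val_one, Matrix.det_one]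
  opn := ⟨Y.ρ.toHomUnits.ker, by
    have : (Y.ρ.toHomUnits.ker : Set GQ) = {g | Y.ρ g = 1} := Set.ext fun g => Units.ext_iff
    rw [this]; exact Y.opn, fun s hs => by
      have : Y.ρ s = 1 := congrArg Units.val hs
      exact ⟨fun g => by rw [map_mul, this, mul_one], by
        rw [MonoidHom.comp_apply, MonoidHom.mem_ker.1 hs, map_one]⟩⟩

theorem ofObj_cl [CharP F 2] (h1 : ∀ g, S.rb g = 1) {Y : Obj S B} {Q : Finset ℕ}
    (h : Ty (ClG L S) Q B Y) : (ofObj h1 Y).Cl L Q :=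
  ⟨h.1.d2, h.1.dc, h.1.dl, fun l a1 a2 a3 P a4 a5 s a6 => by
    have e := h.2 l a1 a2 a3 P a4 a5 s a6
    refine ⟨fun g => ?_, Units.ext ?_⟩
    · change (Y.ρ (g * s)).trace = (Y.ρ g).trace
      rw [map_mul, e, mul_one]
    · change (Y.ρ s).det = 1
      rw [e, Matrix.det_one]⟩

end po

variable {O F : Type} [CommRing O] [IsDomain O] [IsDiscreteValuationRing O] [Coef O] [Field F]
  [CharP F 2] {S : Dat O F} {L : Pl O} {X : Finset ℕ} {as : ℕ} {ϖ : O}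

theorem red_tr (hC : Cx S L X as) (g : GQ) : S.red (L.r g).trace = 0 := by
  rw [AddMonoidHom.map_trace S.red (L.r g), hC.ok.lift, mx, hC.rb1, Units.val_one, Matrix.trace_one]
  exact CharTwo.two_eq_zero

theorem red_det (hC : Cx S L X as) (g : GQ) : S.red (L.r g).det = 1 := by
  rw [RingHom.map_det, RingHom.mapMatrix_apply, hC.ok.lift, hC.ok.det]

theorem fs (hϖ : Irreducible ϖ) (hC : Cx S L X as) : Fs ϖ L S.T :=
  ⟨hϖ, fun g => (hC.ok.ker _).1 (red_tr hC g),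
    fun g => (hC.ok.ker _).1 (by rw [map_sub, map_one, red_det hC, sub_self]), hC.ok.cont,
    fun l a1 a2 => hC.unr l a1 (Or.inl a2)⟩

/-- the kernel of a point is good -/
theorem gs_of (hϖ : Irreducible ϖ) (hC : Cx S L X as) {Q : Finset ℕ} {r : ℕ} {B : Type}
    [CommRing B] {Z : PO S B} {u : Tg O →+* B} (h : Z.Std u) (c : Z.Cl L Q)
    (hy : ∀ i, Z.π (u (yy i)) = 0) (hr : ∀ i, r ≤ i → u (yy i) = 0) :
    Mod.Gs ϖ L S.T Q r (RingHom.ker u) := by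
  haveI := Z.fin
  have nl : ∀ {p : Tg O}, Z.π (u p) = 0 → ∃ k : ℕ, p ^ k ∈ RingHom.ker u := fun hp =>
    (po_pow Z hp).imp fun k e => by rw [RingHom.mem_ker, map_pow, e]
  have eq : ∀ {x y : Tg O}, u x = u y → x - y ∈ RingHom.ker u := fun e => by
    rw [RingHom.mem_ker, map_sub, e, sub_self]
  obtain ⟨U, u1, u2⟩ := Z.opn
  refine ⟨⟨Finite.of_injective _ u.kerLift_injective, nl ?_, fun g => nl ?_, fun g => nl ?_,
    fun i => nl (hy i), eq ?_, fun g k => eq ?_, fun g k => eq ?_, eq ?_, fun g k => eq ?_,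
    ⟨U, u1, fun v hv g => eq ?_⟩, fun l a1 a2 a3 P a4 a5 s a6 g => eq ?_, fun g hg => ?_,
    fun g hg => eq ?_, hr⟩, ⟨U, u1, fun v hv => eq ?_⟩, fun l a1 a2 a3 P a4 a5 s a6 => eq ?_⟩
  · rw [h.c, Z.alg]
    exact (hC.ok.ker _).2 hϖ.not_isUnit
  · rw [map_sub, map_sub, h.t, h.c, Z.rt, Z.alg, red_tr hC, sub_self]
  · rw [map_sub, map_sub, h.d, h.c, Z.rd, Z.alg, red_det hC, sub_self]
  · rw [h.t, Z.tf.one, map_ofNat]
  · rw [h.t, h.t, Z.tf.comm]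
  · rw [map_mul, map_add, map_mul, h.t, h.t, h.t, h.t, h.d, Z.tf.mul]
  · rw [h.d, map_one, map_one, Units.val_one]
  · rw [map_mul, h.d, h.d, h.d, map_mul, Units.val_mul]
  · rw [h.t, h.t, (u2 v hv).1]
  · rw [h.t, h.t, (c.unr l a1 a2 a3 P a4 a5 s a6).1]
  · obtain ⟨l, hl, -⟩ := hg
    rw [hC.W0] at hl
    exact absurd hl (Finset.notMem_empty l)
  · rw [h.d, h.c]
    rcases hg with k | rfl | ⟨l, hl, rfl⟩ | ⟨l, hl, -⟩
    · exact c.d2 g k
    · rw [c.dc, hC.ok.odd, map_neg, map_one]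
    · exact c.dl l hl
    · rw [hC.W0] at hl
      exact absurd hl (Finset.notMem_empty l)
  · rw [h.d, (u2 v hv).2, map_one, Units.val_one]
  · rw [h.d, (c.unr l a1 a2 a3 P a4 a5 s a6).2, map_one, Units.val_one]

/-- a good ideal is the kernel of a point -/
theorem gp_of (hϖ : Irreducible ϖ) (hC : Cx S L X as) {Q : Finset ℕ} {r : ℕ} {a : Ideal (Tg O)}
    (ha : a ≠ ⊤) (k : Mod.Gs ϖ L S.T Q r a) : Gp S L Q r a := by
  have h := k.gw
  have ok := hC.ok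
  have rad : ∀ b : Tg O, S.red (ev0 L.r b) = 0 → b ∈ a.radical := fun b hb =>
    P022E.As.Bas.rad h hϖ.maximalIdeal_eq ((ok.ker _).1 hb)
  have un : ∀ p : Tg O, S.red (ev0 L.r p) ≠ 0 → IsUnit (Ideal.Quotient.mk a p) := fun p hn => by
    have hu : IsUnit (ev0 L.r p) := by
      by_contra hu
      exact hn ((ok.ker _).2 hu)
    obtain ⟨k, hk⟩ := rad (p - cc (ev0 L.r p)) (by rw [map_sub, evc, sub_self, map_zero])
    have h1 : IsNilpotent (Ideal.Quotient.mk a (p - cc (ev0 L.r p))) :=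
      ⟨k, by rw [← map_pow]; exact Ideal.Quotient.eq_zero_iff_mem.2 hk⟩
    have h2 := h1.isUnit_add_right_of_commute
      (hu.map ((Ideal.Quotient.mk a).comp (MvPolynomial.C : O →+* Tg O))) (Commute.all _ _)
    rwa [map_sub, show ((Ideal.Quotient.mk a).comp (MvPolynomial.C : O →+* Tg O)) (ev0 L.r p) =
      Ideal.Quotient.mk a (cc (ev0 L.r p)) from rfl, sub_add_cancel] at h2
  have hk : ∀ p ∈ a, (S.red.comp (ev0 L.r)) p = 0 := fun p hp => by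
    by_contra hn
    have := un p hn
    rw [Ideal.Quotient.eq_zero_iff_mem.2 hp, isUnit_zero_iff] at this
    exact ha ((Ideal.eq_top_iff_one a).2 (Ideal.Quotient.eq_zero_iff_mem.1
      ((map_one _).trans this.symm)))
  obtain ⟨π, hπ⟩ : ∃ π : Tg O ⧸ a →+* F, ∀ p, π (Ideal.Quotient.mk a p) = S.red (ev0 L.r p) :=
    ⟨Ideal.Quotient.lift a _ hk, fun _ => rfl⟩
  have cd : ∀ g ∈ L.DD, (dq h g : Tg O ⧸ a) = Ideal.Quotient.mk a (cc (L.r g).det) := fun g hg =>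
    Ideal.Quotient.eq.2 (h.cld g hg)
  refine ⟨⟨(Ideal.Quotient.mk a).comp MvPolynomial.C, π, tq a, dq h, h.fin, fun u hu => ?_,
    fun c => (hπ (cc c)).trans (by rw [evc]), gw_tf h,
    fun g => (hπ (tt g)).trans (by rw [evt, red_tr hC]),
    fun g => (hπ (dd g)).trans (by rw [evd, red_det hC]), _, k.N_open, fun u hu => hu⟩,
    ⟨fun o => rfl, fun g => rfl, fun g => rfl⟩,
    ⟨fun g hg => cd g (Or.inl hg), ?_, fun l hl => cd _ (Or.inr (Or.inr (Or.inl ⟨l, hl, rfl⟩))),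
      k.N_unr⟩, fun i => (hπ (yy i)).trans (by rw [evy, map_zero]), h.yz⟩
  · obtain ⟨p, rfl⟩ := Ideal.Quotient.mk_surjective u
    exact un p (hπ p ▸ hu)
  · refine (cd _ (Or.inr (Or.inl rfl))).trans ?_
    rw [ok.odd]
    exact ((Ideal.Quotient.mk a).comp MvPolynomial.C).map_neg 1 |>.trans (by rw [map_one])

theorem ker_ne {B : Type} [CommRing B] (Z : PO S B) (u : Tg O →+* B) : RingHom.ker u ≠ ⊤ :=
  fun e => by
    have : u 1 = 0 := RingHom.mem_ker.1 (e ▸ trivial)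
    have := congrArg Z.π this
    rw [map_one, map_one, map_zero] at this
    exact one_ne_zero this

theorem gs_gp (hϖ : Irreducible ϖ) (hC : Cx S L X as) {Q : Finset ℕ} {r : ℕ} {a : Ideal (Tg O)}
    (h : Gp S L Q r a) : a ≠ ⊤ ∧ Mod.Gs ϖ L S.T Q r a := by
  obtain ⟨Z, a1, a2, a3, a4⟩ := h
  have k1 := ker_ne Z (Ideal.Quotient.mk a)
  have k2 := gs_of hϖ hC a1 a2 a3 fun i hi => Ideal.Quotient.eq_zero_iff_mem.2 (a4 i hi)
  rw [Ideal.mk_ker] at k1 k2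
  exact ⟨k1, k2⟩

variable {κ : Type} {gk : κ → GQ} {n : ℕ} (G : Gs S L gk n)

theorem vA_mem (s : Sy n) : vT G.rc G.γ s ∈ mT L.r := by
  change ev0 L.r _ ∈ maximalIdeal O
  rw [show ev0 L.r (vT G.rc G.γ s) = 0 from ev_vT L.r G.γ s]
  exact zero_mem _

theorem fm0 (hϖ : Irreducible ϖ) (hC : Cx S L X as) :
    Fm (GS ϖ L S.T ∅ 0) (Ph (vT G.rc G.γ)) (mT L.r) :=
  (fs hϖ hC).fm G.gen1 _ (vA_mem G) (fun s => ⟨Sum.inl s, _, rfl⟩) (fun i => ⟨Sum.inr i, _, rfl⟩)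
    fun i hi => absurd hi (Nat.not_lt_zero i)

theorem val_res (hC : Cx S L X as) {B : Type} [CommRing B] (Z : PO S B) (s : Sy n) :
    Z.π (Z.val G.rc G.γ s) = 0 := by
  rcases s with s | s
  · refine (map_sub Z.π _ _).trans ?_
    rw [Z.rt, Z.alg, show wm G.rc s = L.r (wd G.γ s) from wm_r L.r G.γ s, red_tr hC, sub_self]
  · refine (map_sub Z.π _ _).trans ?_
    rw [Z.rd, Z.alg, show G.rc s = L.r (G.γ s) from rfl, red_det hC, sub_self]

theorem thru (hϖ : Irreducible ϖ) (hC : Cx S L X as) {B : Type} [CommRing B] {Z : PO S B}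
    {u : Tg O →+* B} (h : Z.Std u) (ha : RingHom.ker u ∈ GS ϖ L S.T ∅ 0)
    {ψ : PS O (Sy n) →+* B} (k : Hm Z.ι (Z.val G.rc G.γ) ψ) {f : PS O (Sy n)} {t : Tg O}
    (e : Ph (vT G.rc G.γ) (RingHom.ker u) f = Ideal.Quotient.mk _ t) : ψ f = u t := by
  obtain ⟨m, hm⟩ := (fs hϖ hC).nil ha.gw
  have k0 := ph_hm hm (vA_mem G)
  obtain ⟨m', hm'⟩ := po_nil Z
  have e1 : ψ = (RingHom.kerLift u).comp (Ph (vT G.rc G.γ) (RingHom.ker u)) :=
    hm_ext k ⟨fun o => (congrArg _ (k0.c o)).trans ((RingHom.kerLift_mk u _).trans (h.c o)),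
      fun s => (congrArg _ (k0.x s)).trans ((RingHom.kerLift_mk u _).trans (std_val h _ _ s))⟩ hm'
      fun s => val_res G hC Z s
  rw [e1, RingHom.comp_apply, e, RingHom.kerLift_mk]

theorem mem_An (hϖ : Irreducible ϖ) (hC : Cx S L X as) {Y : Type} [AddCommGroup Y]
    [Module (Tg O) Y] (hY : Gd (GS ϖ L S.T ∅ 0) Y) (f : PS O (Sy n)) :
    f ∈ G.An Y ↔ ∀ w : Y, Ph (vT G.rc G.γ) (torsionOf (Tg O) Y w) f = 0 := by
  constructor
  · intro hf w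
    by_cases e : torsionOf (Tg O) Y w = ⊤
    · haveI : Subsingleton (Tg O ⧸ torsionOf (Tg O) Y w) := e ▸ inferInstance
      exact Subsingleton.elim _ _
    · obtain ⟨Z, a1, a2, a3, a4⟩ := gp_of hϖ hC e (hY w)
      obtain ⟨m, hm⟩ := (fs hϖ hC).nil (hY w).gw
      have k := ph_hm hm (vA_mem G)
      exact hf _ _ _ _ ⟨w, Z, _, a1, Ideal.mk_ker, rfl, rfl⟩
        ⟨fun o => (k.c o).trans (a1.c o), fun s => (k.x s).trans (std_val a1 _ _ s)⟩
  · rintro h B _ j v ψ ⟨w, Z, u, a1, a2, rfl, rfl⟩ k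
    have := h w
    rw [← a2] at this
    exact (thru G hϖ hC a1 (a2 ▸ hY w) k (t := 0) this).trans (map_zero u)

theorem mem_aP (hϖ : Irreducible ϖ) (hC : Cx S L X as) (f : PS O (Sy n)) :
    f ∈ G.aP ↔ ∀ a ∈ GS ϖ L S.T ∅ 0, Ph (vT G.rc G.γ) a f = 0 := by
  constructor
  · intro hf a ha
    by_cases e : a = ⊤
    · haveI : Subsingleton (Tg O ⧸ a) := e ▸ inferInstance
      exact Subsingleton.elim _ _
    · obtain ⟨Z, a1, a2, a3, a4⟩ := gp_of hϖ hC e ha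
      obtain ⟨m, hm⟩ := (fs hϖ hC).nil ha.gw
      have k := ph_hm hm (vA_mem G)
      exact hf _ _ _ _ ⟨Z, a2, rfl, rfl⟩
        ⟨fun o => (k.c o).trans (a1.c o), fun s => (k.x s).trans (std_val a1 _ _ s)⟩
  · rintro h B _ j v ψ ⟨Z, a1, rfl, rfl⟩ k
    let u : Tg O →+* B := MvPolynomial.eval₂Hom Z.ι
      (Sum.elim Z.t (Sum.elim (fun g => (Z.d g : B)) fun _ => 0))
    have s : Z.Std u := ⟨fun o => MvPolynomial.eval₂Hom_C _ _ o,
      fun g => MvPolynomial.eval₂Hom_X' _ _ _, fun g => MvPolynomial.eval₂Hom_X' _ _ _⟩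
    have y : ∀ i, u (yy i) = 0 := fun i => MvPolynomial.eval₂Hom_X' _ _ _
    have g : Mod.Gs ϖ L S.T ∅ 0 _ :=
      gs_of hϖ hC s a1 (fun i => by rw [y, map_zero]) fun i _ => y i
    exact (thru G hϖ hC s g k (t := 0) (h _ g)).trans (map_zero u)

theorem gd_sub (hC : Cx S L X as) {Y : Type} [AddCommGroup Y] [Module (Tg O) Y]
    (h : Gm ϖ (subL L X) (S.T \ X) ∅ 0 Y) (k : Dm O (S.T \ X) ∅ Y) : Gd (GS ϖ L S.T ∅ 0) Y :=
  fun w => Mod.Gs.sub (fun l _ => Finset.notMem_empty l) (fun l hl => by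
    have m : l ∈ L.W ∪ L.C := Finset.mem_union_right _ (hC.sub hl)
    exact ⟨(hC.ok.pr l m).1, (hC.ok.hP l m).1, (hC.ok.hP l m).2, (hC.ok.tm l m).tau,
      hC.unr l (hC.ok.pr l m).1 (Or.inr hl) _ (hC.ok.hP l m).1 (hC.ok.hP l m).2 _
        (hC.ok.tm l m).tau⟩) (gd_of h k w)

theorem gpw : GPW := fun O F _ _ _ _ _ _ _ ϖ S L X as β τ ι' _ _ _ K n G hϖ hC _ _ Q r a ha h =>
  gp_of hϖ hC ha h

theorem gpo : GPO := by
  intro O F _ _ _ _ _ _ _ ϖ S L X as β τ ι' _ _ _ K n G hϖ hC _ _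
  refine ⟨fun Q r B _ Z u a1 a2 a3 a4 => ⟨gp_of hϖ hC (ker_ne Z u) (gs_of hϖ hC a1 a2 a3 a4),
    gs_of hϖ hC a1 a2 a3 a4⟩, fun Q r a b ha hb => gp_of hϖ hC
      (fun e => (gs_gp hϖ hC ha).1 (top_le_iff.1 (e ▸ inf_le_left)))
      ((gs_gp hϖ hC ha).2.inf (gs_gp hϖ hC hb).2),
    fun Q B _ Y hY => ⟨ofObj hC.rb1 Y, ofObj_cl hC.rb1 hY, rfl, rfl, fun g => ⟨rfl, rfl⟩⟩⟩

theorem gpg : GPG := by
  intro O F _ _ _ _ _ _ _ ϖ S L X as β τ ι' _ _ _ K n G hϖ hC _ _ r q τ' hq B _ Z hZ R h0 hv g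
  haveI := Z.fin
  refine Kd.gen Z.tf _ _ (po_gen hZ (G.gen r q τ' hq)) le_rfl R (fun s => ?_) (fun i => ?_) g
  · have := R.add_mem (hv (Sum.inl s)) (h0 (wm (G.rcr r) s).trace)
    rwa [show Z.val (G.rcr r) (Fin.append G.γ τ') (Sum.inl s) =
      Z.t (wd _ s) - Z.ι (wm (G.rcr r) s).trace from rfl, sub_add_cancel] at this
  · have := R.add_mem (hv (Sum.inr i)) (h0 (G.rcr r i).det)
    rwa [show Z.val (G.rcr r) (Fin.append G.γ τ') (Sum.inr i) =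
      (Z.d (Fin.append G.γ τ' i) : B) - Z.ι (G.rcr r i).det from rfl, sub_add_cancel] at this

theorem outg : OUTG := by
  intro O F _ _ _ _ _ _ _ ϖ S L X as β τ ι' _ _ _ K n G hϖ hC _ _ W0 _ _ hW hD hA j
  exact Mod.out94 (fm0 G hϖ hC) (Mod.Gs.top _ _ _ _ _) (fun j => (fs hϖ hC).pt j ∅ 0)
    (ev_vT L.r G.γ) (gd_sub hC hW hD)
    (fun f hf => hA f ((mem_An G hϖ hC (gd_sub hC hW hD) f).2 hf)) j

theorem tra : TRA := by
  intro O F _ _ _ _ _ _ _ ϖ S L X as β τ ι' _ _ _ K n G hϖ hC _ _ Y Y' _ _ _ _ h1 h2 h3 h4 hT f hf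
  exact (mem_An G hϖ hC (gd_of h1 h2) f).2 (Mod.tra_of (fm0 G hϖ hC) (Mod.Gs.top _ _ _ _ _)
    (gd_of h1 h2) (gd_sub hC h3 h4) hT ((mem_An G hϖ hC (gd_sub hC h3 h4) f).1 hf))

end Vale.Agent.P022S.H94
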