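import Vale.Agent.P022S.Mod.Gw
import Vale.Agent.P022E.As.Defs2

/-! # P022S: the support of the forms contains a surface -/

set_option linter.all false

noncomputable section

namespace Vale.Agent.P022S.Sd

open IsLocalRing
open Vale.Agent.P022 Vale.Agent.P022G.Mod
open Vale.Agent.P022E.As (Tg Big Dq)
open Ideal (torsionOf mem_torsionOf_iff)

variable {O : Type} [CommRing O]

/-- a prime of dimension at least two over the annihilator -/
theorem seed0 {P : Type} [CommRing P] [P022D.PA.Base P] {𝔊 : Set (Ideal (Tg O))}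
    {Φ : ∀ a : Ideal (Tg O), P →+* Tg O ⧸ a} {m : Ideal (Tg O)} (h : Fm 𝔊 Φ m) {Y : Type}
    [AddCommGroup Y] [Module (Tg O) Y] (g : Gd 𝔊 Y) (hb : Big m Y) :
    ∃ E : Ideal P, E.IsPrime ∧ (2 : WithBot ℕ∞) ≤ ringKrullDim (P ⧸ E) ∧
      (∀ f, (∀ w : Y, Φ (torsionOf (Tg O) Y w) f = 0) → f ∈ E) ∧ Kr 𝔊 Φ ≤ E ∧
      ∀ f t, (∀ a ∈ 𝔊, Φ a f = Ideal.Quotient.mk a t) → ∀ c : ℕ, (∀ w : Y, t ^ c • w = 0) →
        f ∈ E := by
  obtain ⟨_, c⟩ := h.mod g
  obtain ⟨E, hE, hA, hd⟩ := hb P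
    (fun u s => (h.fin c s u).imp fun t ht => ht.2)
    (fun u hu w => (h.dis c w).imp fun k hk => hk _ (Ideal.pow_mem_pow hu k)) fun p => by
      obtain ⟨u, hu⟩ := h.mu p
      obtain ⟨a, ha, r⟩ := h.res
      exact ⟨u, (r u p (hu a ha)).2, c.all hu⟩
  refine ⟨E, hE, hd, fun f hf => hA ((h.mem_ann c g f).2 hf), c.kr.trans hA,
    fun f t e k hk => hE.mem_of_pow_mem k (hA ((h.mem_ann c g _).2 fun w => ?_))⟩
  rw [map_pow, e _ (g w), ← map_pow]
  exact Ideal.Quotient.eq_zero_iff_mem.2 ((mem_torsionOf_iff _ _).2 (hk w))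

/-- relations go down from the level without auxiliary primes -/
theorem down {Y0 Yb : Type} [AddCommGroup Y0] [Module (Tg O) Y0] [AddCommGroup Yb]
    [Module (Tg O) Yb] {q : Fin 0 → ℕ} {φ : Fin 0 → GQ} {c : ℕ}
    (β : (Finset (Fin 0) → Y0) →ₗ[Tg O] Yb) (hβ : ∀ w, β w = 0 → (Dq q φ : Tg O) ^ c • w = 0)
    (t : Tg O) (ht : ∀ v : Yb, t • v = 0) (w : Y0) : t • w = 0 := by
  have h1 := hβ (t • fun _ => w) (by rw [map_smul, ht])
  rw [Dq, Finset.univ_eq_empty, Finset.prod_empty, one_pow, one_smul] at h1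
  exact congrFun h1 ∅

end Vale.Agent.P022S.Sd
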