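import Vale.Agent.P022S.Rows
import Vale.Agent.P022S.Rw.Sd0
import Vale.Agent.P022S.Mod.Wd
import Vale.Agent.P022G.Chain2
import Vale.Agent.P022D.As.Cov

/-! # P022S, row SEED: a surface in the support of the forms -/

set_option linter.all false

noncomputable section

namespace Vale.Agent.P022S

open NumberField IsLocalRing MvPowerSeries
open Vale.Agent.P022 Vale.Agent.P022S.R Vale.Agent.P022S.Loc
open Vale.Agent.P027M.S (Inert mx)
open Vale.Agent.P022D.Sel (M2)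
open Vale.Agent.P022D.Core (PS Coef)
open Vale.Agent.P022E.Loc (Pl)
open Vale.Agent.P022E.As (Tg cc tt dd yy mT ev0)
open Vale.Agent.P022G (Hm)
open Vale.Agent.P022G.Word (wd)
open Vale.Agent.P022G.Mod (Fm Gd Kr Ph Hq ph_hm mem_Kr)
open Vale.Agent.P022G.Chain (Pd Cv)
open Vale.Agent.P022F.End0 (evc evt evd)
open Vale.Agent.P022S.Mod (GS Fs gd_of)
open Ideal (torsionOf mem_torsionOf_iff)

namespace Sd

theorem wd_ins {G : Type} [Group G] {n : ℕ} (γ : Fin n → G) (i : Fin n) (s : Finset (Fin n)) :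
    ∃ A B : G, wd γ (insert i s) = A * γ i * B ∧ wd γ (s.erase i) = A * B := by
  obtain ⟨l1, l2, e⟩ := List.append_of_mem
    ((Finset.mem_sort (· ≤ ·)).2 (Finset.mem_insert_self i s))
  have nd := Finset.sort_nodup (insert i s) (· ≤ ·)
  have pw := Finset.pairwise_sort (insert i s) (· ≤ ·)
  have mm := fun j => Finset.mem_sort (s := insert i s) (a := j) (· ≤ ·)
  rw [e] at nd pw mm
  have sb : (l1 ++ l2).Sublist (l1 ++ i :: l2) := (List.sublist_cons_self _ _).append_left _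
  have k : (s.erase i).sort (· ≤ ·) = l1 ++ l2 := by
    rw [← (List.toFinset_sort (· ≤ ·) (nd.sublist sb)).2 (pw.sublist sb)]
    congr 1
    ext j
    have ni : i ∉ l1 ++ l2 := (List.nodup_cons.1 (List.perm_middle.nodup_iff.1 nd)).1
    have := mm j
    rw [List.perm_middle.mem_iff, List.mem_cons, Finset.mem_insert] at this
    rw [Finset.mem_erase, List.mem_toFinset]
    exact ⟨fun h => (this.2 (Or.inr h.2)).resolve_left h.1, fun h =>
      have c : j ≠ i := fun c => ni (c ▸ h)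
      ⟨c, (this.1 (Or.inr h)).resolve_left c⟩⟩
  refine ⟨(l1.map γ).prod, (l2.map γ).prod, ?_, ?_⟩
  · rw [wd, e, List.map_append, List.prod_append, List.map_cons, List.prod_cons, mul_assoc]
  · rw [wd, k, List.map_append, List.prod_append]

section hm
variable {O B : Type} [CommRing O] [CommRing B] {m : ℕ} {rc : Fin m → M2 O} {j : O →+* B}
  {t : Finset (Fin m) → B} {d : Fin m → B} {ψ : PS O (Sy m) →+* B} (h : Hm j (gv rc j t d) ψ)
include h

theorem hm_t (s : Finset (Fin m)) : ψ (tS rc id s) = t s := by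
  rw [tS, map_add, h.c, h.x]; exact add_sub_cancel _ _

theorem hm_d (i : Fin m) : ψ (dS rc id i) = d i := by
  rw [dS, map_add, h.c, h.x]; exact add_sub_cancel _ _

end hm

variable {O F : Type} [CommRing O] [IsDomain O] [IsDiscreteValuationRing O] [Coef O] [Field F]
  [CharP F 2] {ϖ : O} {S : Dat O F} {L : Pl O} {X : Finset ℕ} {as : ℕ} {κ : Type} {gk : κ → GQ}
  {n : ℕ} (G : Gs S L gk n)

theorem fs (hϖ : Irreducible ϖ) (hC : Cx S L X as) : Fs ϖ L S.T := by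
  have e : ∀ g, S.red.mapMatrix (L.r g) = 1 := fun g =>
    (hC.ok.lift g).trans (by rw [mx, hC.rb1]; rfl)
  refine ⟨hϖ, fun g => (hC.ok.ker _).1 ?_, fun g => (hC.ok.ker _).1 ?_, hC.ok.cont,
    fun l a b => hC.unr l a (Or.inl b)⟩
  · have := congrArg Matrix.trace (e g)
    rw [Matrix.trace_fin_two, Matrix.trace_fin_two] at this
    rw [Matrix.trace_fin_two, map_add]
    exact this.trans (CharTwo.add_self_eq_zero _)
  · rw [map_sub, map_one, RingHom.map_det, e, Matrix.det_one, sub_self]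

theorem r_wd (s : Finset (Fin n)) : L.r (wd G.γ s) = wm G.rc s := by
  rw [wd, map_list_prod, List.map_map]; rfl

theorem v_mem (s : Sy n) : vT G.rc G.γ s ∈ mT L.r := by
  change ev0 L.r _ ∈ maximalIdeal O
  rcases s with s | i
  · change ev0 L.r (tt _ - cc _) ∈ _
    rw [map_sub, evt, evc, r_wd, sub_self]; exact zero_mem _
  · change ev0 L.r (dd _ - cc _) ∈ _
    rw [map_sub, evd, evc, Gs.rc, sub_self]; exact zero_mem _

theorem fm0 (H : Fs ϖ L S.T) : Fm (GS ϖ L S.T ∅ 0) (Ph (vT G.rc G.γ)) (mT L.r) :=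
  H.fm G.gen1 _ (v_mem G) (fun s => ⟨.inl s, _, rfl⟩) (fun i => ⟨.inr i, _, rfl⟩)
    fun i hi => absurd hi (Nat.not_lt_zero i)

theorem hq (H : Fs ϖ L S.T) {a : Ideal (Tg O)} (ha : a ∈ GS ϖ L S.T ∅ 0) :
    Hm ((Ideal.Quotient.mk a).comp MvPolynomial.C) (gv G.rc ((Ideal.Quotient.mk a).comp
      MvPolynomial.C) (fun s => Ideal.Quotient.mk a (tt (wd G.γ s)))
      fun i => Ideal.Quotient.mk a (dd (G.γ i))) (Ph (vT G.rc G.γ) a) := by
  obtain ⟨k, hk⟩ := H.nil ha.gw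
  have h := ph_hm hk (v_mem G)
  refine ⟨h.c, fun s => (h.x s).trans ?_⟩
  rcases s with s | i <;> exact map_sub _ _ _

theorem hz (H : Fs ϖ L S.T) {a : Ideal (Tg O)} (ha : a ∈ GS ϖ L S.T ∅ 0) (Z : PO S (Tg O ⧸ a))
    (h : Z.Std (Ideal.Quotient.mk a)) : Hm Z.ι (Z.val G.rc G.γ) (Ph (vT G.rc G.γ) a) := by
  have e : Z.ι = (Ideal.Quotient.mk a).comp MvPolynomial.C := RingHom.ext fun o => (h.c o).symm
  have k := hq G H ha
  simp only [h.t, h.d] at k
  rw [PO.val, e]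
  exact k

end Sd

open Sd in
/-- **row SEED** -/
theorem seedS (hW : GPW) (hR : CRV) (hT : TYP) : SEED := by
  intro O F _ _ _ _ _ _ _ ϖ S L X as β τ ι' _ _ _ K n G hϖ hC hK hD
  intro Sf I Y0 W0 _ _ _ _ ses ig ib iJ eT H J _
  have f := fs hϖ hC
  have g : Gd (GS ϖ L S.T ∅ 0) (Y0 (iJ J)) := eT ▸ gd_of (H.gm0 _) (H.dm0 _)
  haveI := P022D.As.base O (Sy n)
  obtain ⟨E, hE, hd, h1, h2, h3⟩ := seed0 (fm0 G f) g (H.big J)
  have po : ∀ a ∈ GS ϖ L S.T ∅ 0, ∀ u : PS O (Sy n), (∀ Z : PO S (Tg O ⧸ a),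
      Z.Std (Ideal.Quotient.mk a) → Z.Cl L ∅ → Hm Z.ι (Z.val G.rc G.γ) (Ph (vT G.rc G.γ) a) →
      Ph (vT G.rc G.γ) a u = 0) → Ph (vT G.rc G.γ) a u = 0 := fun a ha u hu => by
    by_cases e : a = ⊤
    · haveI := Ideal.Quotient.subsingleton_iff.2 e
      exact Subsingleton.elim _ _
    · obtain ⟨Z, k, hc, -⟩ := hW O F ϖ S L X as β τ ι' K n G hϖ hC hK hD ∅ 0 a e ha
      exact hu Z k hc (hz G f ha Z k)
  obtain ⟨b, c, n₀, A, lv⟩ := H.lev 0
  obtain ⟨τq, φ, Yb, Wc, Pc, _, _, _, _, _, _, V, -⟩ := lv 0 Fin.elim0 (fun i => i.elim0)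
    fun i => i.elim0
  obtain ⟨e, -, ei, -⟩ := V.fib (iJ J)
  have aP : G.aP ≤ E := fun u hu => h2 (mem_Kr.2 fun a ha => po a ha u fun Z _ hc m =>
    hu _ _ _ _ ⟨Z, hc, rfl, rfl⟩ m)
  have pi : C ϖ ∈ E := h3 _ (cc ϖ) (fun a ha => (hq G f ha).c ϖ) 1 fun w => by
    rw [pow_one, H.pi0]
  have fr : ∀ l ∈ J, G.fr l ∈ E := fun l hl => h3 _ (tt (L.φ l))
    (fun a ha => (hm_t (hq G f ha) _).trans (by rw [Mod.wd_one, G.hφ])) c
    (down e ei _ (V.new J l hl))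
  have un : ∀ l, l ∉ J → ∀ s, tS G.rc id (insert (G.iτ l) s) - tS G.rc id (s.erase (G.iτ l)) ∈ E :=
    fun l hl s => by
      obtain ⟨A, B, e1, e2⟩ := wd_ins G.γ (G.iτ l) s
      refine h3 _ (tt (B * A * L.τ l) - tt (B * A)) (fun a ha => ?_) 1
        (down e ei _ fun v => by rw [pow_one, sub_smul, V.unr J l hl, sub_self])
      rw [map_sub, hm_t (hq G f ha), hm_t (hq G f ha), e1, e2, G.hτ, map_sub,
        Ideal.Quotient.eq.2 (ha.gw.tc (A * L.τ l) B), Ideal.Quotient.eq.2 (ha.gw.tc A B),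
        mul_assoc]
  refine ⟨E, ⟨hE, P022G.Chain.le_of_cv hE (le_trans (by norm_num) hd) fun p hp hle => ?_, hd⟩,
    fun u hu => h1 u fun w => po _ (g w) u fun Z k _ m =>
      hu _ _ _ _ ⟨w, Z, _, k, Ideal.mk_ker, rfl, rfl⟩ m⟩
  obtain ⟨V', _, _, _, _, _, _, t, j, ρ, θ, ht, hc, rfl⟩ :=
    hR O F ϖ S L X as β τ ι' K n G hϖ hC hK hD p hp (aP.trans hle) (hle pi)
  refine sup_le (sup_le (aP.trans hle) ((Ideal.span_singleton_le_iff_mem _).2 (hle pi)))
    (Ideal.span_le.2 ?_)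
  rintro u (⟨l, hl, k⟩ | ⟨l, hl, rfl | ⟨s, rfl⟩⟩)
  · have h4 := hT O F ϖ S L X as β τ ι' K n G hϖ hC hK hD V' t j ρ θ ht hc l (hle (fr l hl))
    rcases k with rfl | rfl | rfl
    exacts [h4.1, hle (fr l hl), h4.2]
  · show θ _ = 0
    rw [map_sub, hm_d hc.hm, hc.det, map_one, sub_self]
  · exact hle (un l hl s)

end Vale.Agent.P022S
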