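import Vale.Agent.P022S.Rw.Jr
import Vale.Agent.P022S.Rw.GpoH94
import Vale.Agent.P022S.Rw.Seed
import Vale.Agent.P022S.Mod.Lv
import Vale.Agent.P022S.Pt.Fin

/-!
# P022S: the package at a curve and the last step
-/

set_option linter.all false

open IsLocalRing Filter MvPowerSeries NumberField

noncomputable section

namespace Vale.Agent.P022S.H78

open Vale.Agent.P022 Vale.Agent.P022S.R Vale.Agent.P022S.Loc Vale.Agent.P022G.Mod
open Vale.Agent.P022S.Mod (GS Fs Lv La A0 Ax gq lv_of vS gd_of mem_A0 dpV wd_append wd_one)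
open Vale.Agent.P022G (Hm subL resJ)
open Vale.Agent.P022G.Word (wd)
open Vale.Agent.P022E.As (Tg cc tt dd yy mT mul2)
open Vale.Agent.P027M.S (Inert)
open Vale.Agent.P022D.Core (PS io y1 Coef)
open Vale.Agent.P022D.PA (Base Cv lim)
open Vale.Agent.P022E.Loc (Pl)
open Vale.Agent.P022F.End0 (evc)
open Vale.Agent.P022G.Fin (inc mem_res)

variable {O F : Type} [CommRing O] [IsDomain O] [IsDiscreteValuationRing O] [Coef O] [Field F]
  [CharP F 2] {ϖ : O} {S : Dat O F} {L : Pl O} {X : Finset ℕ} {as : ℕ} {β : Type}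
  {τ ι' : β → Type}

theorem mX_eq (K : Kx O β τ ι' L.C) (X : Finset ℕ) (J : Finset L.C) :
    mX K X J = mul2 (fun l => K.a (inc L X l)) (fun l => K.a' (inc L X l)) (resJ X J) := by
  classical
  unfold mX mul2
  symm
  refine Finset.prod_bij (fun l _ => inc L X l) (fun l _ => ?_) (fun a _ b _ e => ?_)
    (fun l hl => ?_) fun l _ => ?_
  · exact Finset.mem_filter.2 ⟨Finset.mem_univ _, (Finset.mem_sdiff.1 l.2).2⟩
  · exact Subtype.ext (congrArg (fun x : L.C => (x : ℕ)) e)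
  · exact ⟨⟨l.1, Finset.mem_sdiff.2 ⟨l.2, (Finset.mem_filter.1 hl).2⟩⟩, Finset.mem_univ _, rfl⟩
  · by_cases c : l ∈ resJ X J
    · rw [if_pos c, if_pos (mem_res.1 c)]
    · rw [if_neg c, if_neg fun k => c (mem_res.2 k)]

theorem ax (hC : Cx S L X as) : Ax L X := fun l hl =>
  have m : l ∈ L.W ∪ L.C := Finset.mem_union_right _ (hC.sub hl)
  ⟨(hC.ok.pr l m).1, (hC.ok.hP l m).1, (hC.ok.hP l m).2, (hC.ok.tm l m).tau,
    hC.unr l (hC.ok.pr l m).1 (Or.inr hl) _ (hC.ok.hP l m).1 (hC.ok.hP l m).2 _ (hC.ok.tm l m).tau⟩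

theorem rcr_eq {κ : Type} {gk : κ → GQ} {n : ℕ} (G : Gs S L gk n) (r : ℕ) :
    G.rcr r = fun i => L.r (Fin.append G.γ (fun _ : Fin r => 1) i) := funext fun i => by
  induction i using Fin.addCases with
  | left i => rw [Gs.rcr, Fin.append_left, Fin.append_left, Gs.rc]
  | right i => rw [Gs.rcr, Fin.append_right, Fin.append_right, map_one]

variable [Fintype β] [∀ b, Fintype (τ b)] {K : Kx O β τ ι' L.C} {n r s : ℕ} {V : Type}
  [CommRing V] {Y : Pc (S := S) (n := n) K r s V} [Base (PP O n r)] [Base (PS O (Sy n))]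

/-- the variables of level `m` -/
abbrev vv (Y : Pc (S := S) (n := n) K r s V) (m : ℕ) : Sy (n + r) ⊕ Fin r → Tg O :=
  Y.G'.vP (Y.τ' m)

/-- the variables of level zero -/
abbrev vz (Y : Pc (S := S) (n := n) K r s V) : Sy n → Tg O := vT Y.G'.rc Y.G'.γ

theorem pc_lv (hϖ : Irreducible ϖ) (hC : Cx S L X as) (hY : Y.Ok) :
    Lv ϖ L S.T Y.q (vv Y) (vz Y) Y.jr Sum.inr := by
  refine lv_of (H94.fs hϖ hC) Y.G'.γ (τ' := Y.τ') Y.G'.gen1 (fun m => Y.G'.gen r _ _ (hY.gn m))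
    (fun m i => ?_) Sum.inl Sum.inr id (fun z => ?_) (fun z => ⟨z, rfl⟩) (fun m z => ?_)
    (fun _ _ => rfl) (fun z => ?_) hY.jr.c (fun z => ?_) (fun i => ?_) (fun i => ?_)
    fun i => hY.jr.x _
  · obtain ⟨a, P, b, c⟩ := hY.gn m i
    exact ⟨_, P, b.1, a, b.2.1, b.2.2, c.1⟩
  · rcases z with z | z
    · exact Or.inl ⟨z, rfl⟩
    · exact Or.inr ⟨z, rfl⟩
  · rcases z with z | z
    · change tt _ - cc (wm (Y.G'.rcr r) z).trace = tt _ - cc _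
      rw [rcr_eq, H94.wm_r]
    · change dd _ - cc (Y.G'.rcr r z).det = dd _ - cc _
      rw [rcr_eq]
  · rcases z with z | z
    · change tt _ - cc (wm Y.G'.rc z).trace = tt _ - cc _
      rw [← Sd.r_wd]
    · rfl
  · rw [hY.jr.x]
    change tS _ _ _ - C (wm (Y.G'.rcr r) z).trace = _
    rw [rcr_eq, H94.wm_r, wd_append, tS, Sd.r_wd, add_sub_cancel_left]
  · rw [hY.jr.x]
    change Fin.append (dS Y.G'.rc id) (fun _ : Fin r => 1) (Fin.castAdd r i) -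
      C (Y.G'.rcr r (Fin.castAdd r i)).det = _
    rw [Gs.rcr, Fin.append_left, Fin.append_left, dS, add_sub_cancel_left]
  · rw [hY.jr.x]
    change Fin.append (dS Y.G'.rc id) (fun _ : Fin r => 1) (Fin.natAdd n i) -
      C (Y.G'.rcr r (Fin.natAdd n i)).det = _
    rw [Gs.rcr, Fin.append_right, Fin.append_right, Matrix.det_one, map_one, sub_self]

section val
variable (H : Lv ϖ L S.T Y.q (vv Y) (vz Y) Y.jr Sum.inr) {m : ℕ} {b : Ideal (Tg O)}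
  (hb : b ∈ gq ϖ L S.T Y.q m)
include H hb

theorem val_t (z : Finset (Fin (n + r))) : Ph (vv Y m) b (tS (Y.G'.rcr r) Sum.inl z) =
    Ideal.Quotient.mk b (tt (wd (Fin.append Y.G'.γ (Y.τ' m)) z)) := by
  rw [tS, map_add, (H.hq m hb).c, (H.hq m hb).x, RingHom.comp_apply, ← map_add]
  exact congrArg _ (add_sub_cancel _ _)

theorem val_d (i : Fin (n + r)) : Ph (vv Y m) b (dS (Y.G'.rcr r) Sum.inl i) =
    Ideal.Quotient.mk b (dd (Fin.append Y.G'.γ (Y.τ' m) i)) := by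
  rw [dS, map_add, (H.hq m hb).c, (H.hq m hb).x, RingHom.comp_apply, ← map_add]
  exact congrArg _ (add_sub_cancel _ _)

end val

theorem kr_eq (hϖ : Irreducible ϖ) (hC : Cx S L X as) :
    Kr (GS ϖ L S.T ∅ 0) (Ph (vz Y)) = Y.G'.aP :=
  Ideal.ext fun f => mem_Kr.trans (H94.mem_aP Y.G' hϖ hC f).symm

theorem an_eq (hϖ : Irreducible ϖ) (hC : Cx S L X as) {N : Type} [AddCommGroup N]
    [Module (Tg O) N] (g : Gd (GS ϖ L S.T ∅ 0) N) : A0 (vz Y) N = Y.G'.An N :=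
  Ideal.ext fun f => mem_A0.trans (H94.mem_An Y.G' hϖ hC g f).symm

theorem pc_rd (hϖ : Irreducible ϖ) (hC : Cx S L X as) (hY : Y.Ok) :
    letI : Algebra (S0 O τ L n S.T r) (S1 O τ L n S.T r) := (io O _ r).toAlgebra
    (∀ (N : ℕ → Type) [∀ m, AddCommGroup (N m)]
    [∀ m, Module (PP O n r) (N m)] (W : Ideal (Tg O) → Prop),
    (∀ m k : ℕ, ∃ a : Ideal (Tg O), Gp S L (Finset.univ.image (Y.q m)) r a ∧ W a ∧
      (∀ i, dd (Y.τq m i) - (1 + yy i) * (tt (Y.τq m i) - (1 + yy i)) ∈ a) ∧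
      ∀ Ψ : PP O n r →+* Tg O ⧸ a, Hm ((Ideal.Quotient.mk a).comp MvPolynomial.C)
        (fun z => Ideal.Quotient.mk a (Y.G'.vP (Y.τ' m) z)) Ψ →
        RingHom.ker Ψ ≤ Module.annihilator (PP O n r) (N m) ⊔ maximalIdeal (PP O n r) ^ k) →
    (Y.rd ϖ).Gal (Y.rd ϖ).E (P022G.Pt.An Y.U N) ∧
    (∀ l : L.C, (∀ a, W a → tt (L.τ l) ∈ a) → (Y.rd ϖ).Gal
      ((Y.rd ϖ).E ⊔ Ideal.span {((DD K n S.T r).T l).trace}) (P022G.Pt.An Y.U N)) ∧
    ((∀ a, W a → ∀ l ∈ X, ∀ g, tt (g * L.τ l) - tt g ∈ a) →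
      (Y.rd ϖ).Gal ((Y.rd ϖ).E ⊔ EU K n S.T r X) (P022G.Pt.An Y.U N))) →
    Rd ϖ S.T Y.q (vv Y) (vz Y) Y.jr Sum.inr Y.τq Y.U (Y.rd ϖ) X
      (fun l => (Y.rd ϖ).E ⊔ Ideal.span {((DD K n S.T r).T l).trace})
      ((Y.rd ϖ).E ⊔ EU K n S.T r X) := by
  letI : Algebra (S0 O τ L n S.T r) (S1 O τ L n S.T r) := (io O _ r).toAlgebra
  haveI := P022D.As.base O (Sy (n + r))
  intro R
  have H := pc_lv hϖ hC hY
  refine ⟨rfl, Ideal.comap_mono (kr_eq hϖ hC).le, ?_, fun m i => (hY.gn m i).1, hY.ine, hY.hU,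
    fun l t ht m => ?_, fun l m b hb => ?_, fun i => MvPowerSeries.rename_X _ _, fun i => ?_,
    fun i => ⟨fun m => io O _ r (Y.tn m i), io O _ r (Y.ta i), fun m a ha => ?_,
      P022D.As.EA.cv_map (io O _ r) (fun z hz h => hz (P022D.As.EB.io_unit h)) (hY.cvt i), ?_⟩,
    fun _ => le_sup_left, le_sup_left, ?_, fun N _ _ W h => R N W fun m k => ?_⟩
  · have := Finset.card_pos.2 ⟨_, S.hl0⟩
    change 4 * S.T.card + 2 * r + 1 = 4 * S.T.card - 1 + (r + r + 2)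
    omega
  · rcases ht with rfl | ⟨z, rfl⟩
    · obtain ⟨o, ho⟩ := Ideal.mem_span_singleton'.1 (hϖ.maximalIdeal_eq ▸ H.fs.det (L.τ l))
      refine ⟨1, 0, -cc o, fun b hb => ?_⟩
      rw [map_sub, val_d H hb, Fin.append_left, Y.G'.hτ, Ideal.Quotient.eq.2
        (hb.gw.cld _ (Or.inr (Or.inr (Or.inl ⟨l, Finset.mem_union_right _ l.2, rfl⟩)))), map_one,
        ← map_one (Ideal.Quotient.mk b), ← map_sub, zero_mul, zero_add, neg_mul,
        show (cc o * cc ϖ : Tg O) = 1 - cc (L.r (L.τ l)).det from by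
          rw [cc, cc, cc, ← map_mul, ho, map_sub, map_one], neg_sub]
    · obtain ⟨A, B, e1, e2⟩ := Sd.wd_ins (Fin.append Y.G'.γ (Y.τ' m))
        (Fin.castAdd r (Y.G'.iτ l)) z
      refine ⟨B * A, 1, 0, fun b hb => ?_⟩
      rw [map_sub, val_t H hb, val_t H hb, e1, e2, Fin.append_left, Y.G'.hτ,
        Ideal.Quotient.eq.2 (hb.gw.tc (A * L.τ l) B), Ideal.Quotient.eq.2 (hb.gw.tc A B), one_mul,
        zero_mul, add_zero, map_sub, mul_assoc]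
  · exact (val_t H hb _).trans (by rw [wd_one, Fin.append_left, Y.G'.hφ])
  · change IsUnit (1 + y1 O _ i)
    rw [MvPowerSeries.isUnit_iff_constantCoeff, map_add, map_one, y1,
      MvPowerSeries.constantCoeff_X, add_zero]
    exact isUnit_one
  · have k := H.hq m ha
    by_cases e : a = ⊤
    · subst e
      exact Subsingleton.elim _ _
    obtain ⟨Z, a1, a2, -⟩ := H94.gp_of hϖ hC e ha
    refine ((hY.tn m i _ Z ((Ph (vv Y m) a).comp (io O _ r)) a2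
      ⟨fun o => ?_, fun z => ?_⟩).1).trans (a1.t _).symm
    · exact (congrArg (Ph (vv Y m) a) (MvPowerSeries.rename_C _ o)).trans ((k.c o).trans (a1.c o))
    · exact (congrArg (Ph (vv Y m) a) (MvPowerSeries.rename_X _ z)).trans
        ((k.x _).trans (H94.std_val a1 _ _ z))
  · have e1 : ψ1 S L τ n r (io O _ r (Y.ta i)) = io O _ r (ψ0 S L τ n r (Y.ta i)) :=
      (MvPowerSeries.rename_rename _ _ _).trans (MvPowerSeries.rename_rename
        (e0 r : Sy (n + r) ↪ V0 τ L n S.T r)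
        (Function.Embedding.inl : V0 τ L n S.T r ↪ V0 τ L n S.T r ⊕ Fin r) (Y.ta i)).symm
    change io O _ r (ψ0 S L τ n r (Y.ta i) - 2) = ψ1 S L τ n r (io O _ r (Y.ta i)) - 2
    rw [e1, map_sub, map_ofNat]
  · rintro l hl _ ⟨p, rfl⟩
    exact Ideal.mem_sup_right (Ideal.subset_span ⟨l, hl, p.1, p.2, rfl⟩)
  · obtain ⟨a, a1, a2, a3⟩ := h m k
    refine ⟨a, H94.gp_of hϖ hC (fun e => ?_) a1, a3⟩
    have : P022E.As.ev0 L.r 1 ∈ maximalIdeal O := a2 (e ▸ trivial)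
    rw [map_one] at this
    exact this isUnit_one

/-- **the denominator** -/
theorem dp (hϖ : Irreducible ϖ) (hC : Cx S L X as) (hY : Y.Ok) (hs : Function.Surjective Y.jr)
    {lam : ℕ → Tg O →+* PP O n r} (A : La ϖ L S.T Y.q (vv Y) (vz Y) Y.jr Sum.inr lam)
    {tu : GQ → PS O (Sy n)} (hu : Y.G'.Tu tu) {φ : ℕ → Fin r → GQ} {E : Ideal (PS O (Sy n))}
    (hE : E.IsPrime) (h1 : Y.G'.aP ⊔ Ideal.span {C ϖ} ≤ E) {e : ℕ}
    (hφ : ∀ m i, tu (φ m i) ∉ E ⊔ maximalIdeal (PS O (Sy n)) ^ e) {c : ℕ} {d : PP O n r}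
    (hd : Cv (Y.U : Filter ℕ) (P022G.Mod.DD lam Y.q φ c) d) : Y.jr d ∉ E := by
  obtain ⟨l0, k1, -⟩ := A.lv.fs.lam0 A.lv.fm0 (H94.vA_mem Y.G')
  have k2 : Kr (GS ϖ L S.T ∅ 0) (Ph (vz Y)) ≤ E := (kr_eq hϖ hC).le.trans (le_sup_left.trans h1)
  haveI := IsLocalHom.of_surjective Y.jr hs
  refine dpV (lam := l0) (e := e) (fun z hz => map_nonunit Y.jr z hz) hE ?_
    (fun m t => k2 (A.jrK k1 m t)) (fun m i => ?_) (fun m i k => hφ m i ?_) hd
  · obtain ⟨o, ho⟩ := A.tw.two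
    rw [← map_ofNat (C : O →+* PS O (Sy n)) 2, ho, map_mul]
    exact E.mul_mem_right _ (h1 (Ideal.mem_sup_right (Ideal.mem_span_singleton_self _)))
  · obtain ⟨a, P, b, -⟩ := hY.gn m i
    exact b.1.odd_of_ne_two fun e => a (by rw [e, hC.ok.hT]; simp)
  · have : tu (φ m i) - l0 (tt (φ m i)) ∈ E := k2 (mem_Kr.2 fun a ha => by
      by_cases e : a = ⊤
      · subst e
        exact Subsingleton.elim _ _
      obtain ⟨Z, a1, a2, -⟩ := H94.gp_of hϖ hC e ha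
      rw [map_sub, k1 a ha, hu _ Z _ a2 (Sd.hz Y.G' A.lv.fs ha Z a1), a1.t, sub_self])
    simpa using add_mem (Ideal.mem_sup_left this) k

omit [Fintype β] [∀ b, Fintype (τ b)] in
theorem sub_T (hC : Cx S L X as) : X ⊆ S.T := fun l h => by
  rw [hC.ok.hT]
  exact Finset.mem_insert_of_mem (Finset.mem_insert_of_mem (Finset.mem_union_right _ (hC.sub h)))

end Vale.Agent.P022S.H78

namespace Vale.Agent.P022S.H78

open Vale.Agent.P022 Vale.Agent.P022S.R Vale.Agent.P022S.Loc Vale.Agent.P022G.Mod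
open Vale.Agent.P022S.Mod (gd_of gm_sub)
open Vale.Agent.P022G (subL resJ)
open Vale.Agent.P022D.Core (PS io y1 Coef)
open Vale.Agent.P022D.PA (lim)
open Vale.Agent.P022G.Fin (inc)

theorem pkgC (h4 : CPK) (h5 : RGAL) (h8 : RCOV) : PKG := by
  intro O F _ _ _ _ _ _ _ ϖ S L X as β τ ι' _ _ _ K n G hϖ hC hK hK' Sf I Y0 W0 _ _ _ _ ses ig ib
    iJ e1 hD p σ hp a1 a2 a3 a4
  obtain ⟨r, s, V, _, _, _, _, _, _, Y, b1, rfl, b3, b4, b, c, φ, Yb, Wc, Pb, _, _, _, _, _, _,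
    W, dY, -, Ps, tu, e, hu, hφ⟩ := h4 O F ϖ S L X as β τ ι' K n G hϖ hC hK hK' True L Sf I Y0 W0
      ses ig ib iJ e1.le (hD.hdx True) p σ hp a1 a2 a3 a4
  refine ⟨r, s, V, inferInstance, inferInstance, inferInstance, inferInstance, inferInstance,
    inferInstance, Y, b1, rfl, b3, b4, fun {_} => ?_⟩
  haveI := P022D.As.base O (Sy n)
  letI : Algebra (S0 O τ L n S.T r) (S1 O τ L n S.T r) := (io O _ r).toAlgebra
  obtain ⟨lam, A⟩ := (pc_lv hϖ hC b3).ex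
  obtain ⟨d, hd⟩ := lim (PP O n r) Y.U (P022G.Mod.DD lam Y.q φ c)
  obtain ⟨a, M, Gm, i1, i2, i3, i4, k1, k2, k3⟩ := pkg A (pc_rd hϖ hC b3
    (h5 O F ϖ S L X as β τ ι' K n _ hϖ hC hK hK' r s V Y b1 rfl b3)) e1 (hD.hdx True) W dY hd
  refine ⟨_, a, _, d, M, Gm, i1, i2, i3, i4, k1, fun E hE => dp hϖ hC b3
    (h8 O F ϖ S L X as β τ ι' K n _ hϖ hC hK hK' r s V Y b1 rfl b3).2.2.2.2.1 A hu (a4 E hE).1.1
    (a4 E hE).1.2.1 (fun m i => hφ m i E hE) hd, fun i => ?_, fun l hl => ?_⟩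
  · rw [k2, an_eq hϖ hC (e1 ▸ gd_of (hD.gm0 i) (hD.dm0 i))]
  · have u1 := (ax hC l hl).2.2.2.2
    exact k3 l (fun m => Pb m l) u1 fun m =>
      Ps trivial m l (by have := hC.one l hl; omega) u1

theorem final2C (h4 : CPK) (h5 : RGAL) (h6 : RGAL0) (h7 : ROK) (h8 : RCOV) (h9 : RFIN) :
    FINAL2 := by
  classical
  intro O F _ _ _ _ _ _ _ ϖ S L X as β τ ι' _ _ _ K n G hϖ hC hK hK' Sf I Y0 W0 _ _ _ _ ses ig ib
    iJ e1 hD Z C0 p hZ z1 z2 z3 z4 z5 z6 hp hf hE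
  have hE' : ∀ J : Finset L.C, ∃ E, P022G.Chain.Pd (G.aP ⊔ Ideal.span {C ϖ}) 2 E ∧ E ≤ p ∧
      ((∀ a ∈ J, (a : ℕ) ∉ X) → G.IT ϖ J ≤ p → G.IT ϖ J ≤ E ∧ G.An (Y0 (iJ (resJ X J))) ≤ E) :=
    fun J => by
      by_cases h : (∀ a ∈ J, (a : ℕ) ∉ X) ∧ G.IT ϖ J ≤ p
      · obtain ⟨E, k1, k2, k3⟩ := hE J h.1 h.2
        exact ⟨E, Jr.pd k1, k2, fun _ _ => ⟨k1.2.1, k3⟩⟩
      · exact ⟨C0, z5, z6, fun a b => absurd ⟨a, b⟩ h⟩
  choose EJ j1 j2 j3 using hE'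
  have hI := z5.2.1.trans z6
  obtain ⟨r, s, V, _, _, _, _, _, _, Y, b1, rfl, b3, rfl, b, c, φ, Yb, Wc, Pb, _, _, _, _, _, _,
    W, dY, dW, -, tu, e, hu, hφ⟩ := h4 O F ϖ S L X as β τ ι' K n G hϖ hC hK hK' False (subL L X) Sf
      I Y0 W0 ses ig ib iJ (e1 ▸ Finset.sdiff_subset) hD p (insert C0 (Finset.univ.image EJ)) hp
      (le_sup_left.trans hI) (hI (Ideal.mem_sup_right (Ideal.mem_span_singleton_self _))) hf
      fun E hE => by
        rcases Finset.mem_insert.1 hE with rfl | hE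
        · exact ⟨z5, z6⟩
        · obtain ⟨J, -, rfl⟩ := Finset.mem_image.1 hE
          exact ⟨j1 J, j2 J⟩
  haveI := P022D.As.base O (Sy n)
  haveI := P022D.As.base O (Sy (n + r) ⊕ Fin r)
  haveI := P022D.As.base O (V0 τ L n S.T r)
  haveI := P022D.As.base O (V0 τ L n S.T r ⊕ Fin r)
  letI : Algebra (S0 O τ L n S.T r) (S1 O τ L n S.T r) := (io O _ r).toAlgebra
  obtain ⟨lam, A⟩ := (pc_lv hϖ hC b3).ex
  obtain ⟨d, hd⟩ := lim (PP O n r) Y.U (P022G.Mod.DD lam Y.q φ c)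
  obtain ⟨-, -, -, c1, c2, -⟩ := h8 O F ϖ S L X as β τ ι' K n _ hϖ hC hK hK' r s V Y b1 rfl b3
  obtain ⟨f1, f2⟩ := h9 O F ϖ S L X as β τ ι' K n _ hϖ hC hK hK' r s V Y b1 rfl b3
  have g0 := fun i => gd_of (gm_sub (ax hC) (fun _ _ => Finset.notMem_empty _) (e1 ▸ hD.gm0 i)
    (e1 ▸ hD.dm0 i)) ((hD.dm0 i).up (e1 ▸ Finset.sdiff_subset))
  rw [← an_eq hϖ hC (gd_of (gm_sub (ax hC) (fun _ _ => Finset.notMem_empty _) (e1 ▸ hD.gmW)
    (e1 ▸ hD.dmW)) (hD.dmW.up (e1 ▸ Finset.sdiff_subset)))]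
  refine final A (pc_rd hϖ hC b3 (h5 O F ϖ S L X as β τ ι' K n _ hϖ hC hK hK' r s V Y b1 rfl b3))
    (ax hC) (sub_T hC) e1 hD W dY dW hd (Jr.lz b3.jr c1 c2)
    (h7 O F ϖ S L X as β τ ι' K n _ hϖ hC hK hK' r s V Y b1 rfl b3)
    (fun l => (hK.ok Unit).odd (inc L X l)) (fun l => (hK.ok Unit).odd' (inc L X l)) (mX_eq K X)
    f1 f2 hZ (z4.trans z6) z1 (fun h => z3 (b3.jr.c ϖ ▸ h)) (fun h => dp hϖ hC b3 c2 A hu z5.1
      z5.2.1 (fun m i => hφ m i _ (Finset.mem_insert_self _ _)) hd (z4 h))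
    ((h6 O F ϖ S L X as β τ ι' K n _ hϖ hC hK hK' r s V Y b1 rfl b3).2 _ (Ideal.comap_mono z1)
      fun l hl => Jr.tau_le b3.jr _ (z2 l hl)) fun J hJ k => ?_
  obtain ⟨k1, k2⟩ := j3 J hJ (sup_le hI k)
  exact ⟨EJ J, Jr.gp b3.jr (j1 J).1 (j1 J).2.1 (j2 J) (dp hϖ hC b3 c2 A hu (j1 J).1 (j1 J).2.1
    (fun m i => hφ m i _ (Finset.mem_insert_of_mem (Finset.mem_image_of_mem _
      (Finset.mem_univ J)))) hd), (j1 J).2.2, le_sup_right.trans k1,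
    (an_eq hϖ hC (g0 _)).le.trans k2⟩

end Vale.Agent.P022S.H78
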