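import Vale.Agent.P022S.Rows
import Vale.Agent.P022S.Gens1

/-!
# P022S: the row GENS
-/

set_option linter.all false

noncomputable section

namespace Vale.Agent.P022S

open Vale.Agent.P022 Vale.Agent.P022S.R Vale.Agent.P022S.Loc

theorem gensC : GENS := by
  classical
  intro O F _ _ _ _ _ S L κ _ gk hL W0
  have hT : ∀ l ∈ S.T, l.Prime → l ≠ 2 → l ∈ L.C := fun l hl hp h2 => by
    rw [hL.hT, W0] at hl
    simpa [hp.ne_zero, h2] using hl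
  have h2 : 2 ∈ S.T := by rw [hL.hT]; simp
  have u : ∀ l ∈ L.C, l ∈ L.W ∪ L.C := fun l hl => Finset.mem_union_right _ hl
  have hP : ∀ l ∈ L.C, P022E.GW.Ov l (L.P l) := fun l hl =>
    ⟨(hL.pr l (u l hl)).1, hL.hP l (u l hl)⟩
  obtain ⟨x, hx⟩ := Gen2.ex_x
  let m : Fin 2 ⊕ L.C → GQ := Sum.elim ![x, L.c] fun l => L.τ l
  obtain ⟨n, γ, ix, ic, iτ, iφ, iK, a1, a2, a3, a4, a5, a6, a7, a8, a9⟩ :=
    Gens0.gens0 hT h2 L.P L.τ L.φ hP (fun l hl => hL.tm l (u l hl)) hL.cj hx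
      (Sum.elim gk fun p : (Fin 2 ⊕ L.C) × (Fin 2 ⊕ L.C) => m p.1 * m p.2)
  have e : ∀ a, γ (Sum.elim ![ix, ic] iτ a) = m a := fun a => by
    rcases a with a | a
    · fin_cases a
      · exact a1
      · exact a2
    · exact a3 a
  refine ⟨n, ⟨⟨γ, ix, ic, iτ, iφ, fun t => iK (Sum.inl t), a2, a3, a4, fun t => a5 _, a7,
    fun a b => ⟨iK (Sum.inr (a, b)), ?_, by rw [a5, e, e]; rfl⟩, ?_, a8,
    fun r q τ' h => a9 r q τ' fun i => (h i).2⟩⟩⟩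
  · rintro ⟨c | c, hc⟩
    · exact Sum.inl_ne_inr (a6 (a₁ := Sum.inl (Sum.inl c)) (a₂ := Sum.inr _) hc)
    · exact Sum.inl_ne_inr (a6 (a₁ := Sum.inl (Sum.inr (Sum.inl c))) (a₂ := Sum.inr _) hc)
  · rw [funext e]
    exact Gens0.gen_min hT L.P L.τ L.φ hP (fun l hl => hL.tm l (u l hl)) hL.cj hx

end Vale.Agent.P022S
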