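import Vale.Agent.P022S.Rows
import Vale.Agent.P022S.Kd3
import Vale.Agent.P022S.Tw.Crv
import Vale.Agent.P022D.As.Cov

/-!
# P022S, row KDEL
-/

set_option linter.all false

noncomputable section

namespace Vale.Agent.P022S

open NumberField IsLocalRing MvPowerSeries
open Vale.Agent.P022 Vale.Agent.P022S.R Vale.Agent.P022S.Loc
open Vale.Agent.P027M.S (Inert mx)
open Vale.Agent.P022D.Sel (M2)
open Vale.Agent.P022D.Core (PS Coef)
open Vale.Agent.P022E.Loc (Pl)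
open Vale.Agent.P022E.GW (Ov Gn)
open Vale.Agent.P022G (Hm KI)
open Vale.Agent.P022G.Word (wd)

namespace KdC

variable {O F : Type} [CommRing O] [Field F]

theorem wm_one {B : Type} [CommRing B] {m : ℕ} (Z : Fin m → M2 B) (i : Fin m) :
    wm Z {i} = Z i := by
  simp [wm]

theorem wm_lt {B : Type} [CommRing B] {m : ℕ} (Z : Fin m → M2 B) {i k : Fin m} (h : i < k) :
    wm Z {i, k} = Z i * Z k := by
  rw [wm, Finset.sort_insert (· ≤ ·) (by simpa using h.le) (by simpa using h.ne)]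
  simp

theorem wm_two {B : Type} [CommRing B] {m : ℕ} (Z : Fin m → M2 B) {i k : Fin m} (h : i ≠ k) :
    (wm Z {i, k}).trace = (Z i * Z k).trace := by
  rcases lt_or_gt_of_ne h with h | h
  · rw [wm_lt Z h]
  · rw [Finset.pair_comm, wm_lt Z h, Matrix.trace_mul_comm]

theorem wm_map {B B' : Type} [CommRing B] [CommRing B'] (μ : B →+* B') {m : ℕ}
    (Z : Fin m → M2 B) (s : Finset (Fin m)) : wm (fun i => (Z i).map μ) s = (wm Z s).map μ := by
  have := map_list_prod μ.mapMatrix ((s.sort (· ≤ ·)).map Z)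
  rw [List.map_map] at this
  exact this.symm

/-- the residue map of a power series ring -/
def res (S : Dat O F) (σ : Type) : PS O σ →+* F := S.red.comp constantCoeff

theorem res_C (S : Dat O F) (σ : Type) (o : O) : res S σ (C o) = S.red o := by simp [res]

theorem res_X (S : Dat O F) (σ : Type) (s : σ) : res S σ (X s) = 0 := by simp [res]

theorem res_unit [IsLocalRing O] {S : Dat O F} {L : Pl O} (hL : OkG L S) (σ : Type)
    (u : PS O σ) (h : res S σ u ≠ 0) : IsUnit u := by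
  rw [isUnit_iff_constantCoeff]
  by_contra hn
  exact h ((hL.ker _).2 hn)

/-- the kernel of a pseudo object -/
theorem N_open {S : Dat O F} {B : Type} [CommRing B] (Z : PO S B) :
    IsOpen (Kd.N Z.t Z.d : Set GQ) := by
  obtain ⟨U, h1, h2⟩ := Z.opn
  exact Subgroup.isOpen_mono (H₁ := U) (fun u hu => h2 u hu) h1

theorem N_pow [CharP F 2] {S : Dat O F} {B : Type} [CommRing B] (Z : PO S B) (g : GQ) :
    ∃ k : ℕ, g ^ 2 ^ k ∈ Kd.N Z.t Z.d := by
  haveI := Z.fin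
  obtain ⟨k, hk⟩ := Kd.nil Z.π Z.loc
  refine ⟨k, Kd.pow_mem Z.tf _ hk ?_ (Z.rt g) ?_⟩
  · rw [RingHom.mem_ker, map_ofNat]
    exact CharTwo.two_eq_zero
  · rw [RingHom.mem_ker, map_sub, map_one, Z.rd, sub_self]

theorem N_gen [CharP F 2] {S : Dat O F} {L : Pl O} {Q : Finset ℕ} {B : Type} [CommRing B]
    (Z : PO S B) (hZ : Z.Cl L Q) {ι : Type} {γ : ι → GQ} (hG : Mod.Gen2 S.T Q γ) (g : GQ) :
    ∃ w ∈ Subgroup.closure (Set.range γ), g⁻¹ * w ∈ Kd.N Z.t Z.d := by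
  haveI := Kd.N_normal Z.tf
  exact hG.mod _ (N_open Z) (N_pow Z) hZ.unr g

variable {S : Dat O F} {L : Pl O} {β : Type} {τ ι' : β → Type} (K : Kx O β τ ι' L.C) {n : ℕ}
  (G : Gs S L K.g n) (r : ℕ)

theorem ψ0_C (o : O) : ψ0 S L τ n r (C o) = C o := rename_C _ o

theorem ψ0_X (s : Sy (n + r)) : ψ0 S L τ n r (X s) = X (e0 r s) := rename_X _ _

theorem ψ0_t (rc : Fin (n + r) → M2 O) (s : Finset (Fin (n + r))) :
    ψ0 S L τ n r (tS rc id s) = tS rc (e0 r) s := by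
  rw [tS, tS, map_add, ψ0_C, ψ0_X]; rfl

theorem ψ0_d (rc : Fin (n + r) → M2 O) (i : Fin (n + r)) :
    ψ0 S L τ n r (dS rc id i) = dS rc (e0 r) i := by
  rw [dS, dS, map_add, ψ0_C, ψ0_X]; rfl

theorem t0_t (s : Finset (Fin (n + r))) :
    tS (G.rcr r) (e0 r) s - (wm (ZS K G r) s).trace ∈ t0 K G r :=
  Ideal.subset_span (Or.inl (Or.inl (Or.inl ⟨s, rfl⟩)))

theorem t0_d (i : Fin (n + r)) : dS (G.rcr r) (e0 r) i - (ZS K G r i).det ∈ t0 K G r :=
  Ideal.subset_span (Or.inl (Or.inl (Or.inr ⟨i, rfl⟩)))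

theorem t0_κ (i : Ix τ L) : X (Sum.inl i) - κS K G r i ∈ t0 K G r :=
  Ideal.subset_span (Or.inl (Or.inr ⟨i, rfl⟩))

theorem t0_α (a b : Fin 2) : (αS τ L n S.T r S.l0 - 1) a b ∈ t0 K G r :=
  Ideal.subset_span (Or.inr ⟨(a, b), rfl⟩)

/-- the symbol `dlS` is the determinant of the commutator -/
theorem t0_dl {i k : Fin (n + r)} (h : i ≠ k) :
    ψ0 S L τ n r (dlS (G.rcr r) id i k) - _root_.P022G.Th.del (ZS K G r i) (ZS K G r k) ∈
      t0 K G r := by
  have e1 := fun s => Ideal.Quotient.eq.2 (t0_t K G r s)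
  have e2 := fun i => Ideal.Quotient.eq.2 (t0_d K G r i)
  refine Ideal.Quotient.eq.1 ?_
  rw [_root_.P022G.Th.del_eq, dlS, trS, trS, tr2, ← wm_two _ h]
  simp only [_root_.P022G.Th.dl, map_add, map_sub, map_mul, map_pow, map_ofNat, ψ0_t, ψ0_d, e1, e2,
    wm_one]

theorem ZS_res (i : Fin (n + r)) : (ZS K G r i).map (res S _) = (G.rcr r i).map S.red := by
  ext a b
  simp [ZS, res_C, res_X]

theorem αS_res (l : ℕ) : (αS τ L n S.T r l).map (res S _) = 1 := by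
  unfold αS
  split_ifs
  · ext a b
    fin_cases a <;> fin_cases b <;> simp [res_X]
  · exact Matrix.map_one _ (map_zero _) (map_one _)

theorem αS_inv [IsLocalRing O] (hL : OkG L S) (l : ℕ) :
    αS τ L n S.T r l * (αS τ L n S.T r l)⁻¹ = 1 :=
  Matrix.mul_nonsing_inv _ (res_unit hL _ _ (by
    rw [RingHom.map_det, RingHom.mapMatrix_apply, αS_res, Matrix.det_one]; exact one_ne_zero))

theorem mx_one (h : ∀ g, S.rb g = 1) (g : GQ) : mx S.rb g = 1 := by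
  unfold mx
  rw [h]
  rfl

theorem rcr_res [IsLocalRing O] {X : Finset ℕ} {as : ℕ} (hC : Cx S L X as) (i : Fin (n + r)) :
    (G.rcr r i).map S.red = 1 := by
  refine Fin.addCases (fun i => ?_) (fun i => ?_) i
  · rw [Gs.rcr, Fin.append_left, Gs.rc, hC.ok.lift, mx_one hC.rb1]
  · rw [Gs.rcr, Fin.append_right]
    exact Matrix.map_one _ (map_zero _) (map_one _)

theorem ZS_one [IsLocalRing O] {X : Finset ℕ} {as : ℕ} (hC : Cx S L X as) (i : Fin (n + r)) :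
    (ZS K G r i).map (res S _) = 1 := by
  rw [ZS_res, rcr_res K G r hC]

theorem ZS_unit [IsLocalRing O] {X : Finset ℕ} {as : ℕ} (hC : Cx S L X as) (i : Fin (n + r)) :
    IsUnit (ZS K G r i) :=
  Kd.unit_of_res (res S _) (res_unit hC.ok _) (ZS_one K G r hC i)

/-- a point of the framed ring which kills the tautological relations is the evaluation at the
universal matrices -/
theorem hm_v0 {A : Type} [CommRing A] (μ : S0 O τ L n S.T r →+* A)
    (h : ∀ s ∈ t0 K G r, μ s = 0) (ρ : GQ → M2 A) (τ' : Fin r → GQ)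
    (hρ : ∀ i, ρ (Fin.append G.γ τ' i) = (ZS K G r i).map μ) :
    Hm (μ.comp C) (v0 K G r (μ.comp C) ρ (fun l => (αS τ L n S.T r l).map μ)
      (fun l => ((αS τ L n S.T r l)⁻¹).map μ) τ') μ := by
  have e : ∀ {a b}, a - b ∈ t0 K G r → μ a = μ b := fun hab => by
    have := h _ hab
    rwa [map_sub, sub_eq_zero] at this
  have hl : ∀ l i, (lS K G r l i).map μ = ((αS τ L n S.T r l)⁻¹).map μ * ρ (G.γ i) *
      (αS τ L n S.T r l).map μ := fun l i => by
    rw [lS, Matrix.map_mul, Matrix.map_mul, ← hρ, Fin.append_left]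
  have hρ' : (fun i => ρ (Fin.append G.γ τ' i)) = fun i => (ZS K G r i).map μ := funext hρ
  refine ⟨fun o => rfl, ?_⟩
  rintro (i | (s | i) | ⟨i, a, b⟩ | ⟨⟨l, hl'⟩, a, b⟩)
  · rw [e (t0_κ K G r i), κS, Tw.val_map]
    simp only [hl, G.hK, G.hφ, G.hτ]
    rfl
  · change _ = (wm (fun i => ρ (Fin.append G.γ τ' i)) s).trace - μ (C _)
    rw [hρ', wm_map, ← AddMonoidHom.map_trace, ← e (t0_t K G r s), ← map_sub]
    exact congrArg μ (add_sub_cancel_left _ _).symm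
  · change _ = (ρ (Fin.append G.γ τ' i)).det - μ (C _)
    rw [hρ, ← RingHom.mapMatrix_apply, ← RingHom.map_det, ← e (t0_d K G r i), ← map_sub]
    exact congrArg μ (add_sub_cancel_left _ _).symm
  · change _ = ρ (Fin.append G.γ τ' i) a b - μ (C _)
    rw [hρ, Matrix.map_apply, ← map_sub]
    exact congrArg μ (add_sub_cancel_left _ _).symm
  · change _ = ((αS τ L n S.T r l).map μ - 1) a b
    rw [αS, dif_pos hl']
    fin_cases a <;> fin_cases b <;> simp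

theorem hm_t {B : Type} [CommRing B] (Z : PO S B) {m : ℕ} {rc : Fin m → M2 O} {γ : Fin m → GQ}
    {ψ : PS O (Sy m) →+* B} (hψ : Hm Z.ι (Z.val rc γ) ψ) (s : Finset (Fin m)) :
    ψ (tS rc id s) = Z.t (wd γ s) := by
  rw [tS, map_add, hψ.c, hψ.x]
  exact add_sub_cancel (Z.ι (wm rc s).trace) _

theorem hm_d {B : Type} [CommRing B] (Z : PO S B) {m : ℕ} {rc : Fin m → M2 O} {γ : Fin m → GQ}
    {ψ : PS O (Sy m) →+* B} (hψ : Hm Z.ι (Z.val rc γ) ψ) (i : Fin m) :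
    ψ (dS rc id i) = Z.d (γ i) := by
  rw [dS, map_add, hψ.c, hψ.x]
  exact add_sub_cancel (Z.ι (rc i).det) _

end KdC

open KdC

/-- the general form: `f` vanishes on all objects on which the kernel of `Z` acts trivially and
whose traces and determinants come from `Z` -/
theorem kdel_gen {O F : Type} [CommRing O] [IsDomain O] [IsDiscreteValuationRing O] [Coef O]
    [Field F] [Finite F] [CharP F 2] {S : Dat O F} {L : Pl O} {X : Finset ℕ} {as : ℕ}
    {β : Type} {τ ι' : β → Type} [Fintype β] [∀ b, Fintype (τ b)]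
    (K : Kx O β τ ι' L.C) {n : ℕ} (G : Gs S L K.g n) (hC : Cx S L X as)
    (r : ℕ) (q : Fin r → ℕ) (τ' : Fin r → GQ)
    (hq : ∀ i, q i ∉ S.T ∧ ∃ P, Ov (q i) P ∧ Gn (q i) P (τ' i))
    {B : Type} [CommRing B] (Z : PO S B) (ψ : PS O (Sy (n + r)) →+* B)
    (hZ : Z.Cl L (Finset.univ.image q)) (hψ : Hm Z.ι (Z.val (G.rcr r) (Fin.append G.γ τ')) ψ)
    (i k : Fin (n + r)) (hik : i ≠ k) (f : S0 O τ L n S.T r)
    (hf : ∀ (A : Type) [CommRing A] (Y : Obj S A) (μ : S0 O τ L n S.T r →+* A),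
      Ty (ClG L S) (Finset.univ.image q) A Y → Hm Y.ι (v0 K G r Y.ι Y.ρ Y.α Y.β τ') μ →
      (∀ s ∈ (RingHom.ker ψ).map (ψ0 S L τ n r) ⊔ t0 K G r, μ s = 0) →
      (∀ g, (∀ h, Z.t (h * g) = Z.t h) → Z.d g = 1 → Y.ρ g = 1) →
      (∀ i, Y.ρ (Fin.append G.γ τ' i) = (ZS K G r i).map μ) →
      (∀ l, Y.α l = (αS τ L n S.T r l).map μ) →
      (∀ g u, ψ u = Z.t g → (Y.ρ g).trace = μ (ψ0 S L τ n r u)) →
      (∀ g u, ψ u = Z.d g → (Y.ρ g).det = μ (ψ0 S L τ n r u)) → μ f = 0) :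
    ψ0 S L τ n r (dlS (G.rcr r) id i k) * f ∈
      (RingHom.ker ψ).map (ψ0 S L τ n r) ⊔ t0 K G r := by
  haveI := P022D.As.base O (V0 τ L n S.T r)
  haveI := Z.fin
  haveI := Kd.N_normal Z.tf
  have h := Kd.kdel0 (mx_one hC.rb1) hC.W0 Z.tf Z.ι (Kd.N Z.t Z.d) (N_open Z) le_rfl hZ.unr hZ.d2
    hZ.dc hZ.dl (Fin.append G.γ τ') (N_gen Z hZ (G.gen r q τ' hq)) ψ C hψ.c (tS (G.rcr r) id)
    (dS (G.rcr r) id) (hm_t Z hψ) (hm_d Z hψ) (ψ0 S L τ n r) (res S _) (res_unit hC.ok _)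
    (fun o => by rw [ψ0_C (S := S), res_C]) (ZS K G r) (ZS_unit K G r hC) (ZS_one K G r hC)
    (t0 K G r) (fun s => by rw [ψ0_t]; exact t0_t K G r s)
    (fun i => by rw [ψ0_d]; exact t0_d K G r i) (αS τ L n S.T r) (αS_res r)
    (fun l hl => by rw [αS, dif_neg hl]) (t0_α K G r) f
    (fun A _ Y μ b1 b2 b3 b4 b5 b6 b7 b8 b9 b10 b11 => by
      have y0 : Y.ι = μ.comp C := by
        rw [b3]
        exact RingHom.ext fun o => congrArg μ (ψ0_C r o)
      refine hf A Y μ b6 ?_ b1 (fun g g1 g2 => b9 g ⟨g1, g2⟩) b8 (fun l => by rw [b4]) b10 b11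
      rw [y0, b4, b5]
      exact hm_v0 K G r μ (fun s hs => b1 s (Ideal.mem_sup_right hs)) Y.ρ τ' b8)
    (FreeGroup.of i) (FreeGroup.of k)
  rw [Kd.fr_of, Kd.fr_of] at h
  have e : ψ0 S L τ n r (dlS (G.rcr r) id i k) * f =
      _root_.P022G.Th.del (ZS K G r i) (ZS K G r k) * f +
      (ψ0 S L τ n r (dlS (G.rcr r) id i k) - _root_.P022G.Th.del (ZS K G r i) (ZS K G r k)) * f := by
    ring
  rw [e]
  exact add_mem h (Ideal.mem_sup_right (Ideal.mul_mem_right _ _ (t0_dl K G r hik)))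

theorem kdelC : KDEL := by
  intro O F _ _ _ _ _ _ _ ϖ S L X as β τ ι' _ _ _ K n G hϖ hC hK hD r q τ' hq B _ Z ψ hZ hψ i k hik
    f hf
  exact kdel_gen K G hC r q τ' hq Z ψ hZ hψ i k hik f fun A _ Y μ h1 h2 _ _ _ _ _ _ =>
    hf A Y.ι _ μ ⟨Y, h1, rfl, rfl⟩ h2

end Vale.Agent.P022S
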