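import Vale.Agent.P022S.Rows
import Vale.Agent.P022S.Nice2
import Vale.Agent.P022G.Rw.Nice

/-! # P022S, rows NICE and TYP -/

set_option linter.all false

noncomputable section

namespace Vale.Agent.P022S.Nice

open NumberField IsLocalRing MvPowerSeries Vale.Agent.P022 Vale.Agent.P022G.Nice
open Vale.Agent.P022D.Sel (Ginf M2)
open _root_.P022G.Sel (mr rd tI Lv)
open _root_.P022G.Th (del del_eq map_dl)
open Vale.Agent.P027M.S (mx)
open Vale.Agent.P022D.Core (PS Coef)
open Vale.Agent.P022E.Loc (Pl)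
open Vale.Agent.P022S.R Vale.Agent.P022S.Loc
open Vale.Agent.P022G (Hm)
open Vale.Agent.P022G.Word (wd)

section lin
variable {K : Type} [Field K] {κ : Type} {y : κ → GQ}

theorem del_cj (σ : GQ →* M2 K) (P : GL (Fin 2) K) (g h : GQ) :
    del (cj σ P g) (cj σ P h) = del (σ g) (σ h) := by
  rw [del, del, ← map_mul, ← map_mul, ← Matrix.det_units_conj' P (σ g * σ h - _), ← map_mul,
    ← map_mul, mul_sub, sub_mul]
  rfl

theorem up_w (σ : GQ →* M2 K) {a b : Fin 2} (hab : a ≠ b) (h : ∀ i, σ (y i) a b = 0)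
    (l : List κ) : σ (l.map y).prod a b = 0 := by
  induction l with
  | nil => rw [List.map_nil, List.prod_nil, map_one, Matrix.one_apply_ne hab]
  | cons i l ih =>
    have hx := h i
    rw [List.map_cons, List.prod_cons, map_mul, Matrix.mul_apply, Fin.sum_univ_two]
    fin_cases a <;> fin_cases b
    · exact absurd rfl hab
    · simp only [Fin.zero_eta, Fin.mk_one] at hx ih ⊢
      rw [hx, ih, mul_zero, zero_mul, add_zero]
    · simp only [Fin.zero_eta, Fin.mk_one] at hx ih ⊢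
      rw [hx, ih, mul_zero, zero_mul, add_zero]
    · exact absurd rfl hab

theorem del_up (σ : GQ →* M2 K) (h : (∀ i, σ (y i) 1 0 = 0) ∨ ∀ i, σ (y i) 0 1 = 0)
    (l l' : List κ) : del (σ (l.map y).prod) (σ (l'.map y).prod) = 0 := by
  rcases h with h | h <;>
  · simp only [del, Matrix.det_fin_two, Matrix.sub_apply, Matrix.mul_apply, Fin.sum_univ_two,
      up_w σ (by decide) h]
    ring

/-- pairs and triples decide the reducibility -/
theorem del_w [IsAlgClosed K] [CharP K 2] (σ : GQ →* M2 K) (hd : ∀ g, (σ g).det = 1)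
    (h2 : ∀ a b, del (σ (y a)) (σ (y b)) = 0) (h3 : ∀ a b c, del (σ (y a * y b)) (σ (y c)) = 0)
    (l l' : List κ) : del (σ (l.map y).prod) (σ (l'.map y).prod) = 0 := by
  have t2 : (2 : K) = 0 := CharP.cast_eq_zero K 2
  have k : ∀ P : GL (Fin 2) K, (∀ g, (cj σ P g).det = 1) ∧
      (∀ g, (cj σ P g).trace = (σ g).trace) ∧ (∀ a b, del (cj σ P (y a)) (cj σ P (y b)) = 0) ∧
      ∀ a b c, del (cj σ P (y a * y b)) (cj σ P (y c)) = 0 := fun P =>
    ⟨fun g => (Matrix.det_units_conj' P _).trans (hd g), fun g => Matrix.trace_units_conj' P _,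
      fun a b => (del_cj σ P _ _).trans (h2 a b), fun a b c => (del_cj σ P _ _).trans (h3 a b c)⟩
  by_cases h : ∃ c, (σ (y c)).trace ≠ 0
  · obtain ⟨c, hc⟩ := h
    obtain ⟨P, h10, h01⟩ := dg (σ (y c)) hc
    obtain ⟨k1, k2, k3, k4⟩ := k P
    rw [← k2, Matrix.trace_fin_two, ← CharTwo.sub_eq_add] at hc
    change cj σ P (y c) 1 0 = 0 at h10
    change cj σ P (y c) 0 1 = 0 at h01
    rw [← del_cj σ P]
    generalize cj σ P = σ' at *
    have e : ∀ M : M2 K, del M (σ' (y c)) = 0 → M 0 1 = 0 ∨ M 1 0 = 0 := fun M e => by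
      simp only [del, Matrix.det_fin_two, Matrix.sub_apply, Matrix.mul_apply, Fin.sum_univ_two,
        h10, h01] at e
      exact mul_eq_zero.1 ((mul_eq_zero.1 (show (σ' (y c) 0 0 - σ' (y c) 1 1) ^ 2 *
        (M 0 1 * M 1 0) = 0 by linear_combination e)).resolve_left (pow_ne_zero _ hc))
    refine del_up σ' ?_ l l'
    by_contra hn
    push Not at hn
    obtain ⟨⟨b, hb⟩, a, ha⟩ := hn
    have a0 := (e _ (k3 a c)).resolve_left ha
    have b0 := (e _ (k3 b c)).resolve_right hb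
    have d1 := k1 (y a)
    have d2 := k1 (y b)
    rw [Matrix.det_fin_two, a0, mul_zero, sub_zero] at d1
    rw [Matrix.det_fin_two, b0, zero_mul, sub_zero] at d2
    rcases e _ (k4 a b c) with f | f <;>
      rw [map_mul, Matrix.mul_apply, Fin.sum_univ_two] at f
    · rw [b0, mul_zero, zero_add] at f
      exact mul_ne_zero ha (right_ne_zero_of_mul_eq_one d2) f
    · rw [a0, zero_mul, zero_add] at f
      exact mul_ne_zero (right_ne_zero_of_mul_eq_one d1) hb f
  push Not at h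
  by_cases h1 : ∀ c, σ (y c) = 1
  · exact del_up σ (Or.inl fun i => by rw [h1]; rfl) l l'
  obtain ⟨c, hc⟩ := not_forall.1 h1
  obtain ⟨P, h10⟩ := tri (σ (y c))
  obtain ⟨k1, k2, k3, -⟩ := k P
  have n' : cj σ P (y c) ≠ 1 := fun e => hc (by
    have : σ (y c) = P * cj σ P (y c) * ((P⁻¹ : GL (Fin 2) K) : M2 K) := by
      show _ = (P : M2 K) * (_ * σ (y c) * _) * _
      simp only [mul_assoc, Units.mul_inv_cancel_left, Units.mul_inv, mul_one]
    rw [this, e, mul_one, Units.mul_inv])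
  have a := (k2 (y c)).trans (h c)
  change cj σ P (y c) 1 0 = 0 at h10
  rw [← del_cj σ P]
  generalize cj σ P = σ' at *
  have d := k1 (y c)
  rw [Matrix.det_fin_two, h10, mul_zero, sub_zero] at d
  rw [Matrix.trace_fin_two] at a
  have e0 : σ' (y c) 0 0 = 1 := sq_one (by linear_combination σ' (y c) 0 0 * a - d - t2)
  have e1 : σ' (y c) 1 1 = 1 := by rwa [e0, one_mul] at d
  have b : σ' (y c) 0 1 ≠ 0 := fun b => n' (by
    ext i j
    fin_cases i <;> fin_cases j
    exacts [e0, b, h10, e1])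
  refine del_up σ' (Or.inl fun i => ?_) l l'
  have e := k3 i c
  simp only [del, Matrix.det_fin_two, Matrix.sub_apply, Matrix.mul_apply, Fin.sum_univ_two,
    h10, e0, e1] at e
  exact (mul_eq_zero.1 (pow_eq_zero_iff (n := 2) (by norm_num) |>.1
    (show (σ' (y c) 0 1 * σ' (y i) 1 0) ^ 2 = 0 by linear_combination -e))).resolve_left b

end lin

theorem wm_one {B : Type} [CommRing B] {m : ℕ} (Z : Fin m → M2 B) (i : Fin m) :
    wm Z {i} = Z i := by simp [wm]

theorem wm_two {B : Type} [CommRing B] {m : ℕ} (Z : Fin m → M2 B) {i k : Fin m} (h : i ≠ k) :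
    (wm Z {i, k}).trace = (Z i * Z k).trace := by
  have e : ∀ i k : Fin m, i < k → wm Z {i, k} = Z i * Z k := fun i k h => by
    rw [wm, Finset.sort_insert _ (by simpa using h.le) (by simpa using h.ne)]
    simp
  rcases lt_or_gt_of_ne h with h | h
  · rw [e i k h]
  · rw [Finset.pair_comm, e k i h, Matrix.trace_mul_comm]

theorem wm_rep {B : Type} [CommRing B] {m : ℕ} (σ : GQ →* M2 B) (γ : Fin m → GQ)
    (s : Finset (Fin m)) : wm (fun i => σ (γ i)) s = σ (wd γ s) := by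
  rw [wm, wd, map_list_prod, List.map_map]
  rfl

variable {O F : Type} [CommRing O] [IsLocalRing O] [Field F] {S : Dat O F} {L : Pl O} {κ : Type}
  {gk : κ → GQ} {n : ℕ} {G : Gs S L gk n} {V : Type} [CommRing V] {t : V} {j : O →+* V}
  {ρ : GQ →* GL (Fin 2) V} {θ : PS O (Sy n) →+* V}

theorem th_t (h : G.Crv t j ρ θ) (s : Finset (Fin n)) :
    θ (tS G.rc id s) = (wm (fun i => (ρ (G.γ i) : M2 V)) s).trace := by
  rw [tS, map_add, h.hm.c, h.hm.x]
  exact add_sub_cancel _ _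

theorem th_d (h : G.Crv t j ρ θ) (i : Fin n) : θ (dS G.rc id i) = (mr ρ (G.γ i)).det := by
  rw [dS, map_add, h.hm.c, h.hm.x]
  exact add_sub_cancel _ _

theorem th_tr (h : G.Crv t j ρ θ) (i : Fin n) : θ (trS G.rc id i) = (mr ρ (G.γ i)).trace := by
  rw [trS, th_t h, wm_one]

theorem th_tr2 (h : G.Crv t j ρ θ) {i k : Fin n} (e : i ≠ k) :
    θ (tr2 G.rc id i k) = (mr ρ (G.γ i) * mr ρ (G.γ k)).trace := by
  rw [tr2, th_t h, wm_two _ e]

theorem th_dl (h : G.Crv t j ρ θ) {i k : Fin n} (e : i ≠ k) :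
    θ (dlS G.rc id i k) = del (mr ρ (G.γ i)) (mr ρ (G.γ k)) := by
  rw [dlS, map_dl, th_tr h, th_tr h, th_tr2 h e, th_d h, th_d h, del_eq]

/-- the lift is trivial on a curve -/
theorem j_one (hL : OkG L S) (h1 : ∀ g, S.rb g = 1) (hj : ∀ o ∈ maximalIdeal O, j o = 0) (g : GQ) :
    (L.r g).map j = 1 := by
  ext a b
  have e : j (L.r g a b - (1 : M2 O) a b) = 0 := hj _ ((hL.ker _).1 (by
    rw [map_sub, show S.red (L.r g a b) = mx S.rb g a b from congrFun (congrFun (hL.lift g) a) b,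
      mx, h1, Units.val_one, Matrix.one_apply, Matrix.one_apply]
    split_ifs <;> simp))
  rw [map_sub, sub_eq_zero] at e
  rw [Matrix.map_apply, e, Matrix.one_apply, Matrix.one_apply]
  split_ifs <;> simp

theorem res_one (hL : OkG L S) (h1 : ∀ g, S.rb g = 1) (hj : ∀ o ∈ maximalIdeal O, j o = 0)
    (h : G.Crv t j ρ θ) (g : GQ) (a b : Fin 2) : t ∣ (mr ρ g - 1) a b := by
  rw [← j_one hL h1 hj g]
  exact h.res g a b

theorem res_tr [CharP V 2] (hL : OkG L S) (h1 : ∀ g, S.rb g = 1)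
    (hj : ∀ o ∈ maximalIdeal O, j o = 0) (h : G.Crv t j ρ θ) (g : GQ) : t ∣ (mr ρ g).trace := by
  have := dvd_add (res_one hL h1 hj h g 0 0) (res_one hL h1 hj h g 1 1)
  rwa [← Matrix.trace_fin_two, Matrix.trace_sub, Matrix.trace_one, Fintype.card_fin,
    CharP.cast_eq_zero, sub_zero] at this

end Vale.Agent.P022S.Nice

namespace Vale.Agent.P022S

open Nice Vale.Agent.P022 Vale.Agent.P022G.Nice
open Vale.Agent.P022D.Sel (M2)
open _root_.P022G.Sel (mr)
open _root_.P022G.Th (del)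

theorem typC : TYP := by
  intro O F _ _ _ _ _ _ _ ϖ S L X as β τ ι' _ _ _ K n G _ hC _ _ V _ _ _ _ _ t j ρ θ ht h l hl
  have hm : (l : ℕ) ∈ L.W ∪ L.C := Finset.mem_union_right _ l.2
  obtain ⟨a, b⟩ := typS ht ρ (fun N => (h.lv N).opn) h.det (res_tr hC.ok hC.rb1 (kills j) h)
    (hC.ok.pr l hm).1 (hC.ok.pr l hm).2 (hC.ok.tm l hm)
  rw [Gs.fr, th_tr h, G.hφ] at hl
  have ne : G.iτ l ≠ G.iφ l := fun e => Sum.inl_ne_inr (Sum.inr_injective
    (G.inj (a₁ := Sum.inr (Sum.inl l)) (a₂ := Sum.inr (Sum.inr l)) e))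
  rw [th_tr h, th_tr2 h ne, G.hτ, G.hφ]
  exact ⟨a, (b hl).1⟩

theorem niceC : NICE := by
  intro O F _ _ _ _ _ _ _ ϖ S L X as β τ ι' _ _ _ K n G _ hC _ _ V _ _ _ _ _ _ t j ρ θ ht h hcv h0
  have hj := kills j
  have hL := hC.ok
  have hm : as ∈ L.W ∪ L.C := Finset.mem_union_right _ (hC.sub hC.mem)
  have h1 := h0 (hC.sub hC.mem)
  rw [Gs.fr, th_tr h, G.hφ] at h1
  obtain ⟨a, b, s, -, k, -, c⟩ := nice0 ht ρ h.lv h.det (res_tr hL hC.rb1 hj h) (hL.pr as hm).1
    (hC.one as hC.mem) ⟨L.P as, (hL.hP as hm).1, (hL.hP as hm).2, (hL.tm as hm).frob⟩ hC.mv1 hC.mv2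
    h1 (by
      by_contra hn
      push Not at hn
      obtain ⟨u, hu⟩ := ex_var (ι := Unit) hj h.hm.c (not_max hcv.2)
      apply hu
      rw [h.hm.x]
      rcases u with u | i
      · have e1 := wm_rep ((Units.coeHom _).comp ρ) G.γ u
        have e2 := wm_rep L.r G.γ u
        refine sub_eq_zero.2 (((congrArg Matrix.trace e1).trans (hn _)).trans ?_)
        rw [show wm G.rc u = _ from e2, AddMonoidHom.map_trace j]
        exact Eq.symm ((congrArg Matrix.trace (j_one hL hC.rb1 hj _)).trans (by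
          rw [Matrix.trace_one, Fintype.card_fin, CharP.cast_eq_zero]))
      · refine sub_eq_zero.2 ((h.det _).trans ?_)
        rw [RingHom.map_det]
        exact Eq.symm ((congrArg Matrix.det (j_one hL hC.rb1 hj _)).trans Matrix.det_one))
  refine ⟨a, b, ?_⟩
  obtain ⟨l, l', e⟩ := ex_w G.gen0 ht ρ h.lv (res_one hL hC.rb1 hj h) c
  by_contra hn
  haveI := kb_char (A := V)
  let σ : GQ →* M2 (Kb V) :=
    (algebraMap V (Kb V)).mapMatrix.toMonoidHom.comp ((Units.coeHom _).comp ρ)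
  have m : ∀ g g', del (σ g) (σ g') = algebraMap V (Kb V) (del (mr ρ g) (mr ρ g')) := fun g g' => by
    rw [del, del, RingHom.map_det, map_sub, map_mul, map_mul]
    rfl
  have z : ∀ i i', del (σ (G.γ i)) (σ (G.γ i')) = 0 := fun i i' => by
    by_cases e : i = i'
    · rw [e, del, sub_self, Matrix.det_zero]
    · rw [m, ← th_dl h e, show θ _ = 0 from by_contra fun f => hn ⟨i, i', e, f⟩, map_zero]
  have := del_w σ (fun g => by
    rw [← map_one (algebraMap V (Kb V)), ← h.det g, RingHom.map_det]; rfl)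
    (y := fun a : Fin 2 ⊕ L.C => G.γ (Sum.elim ![G.ix, G.ic] G.iτ a)) (fun a b => z _ _)
    (fun a b c => by
      obtain ⟨w, -, hw⟩ := G.pr a b
      rw [← hw]
      exact z _ _) l l'
  rw [m] at this
  exact e (kb_inj (this.trans (map_zero _).symm))

end Vale.Agent.P022S
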