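import Vale.Agent.P022S.Rows
import Vale.Agent.P022S.Jcl
import Vale.Agent.P022S.Tw.Crv
import Vale.Agent.P022S.Sel.AllH89
import Vale.Agent.P022E.GW.TauG

/-!
# P022S, row PCEX: the data at a nice curve exist
-/

set_option linter.all false

noncomputable section

namespace Vale.Agent.P022S

open NumberField IsLocalRing MvPowerSeries Filter
open Vale.Agent.P022 Vale.Agent.P022S.R Vale.Agent.P022S.Loc
open Vale.Agent.P027M.S (Inert mx)
open Vale.Agent.P022D.Sel (M2 Ginf)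
open Vale.Agent.P022D.Core (PS io y1 Coef)
open Vale.Agent.P022E.Loc (Pl)
open Vale.Agent.P022E.GW (Ov Gn)
open Vale.Agent.P022G (Hm)
open _root_.P022G.Sel (tI rd)

namespace Pcx

theorem wm_map {A B : Type} [CommRing A] [CommRing B] (u : A →+* B) {m : ℕ} (Z : Fin m → M2 A)
    (s : Finset (Fin m)) : (wm Z s).map u = wm (fun i => (Z i).map u) s := by
  have := map_list_prod u.mapMatrix ((s.sort (· ≤ ·)).map Z)
  rw [List.map_map] at this
  exact this

theorem tr_wm {A B : Type} [CommRing A] [CommRing B] (u : A →+* B) {m : ℕ} (Z : Fin m → M2 A)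
    (s : Finset (Fin m)) : u (wm Z s).trace = (wm (fun i => (Z i).map u) s).trace := by
  rw [← wm_map]
  simp [Matrix.trace_fin_two]

theorem wm_one {A : Type} [CommRing A] {m : ℕ} (s : Finset (Fin m)) :
    wm (fun _ => (1 : M2 A)) s = 1 := by
  simp [wm]

variable {O F : Type} [CommRing O] [IsDomain O] [IsDiscreteValuationRing O] [Coef O] [Field F]
  {S : Dat O F} {L : Pl O} {β : Type} {τ ι' : β → Type} [Fintype β] [∀ b, Fintype (τ b)]
  [∀ b, Fintype (ι' b)] {K : Kx O β τ ι' L.C} {n : ℕ} (G : Gs S L K.g n)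
  {V : Type} [CommRing V] [IsDomain V] [IsDiscreteValuationRing V] [CharP V 2]
  [IsAdicComplete (maximalIdeal V) V] [Finite (ResidueField V)] {t : V} {j : O →+* V}
  {ρ : GQ →* GL (Fin 2) V} {θ : PS O (Sy n) →+* V}

theorem v0_mem {ϖ : O} (hL : OkG L S) (hW : L.W = ∅) (hK : K.Ok L S ϖ) (ht : Irreducible t)
    (hc : G.Crv t j ρ θ) (r : ℕ) (s : V0 τ L n S.T r) :
    v0 K G r j (fun g => (ρ g : M2 V)) (fun _ => 1) (fun _ => 1) (fun _ => 1) s ∈
      maximalIdeal V := by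
  have hj : ∀ c, S.red c = 0 → j c = 0 := fun c h => P022G.Tw.j_zero j ((hL.ker c).1 h)
  have hm : maximalIdeal V = tI t (0 + 1) := by rw [ht.maximalIdeal_eq, tI, zero_add, pow_one]
  rw [hm, ← Ideal.Quotient.eq_zero_iff_mem]
  let mk := Ideal.Quotient.mk (tI t (0 + 1))
  have hZ : (fun i => (ρ (Fin.append G.γ (fun _ : Fin r => 1) i) : M2 V).map mk) =
      fun i => (G.rcr r i).map (mk.comp j) := by
    funext i
    refine Fin.addCases (fun i => ?_) (fun i => ?_) i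
    · simp only [Gs.rcr, Fin.append_left]
      ext a b
      refine (Ideal.Quotient.mk_eq_mk_iff_sub_mem _ _).2 ?_
      rw [← hm, ht.maximalIdeal_eq]
      exact Ideal.mem_span_singleton.2 (hc.res _ a b)
    · simp only [Gs.rcr, Fin.append_right, map_one, Units.val_one, P022D.R.map_one']
  rcases s with x | (s | i) | p | p
  · obtain ⟨A, _, u, ι0, π, H⟩ := P022G.Tw.ex_sb t j 0 S.red hL.ker ht.not_isUnit
      (P022G.Tw.fin_tI ht _)
    obtain ⟨X, h1, h2, h3, h4, h5, h6⟩ := Tw.crv_obj hL hj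
      ⟨hc.res, hc.lv, hc.det, fun l hl => by simp [hW] at hl⟩ H
    have h7 := hK.loc.res A X h6.1 x
    obtain ⟨o, v, h8⟩ := H.ran (K.crd L S A X x)
    have h9 := H.res _ _ _ h8
    rw [← h2, h7] at h9
    have h0 : mk (j o + t * v) = 0 := by
      rw [hj o h9.symm, zero_add (t * v), Ideal.Quotient.eq_zero_iff_mem, ← hm,
        ht.maximalIdeal_eq]
      exact Ideal.mul_mem_right v _ (Ideal.mem_span_singleton_self t)
    have e1 : u.comp X.ι = mk.comp j := RingHom.ext fun o => by rw [h1]; exact H.cst o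
    have h10 := (Tw.val_map u K X.ι (fun t => lr X (K.l t) (K.g t)) (fun γ => lr X γ (L.φ γ))
      (fun γ => lr X γ (L.τ γ)) x).symm.trans (h8.trans h0)
    have h11 := Tw.val_map mk K j (fun t => (ρ (K.g t) : M2 V)) (fun γ => (ρ (L.φ γ) : M2 V))
      (fun γ => (ρ (L.τ γ) : M2 V)) x
    simp only [lr_apply, h3, h4, h5, e1, one_mul, mul_one] at h10
    simp only [v0, Sum.elim_inl, one_mul, mul_one]
    exact h11.trans h10
  · refine (map_sub mk _ _).trans (sub_eq_zero.2 ?_)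
    exact (tr_wm mk _ s).trans (by rw [hZ]; exact (tr_wm (mk.comp j) _ s).symm)
  · refine (map_sub mk _ _).trans (sub_eq_zero.2 ?_)
    exact (mk.map_det _).trans ((congrArg Matrix.det (congrFun hZ i)).trans
      ((mk.comp j).map_det _).symm)
  · exact (map_sub mk _ _).trans (sub_eq_zero.2 (congrFun (congrFun (congrFun hZ p.1) _) _))
  · show mk (((1 : M2 V) - 1) _ _) = 0
    rw [sub_self]
    exact map_zero mk

theorem ex_th {ϖ : O} (hL : OkG L S) (hW : L.W = ∅) (hK : K.Ok L S ϖ) (ht : Irreducible t)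
    (hc : G.Crv t j ρ θ) (r : ℕ) : ∃ θ1 : S1 O τ L n S.T r →+* V,
      Cf K G r j ρ (θ1.comp (io O _ r)) ∧ ∀ i, θ1 (y1 O _ i) = 0 := by
  obtain ⟨φ, h1, h2⟩ := P022G.Conn.exists_ev (ι := V0 τ L n S.T r ⊕ Fin r) (maximalIdeal V) j
    (Sum.elim (v0 K G r j (fun g => (ρ g : M2 V)) (fun _ => 1) (fun _ => 1) fun _ => 1)
      fun _ => 0) (by
      rintro (s | i)
      · exact v0_mem G hL hW hK ht hc r s
      · exact Ideal.zero_mem _)
  refine ⟨φ, ⟨fun o => ?_, fun s => ?_⟩, fun i => h2 _⟩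
  · exact (congrArg φ (MvPowerSeries.rename_C _ o)).trans (h1 o)
  · exact (congrArg φ (MvPowerSeries.rename_X _ s)).trans (h2 _)

omit [Fintype β] [∀ b, Fintype (τ b)] [∀ b, Fintype (ι' b)] in
theorem ex_jr (hL : OkG L S) (h1 : ∀ g, S.rb g = 1) (r : ℕ) :
    ∃ jr : PP O n r →+* PS O (Sy n), Hm C (G.jv r) jr := by
  have := (P022D.As.base O (Sy n)).cpl
  have e0 : (fun i => (G.rc i).map S.red) = fun _ => 1 := funext fun i => by
    rw [Gs.rc, hL.lift, mx, h1, Units.val_one]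
  have e1 : (fun i => (G.rcr r i).map S.red) = fun _ => 1 := funext fun i => by
    refine Fin.addCases (fun i => ?_) (fun i => ?_) i
    · simp only [Gs.rcr, Fin.append_left]; exact congrFun e0 i
    · simp only [Gs.rcr, Fin.append_right, P022D.R.map_one']
  obtain ⟨φ, h1, h2⟩ := P022G.Conn.exists_ev (ι := Sy (n + r) ⊕ Fin r)
    (maximalIdeal (PS O (Sy n))) (C : O →+* PS O (Sy n)) (G.jv r) (by
      rintro ((s | i) | i)
      · rw [P022D.CA.Cpl.mem_max_iff, ← hL.ker]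
        simp only [Gs.jv, gv, tS, Sum.elim_inl, map_sub, map_add, constantCoeff_C, constantCoeff_X,
          add_zero]
        rw [tr_wm, tr_wm, e0, e1, wm_one, wm_one, sub_self]
      · rw [P022D.CA.Cpl.mem_max_iff]
        refine Fin.addCases (fun i => ?_) (fun i => ?_) i <;> simp [Gs.jv, gv, dS, Gs.rcr]
      · exact Ideal.zero_mem _)
  exact ⟨φ, h1, h2⟩

end Pcx

/-- **row PCEX** -/
theorem pcexC (hT : TANV) (hL : LAM) : PCEX := by
  intro O F _ _ _ _ _ _ _ ϖ S L X as β τ ι' _ _ _ K n G hϖ hC hK hD V _ _ _ _ _ _ t j ρ θ ht hc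
    hN hI
  classical
  have hf := P022G.Tw.fin_tI ht
  obtain ⟨T₁, c, r, e, hT1, hs⟩ := _root_.P022S.Sel.H89.sel0 ht (hf 1) hN
  obtain ⟨sg, U, hU, hn, -, hsg, hb⟩ := hs c
  refine ⟨r, sg, U, T₁, hU, hn, fun i => (hsg i).1, hT1, fun q hq τq hτq => ?_⟩
  have hg : ∀ m i, ∃ g, q m i ∉ S.T ∧ ∃ P, Ov (q m i) P ∧ Gn (q m i) P g := fun m i => by
    obtain ⟨P, hP, -⟩ := hτq m i
    obtain ⟨g, hg⟩ := P022E.GW.Tg.ex_gn' hP
    exact ⟨g, fun h => ((hq m).2 i).2.1 (hT1 h), P, hP, hg⟩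
  choose τ' hτ' using hg
  obtain ⟨θ1, hcf, hy⟩ := Pcx.ex_th G hC.ok hC.W0 hK ht hc r
  obtain ⟨jr, hjr⟩ := Pcx.ex_jr G hC.ok hC.rb1 r
  have hcard : 2 * r + 1 ≤ Fintype.card (Rs (n + r) S.T) := by
    have := Finset.card_pos.2 ⟨_, S.hl0⟩
    simp only [Fintype.card_sum, Fintype.card_prod, Fintype.card_fin, Fintype.card_coe]
    omega
  obtain ⟨s, hsc⟩ : ∃ s, s + (2 * r + 1) = Fintype.card (Rs (n + r) S.T) :=
    ⟨_, Nat.sub_add_cancel hcard⟩
  obtain ⟨W, kn, k, col, w1, w2, w3, w4, w5⟩ := Jcl.core ht (θ1.comp (io O _ r))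
    (fun m => Kn K G r (q m) (τ' m)) (c := c) (e := 4) hsc fun m => by
      obtain ⟨h1, h2⟩ := hb (q m) (hq m).1 (hq m).2
      exact (hT O F ϖ S L X as β τ ι' K n G hϖ hC hK hD V t j ρ θ ht hc r (q m) (τ' m) (hτ' m)
        _ hcf c h1).trans h2
  choose tu du hu using fun m => hL O F ϖ S L X as β τ ι' K n G hϖ hC hK hD r (q m) (τ' m) (hτ' m)
  have b1 := P022D.As.base O (Sy (n + r))
  choose ta hta using fun i => P022D.PA.lim (PS O (Sy (n + r))) W fun m => tu m (τq m i)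
  choose da hda using fun i => P022D.PA.lim (PS O (Sy (n + r))) W fun m => du m (τq m i)
  exact ⟨s, ⟨t, j, ρ, θ, θ1, jr, W, q, τ', τq, kn, k, col,
    fun m i => tu m (τq m i), fun m i => du m (τq m i), ta, da, G⟩,
    ⟨hc, hI, hcf, hy, hjr, w1, fun m => (hq m).1, hτ', hτq, w2, w3, w4, w5,
      hsc, fun m i B _ Z ψ h1 h2 => hu m B Z ψ h1 h2 _, hta, hda⟩, rfl, rfl, rfl, rfl, rfl⟩

end Vale.Agent.P022S
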