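import Vale.Agent.P022S.Rw.Wm86
import Vale.Agent.P022S.Geo.Main
import Vale.Agent.P022S.Geo.Set2
import Vale.Agent.P022S.Geo.Ag
import Vale.Agent.P022G.Tr.CrvPt

/-!
# P022S: the rows `PRESC` and `CONNJ`
-/

set_option linter.all false

noncomputable section

namespace Vale.Agent.P022S.Geo

open NumberField IsLocalRing MvPowerSeries
open Vale.Agent.P022 Vale.Agent.P022S.R Vale.Agent.P022S.Loc
open Vale.Agent.P027M.S (Inert mx)
open Vale.Agent.P022D.Sel (M2)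
open Vale.Agent.P022D.Core (PS Coef)
open Vale.Agent.P022E.Loc (Pl)
open Vale.Agent.P022G.Pres (Dt Jac Un)
open Vale.Agent.P022G.Trc (CC)
open Vale.Agent.P022G.Chain (Cv)
open Vale.Agent.P022G.Tr (mρ mρ_apply rd_one)
open Vale.Agent.P022S.Koch (Lm)

section
variable {V : Type} [CommRing V] [IsDomain V] [IsDiscreteValuationRing V] {t : V}
  {ρ : GQ →* GL (Fin 2) V} {T : Finset ℕ} {D : ℕ → Set GQ} (ht : Irreducible t)
  (h : ∀ N, _root_.P022G.Sel.Lv (_root_.P022G.Sel.rd (_root_.P022G.Sel.tI t N) ρ) T D)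
include ht h

theorem lv_opn (N : ℕ) :
    IsOpen {g | (mρ ρ g).map (Ideal.Quotient.mk (maximalIdeal V ^ N)) = 1} := by
  rw [ht.maximalIdeal_eq, Ideal.span_singleton_pow]
  have := (h N).opn
  simp only [rd_one] at this
  exact this

theorem lv_un : Un T (mρ ρ) := fun l hl P hP g hg => Matrix.ext fun a b => sub_eq_zero.1 (by
  rw [← Ideal.mem_bot, ← Ideal.iInf_pow_eq_bot_of_isLocalRing (maximalIdeal V)
    (maximalIdeal.isMaximal V).ne_top, Ideal.mem_iInf]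
  intro N
  have e := congrFun (congrFun ((rd_one _ ρ g).1 ((h N).unr l hl P hP g hg)) a) b
  rw [ht.maximalIdeal_eq, Ideal.span_singleton_pow, ← Ideal.Quotient.eq, Matrix.one_apply,
    apply_ite (Ideal.Quotient.mk _), map_one, map_zero, ← Matrix.one_apply]
  exact e)

end

theorem tr_inv {V : Type} [CommRing V] [IsDomain V] [CharP V 2] {M : M2 V} (h : M * M = 1) :
    M.trace = 0 := by
  have a := congrFun (congrFun h 0) 0
  have b := congrFun (congrFun h 1) 1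
  simp only [Matrix.mul_apply, Fin.sum_univ_two, Matrix.one_apply_eq] at a b
  have h2 : (2 : V) = 0 := CharTwo.two_eq_zero
  refine pow_eq_zero_iff (n := 2) two_ne_zero |>.1 ?_
  rw [Matrix.trace_fin_two]
  linear_combination a + b + (1 - M 0 1 * M 1 0 + M 0 0 * M 1 1) * h2

/-- the special fibre of type `J` has an explicit model -/
theorem model (cr : CRV) : All fun O F _ _ _ _ _ _ _ ϖ S L X as β τ ι' _ _ _ K n G =>
    ∀ J : Finset L.C, ∃ I : Ideal (PS O (Sy n)), CC I 1 ∧ I ≠ ⊤ ∧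
      (∀ p, Cv p → I ≤ p → G.IT ϖ J ≤ p) ∧ ∀ p, Cv p → G.IT ϖ J ≤ p → G.Irr p → I ≤ p := by
  intro O F _ _ _ _ _ _ _ ϖ S L X as β τ ι' _ _ _ K n G hϖ hC hK hD J
  haveI : IsAdicComplete (maximalIdeal O) O := Coef.cpl
  have un : Un S.T L.r := fun l hl P hP g hg => hC.unr l hP.1 (Or.inl hl) P hP.2.1 hP.2.2 g hg
  obtain ⟨ι, _, _, e, χ, i2, ic, iτ, hS, R, φ, a1, a2, ec, eτ, a3, -, Hp⟩ :=
    setup2 hC.ok hC.W0 hC.rb1 un Coef.ne G.gen1 G.hc G.hτ
  have H : St hS L.C L.P L.τ L.φ i2 ic iτ G.γ L.r e R φ :=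
    ⟨hC.rb1, fun _ => rfl, ⟨χ, a1⟩, a2, a3, fun _ => rfl, fun _ => rfl, Hp⟩
  have ht : ∀ s, φ (tS G.rc id s) = (wm (fun i => R (FreeGroup.of i)) s).trace := fun s => by
    rw [Wm.wm_hom R, ← Hp.ts, ← Wm.wm_hom L.r]; rfl
  have hd : ∀ i, φ (dS G.rc id i) = (R (FreeGroup.of i)).det := Hp.ds
  have ne : ∀ l, G.iτ l ≠ G.iφ l := fun l c => by
    simpa using G.inj (a₁ := Sum.inr (Sum.inl l)) (a₂ := Sum.inr (Sum.inr l)) c
  have hΦ : ∀ l : L.C, Lm hS (L.φ l) (R (FreeGroup.of (G.iφ l))) := fun l => by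
    have := Hp.lm (FreeGroup.of (G.iφ l))
    rwa [FreeGroup.lift_apply_of, G.hφ] at this
  have zτ : ∀ l, R (FreeGroup.of (G.iτ l)) = (d0 S L fun i => G.γ (e i)).Z (iτ l) := fun l => by
    rw [← eτ, Hp.z]
  have hc : φ (trS G.rc id G.ic) = ((d0 S L fun i => G.γ (e i)).Z ic).trace := by
    rw [Wm.trS_eq ht, ← Hp.z, ec]
  have h1 : ∀ l, φ (trS G.rc id (G.iτ l)) = ((d0 S L fun i => G.γ (e i)).Z (iτ l)).trace :=
    fun l => by rw [Wm.trS_eq ht, zτ]
  have h2 : ∀ l, φ (trS G.rc id (G.iφ l)) = (R (FreeGroup.of (G.iφ l))).trace :=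
    fun l => Wm.trS_eq ht _
  have h3 : ∀ l, φ (tr2 G.rc id (G.iτ l) (G.iφ l)) =
      ((d0 S L fun i => G.γ (e i)).Z (iτ l) * R (FreeGroup.of (G.iφ l))).trace :=
    fun l => by rw [Wm.tr2_eq ht (ne l), zτ]
  obtain ⟨c1, c2⟩ := H.cc (J := J) hϖ hΦ hc h1 h2 h3
  refine ⟨_, c1, c2, fun p hp hI => ?_, fun p hp hI ir => ?_⟩
  · have hq : (Qv ϖ (DJ iτ J)).comap φ ≤ p := le_sup_left.trans hI
    refine sup_le (sup_le ((Ag.ag hC G ⟨rfl, rfl, rfl, fun _ => rfl⟩ Hp).trans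
      (H.dn hϖ hΦ hc h1 h2 h3 hp hI)) ((Ideal.span_singleton_le_iff_mem _).2 (hq ?_)))
      (Ideal.span_le.2 ?_)
    · rw [Ideal.mem_comap, Hp.c]; exact Ideal.mem_sup_left (Ideal.mem_span_singleton_self _)
    · rintro u (⟨l, hl, hu⟩ | ⟨l, hl, hu⟩)
      · exact hI (Ideal.mem_sup_right (Ideal.mem_sup_right (Ideal.subset_span ⟨l, hl, hu⟩)))
      · refine hq (Ideal.mem_comap.2 <| Ideal.Quotient.eq_zero_iff_mem.1 (Wm.tauP_of
          (ψ := (Ideal.Quotient.mk (Qv ϖ (DJ iτ J))).comp φ)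
          (Z := fun i => (R (FreeGroup.of i)).map (Ideal.Quotient.mk (Qv ϖ (DJ iτ J))))
          (fun s => ?_) (fun i => ?_) ?_ u hu))
        · rw [RingHom.comp_apply, ht, AddMonoidHom.map_trace, Wm.wm_map]
        · rw [RingHom.comp_apply, hd, RingHom.map_det]; rfl
        · show (R _).map _ = 1
          rw [zτ]; exact H.kill (X_mem hl)
  · have hπ : C ϖ ∈ p :=
      hI (Ideal.mem_sup_left (Ideal.mem_sup_right (Ideal.mem_span_singleton_self _)))
    obtain ⟨V, _, _, _, _, _, _, t, j, ρ, θ, k1, k2, rfl⟩ := cr O F ϖ S L X as β τ ι' K n G hϖ hC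
      hK hD p hp (le_sup_left.trans (le_sup_left.trans hI)) hπ
    have hj : j ϖ = 0 := (k2.hm.c ϖ).symm.trans hπ
    have θt : ∀ s, θ (tS G.rc id s) = (wm (fun i => (ρ (G.γ i) : M2 V)) s).trace :=
      Wm.gv_t k2.hm.c k2.hm.x
    have θd : ∀ i, θ (dS G.rc id i) = (ρ (G.γ i) : M2 V).det := Wm.gv_d k2.hm.c k2.hm.x
    obtain ⟨a, b, hab, hn⟩ := ir
    obtain ⟨u1, u2, -⟩ := H.up (J := J) hϖ j (mρ ρ) hj (fun g a b => by
        have r1 : S.red (L.r g a b - (1 : M2 O) a b) = 0 := by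
          rw [map_sub, ← Matrix.map_apply (f := S.red), r_res hC.ok hC.rb1, Matrix.one_apply,
            Matrix.one_apply, apply_ite S.red, map_one, map_zero, sub_self]
        rw [hC.ok.ker, hϖ.maximalIdeal_eq, Ideal.mem_span_singleton] at r1
        obtain ⟨c, r2⟩ := r1
        have r3 := k2.res g a b
        rw [eq_add_of_sub_eq r2, map_add, map_mul, hj, zero_mul, zero_add, Matrix.one_apply,
          apply_ite j, map_one, map_zero, ← Matrix.one_apply] at r3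
        rw [k1.maximalIdeal_eq, Ideal.mem_span_singleton]
        exact r3) k2.det (lv_opn k1 k2.lv) (lv_un k1 k2.lv) θ k2.hm.c
      (fun s => by rw [k2.hm.x, ← Wm.wm_hom (mρ ρ), ← Wm.wm_hom L.r]; rfl)
      (fun i => k2.hm.x _) fun l hl => by
        rw [← G.hτ]
        exact (Wm.tauP_iff θt θd hab hn (G.iτ l)).1 fun u hu =>
          hI (Ideal.mem_sup_right (Ideal.subset_span (Or.inr ⟨l, hl, hu⟩)))
    refine sup_le u1 (sup_le (sup_le (Ideal.span_le.2 ?_)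
      ((Ideal.span_singleton_le_iff_mem _).2 ?_)) (Ideal.span_le.2 fun u hu =>
        hI (Ideal.mem_sup_right (Ideal.subset_span (Or.inl hu)))))
    · rintro _ ⟨i, rfl⟩
      exact u2 _
    · rw [RingHom.mem_ker, Wm.trS_eq θt, G.hc]
      exact tr_inv (by
        rw [← Units.val_mul, ← map_mul, P022D.Loc2.conj_sq hC.ok.cj, map_one, Units.val_one])

end Vale.Agent.P022S.Geo

namespace Vale.Agent.P022S

open Vale.Agent.P022D.Core (Coef)

theorem prescC (cr : CRV) : PRESC := by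
  intro O F _ _ _ _ _ _ _ ϖ S L X as β τ ι' _ _ _ K n G hϖ hC hK hD J p hp hI ir
  obtain ⟨I, c1, -, dn, up⟩ := Geo.model cr O F ϖ S L X as β τ ι' K n G hϖ hC hK hD J
  haveI := P022D.CA.Cpl.isAdicCompleteV (σ := Sy n) (V := O) Coef.cpl
  exact Geo.pres_of c1 dn hp.1 hI (up p hp hI ir)

theorem connjC (cr : CRV) (ni : NICE) : CONNJ := by
  intro O F _ _ _ _ _ _ _ ϖ S L X as β τ ι' _ _ _ K n G hϖ hC hK hD J hJ
  obtain ⟨I, c1, c2, dn, up⟩ := Geo.model cr O F ϖ S L X as β τ ι' K n G hϖ hC hK hD J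
  haveI := P022D.CA.Cpl.isAdicCompleteV (σ := Sy n) (V := O) Coef.cpl
  refine Geo.conn_of c1 c2 dn fun p hp hI => up p hp hI ?_
  obtain ⟨V, _, _, _, _, _, _, t, j, ρ, θ, k1, k2, rfl⟩ := cr O F ϖ S L X as β τ ι' K n G hϖ hC
    hK hD p hp (le_sup_left.trans (le_sup_left.trans hI))
    (hI (Ideal.mem_sup_left (Ideal.mem_sup_right (Ideal.mem_span_singleton_self _))))
  exact (ni O F ϖ S L X as β τ ι' K n G hϖ hC hK hD V t j ρ θ k1 k2 hp fun h =>
    hI (Ideal.mem_sup_right (Ideal.subset_span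
      (Or.inl ⟨⟨as, h⟩, hJ _ hC.mem, Or.inr (Or.inl rfl)⟩)))).2.2

end Vale.Agent.P022S
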