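import Vale.Agent.P022S.Rows
import Vale.Agent.P022S.Mod.Wd
import Vale.Agent.P022G.Rw.Rcov

/-!
# P022S, row RCOV: the cover, the curve and the ring of level zero
-/

set_option linter.all false

noncomputable section

namespace Vale.Agent.P022S.H90

open NumberField IsLocalRing MvPowerSeries Filter
open Vale.Agent.P022 Vale.Agent.P022S.R Vale.Agent.P022S.Loc
open Vale.Agent.P027M.S (Inert mx)
open Vale.Agent.P022D.Sel (M2)
open Vale.Agent.P022D.Core (PS io y1 Coef)
open Vale.Agent.P022E.Loc (Pl)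
open Vale.Agent.P022E.GW (Ov Gn)
open Vale.Agent.P022G (Hm)
open Vale.Agent.P022G.Word (wd)
open Vale.Agent.P022G.Rcov (hm_ext j_pi j_max)

theorem wm_hom {Γ B : Type} [Group Γ] [CommRing B] {m : ℕ} (ρ : Γ →* M2 B) (γ : Fin m → Γ)
    (s : Finset (Fin m)) : wm (fun i => ρ (γ i)) s = ρ (wd γ s) := by
  rw [wm, wd, map_list_prod, List.map_map]
  rfl

theorem wm_map {B B' : Type} [CommRing B] [CommRing B'] {m : ℕ} (u : B →+* B') (Z : Fin m → M2 B)
    (s : Finset (Fin m)) : (wm Z s).map u = wm (fun i => (Z i).map u) s := by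
  show u.mapMatrix (wm Z s) = _
  rw [wm, wm, map_list_prod, List.map_map]
  rfl

theorem tr_map {B B' : Type} [CommRing B] [CommRing B'] (u : B →+* B') (Z : M2 B) :
    u Z.trace = (Z.map u).trace := by
  rw [Matrix.trace_fin_two, Matrix.trace_fin_two, map_add]
  rfl

theorem det_map {B B' : Type} [CommRing B] [CommRing B'] (u : B →+* B') (Z : M2 B) :
    u Z.det = (Z.map u).det := RingHom.map_det u Z

variable {O F : Type} [CommRing O] [Field F] {S : Dat O F} {L : Pl O} {X : Finset ℕ} {as : ℕ}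

theorem red_r [IsLocalRing O] (h : Cx S L X as) (g : GQ) : (L.r g).map S.red = 1 := by
  rw [h.ok.lift, mx, h.rb1, Units.val_one]

theorem red_t [IsLocalRing O] [CharP F 2] (h : Cx S L X as) (g : GQ) :
    S.red (L.r g).trace = 0 := by
  rw [tr_map, red_r h, Matrix.trace_one, Fintype.card_fin, CharP.cast_eq_zero]

theorem red_d [IsLocalRing O] (h : Cx S L X as) (g : GQ) : S.red (L.r g).det = 1 := by
  rw [det_map, red_r h, Matrix.det_one]

/-- the residual pseudo object -/
def Z0 (S : Dat O F) [Finite F] [CharP F 2] : PO S F where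
  ι := S.red
  π := RingHom.id F
  t g := ((1 : GQ →* M2 F) g).trace
  d := Matrix.GeneralLinearGroup.det.comp (1 : GQ →* M2 F).toHomUnits
  fin := inferInstance
  loc u hu := isUnit_iff_ne_zero.2 hu
  alg _ := rfl
  tf := _root_.P022G.Kd.tf_rep _
  rt g := by
    rw [RingHom.id_apply, MonoidHom.one_apply, Matrix.trace_one, Fintype.card_fin,
      CharP.cast_eq_zero]
  rd g := show (1 : M2 F).det = 1 from Matrix.det_one
  opn := ⟨⊤, isOpen_univ, fun u _ => ⟨fun _ => rfl, Units.ext (show (1 : M2 F).det = 1 from Matrix.det_one)⟩⟩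

theorem Z0_d [Finite F] [CharP F 2] (g : GQ) : ((Z0 S).d g : F) = 1 := (Z0 S).rd g

theorem Z0_t [Finite F] [CharP F 2] (g : GQ) : (Z0 S).t g = 0 := (Z0 S).rt g

theorem rm_one [IsLocalRing O] (h : Cx S L X as) {l : ℕ} (hl : l ∉ S.T)
    {P : Ideal (𝓞 Qb)} (hP : Ov l P) {s : GQ} (hs : Inert P s) : L.r s = 1 :=
  h.unr l hP.1 (Or.inl hl) P hP.2.1 hP.2.2 s hs

theorem Z0_cl [Finite F] [CharP F 2] [IsLocalRing O] (h : Cx S L X as) (Q : Finset ℕ) :
    (Z0 S).Cl L Q where
  d2 g _ := (Z0_d g).trans (red_d h g).symm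
  dc := (Z0_d _).trans (CharTwo.neg_eq 1).symm
  dl l _ := (Z0_d _).trans (red_d h _).symm
  unr l hl h1 _ P p1 p2 s hs := ⟨fun _ => rfl, Units.ext (Z0_d s)⟩

theorem Z0_val [Finite F] [CharP F 2] [IsLocalRing O] (h : Cx S L X as) {m : ℕ}
    {rc : Fin m → M2 O} {γ γ' : Fin m → GQ} (e : rc = fun i => L.r (γ' i)) (s : Sy m) :
    (Z0 S).val rc γ s = 0 := by
  subst e
  rcases s with s | i
  · show (Z0 S).t _ - S.red (wm _ s).trace = 0
    rw [Z0_t, wm_hom, red_t h, sub_self]
  · show ((Z0 S).d _ : F) - S.red (L.r _).det = 0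
    rw [Z0_d, red_d h, sub_self]

variable {β : Type} {τ ι' : β → Type} {K : Kx O β τ ι' L.C} {n : ℕ} {G : Gs S L K.g n} {r : ℕ}

theorem rcr_eq (G : Gs S L K.g n) (r : ℕ) :
    G.rcr r = fun i => L.r (Fin.append G.γ (fun _ : Fin r => 1) i) := by
  funext i
  induction i using Fin.addCases with
  | left i => rw [Gs.rcr, Fin.append_left, Fin.append_left]; rfl
  | right i => rw [Gs.rcr, Fin.append_right, Fin.append_right, map_one]

/-- naturality of the coordinates -/
theorem val_map {B B' : Type} [CommRing B] [CommRing B'] (u : B →+* B') (j : O →+* B)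
    (j' : O →+* B') (hj : ∀ o, u (j o) = j' o) (w : (Σ b, τ b) → M2 B) (Φ T : L.C → M2 B)
    (i : Ix τ L) : u (K.val j w Φ T i) =
      K.val j' (fun t => (w t).map u) (fun γ => (Φ γ).map u) (fun γ => (T γ).map u) i := by
  have m : ∀ (a b : M2 O) (Z : M2 B) p q, u ((a.map j * Z * b.map j) p q) =
      (a.map j' * Z.map u * b.map j') p q := fun a b Z p q => by
    simp only [Matrix.mul_apply, Fin.sum_univ_two, Matrix.map_apply, map_add, map_mul, hj]
  rcases i with t | ⟨γ, x⟩
  · simp only [Kx.val, Sum.elim_inl, map_sub, hj, Matrix.map_apply]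
  · simp only [Kx.val, Sum.elim_inr]
    fin_cases x <;> simp [e8, m, hj]

section ev
variable {B : Type} [CommRing B] {j : O →+* B} {ρ : GQ → M2 B} {α α' : ℕ → M2 B}
  {τ' : Fin r → GQ} {θ : PS O (V0 τ L n S.T r) →+* B}

theorem map_Z (h : Hm j (v0 K G r j ρ α α' τ') θ) (i : Fin (n + r)) :
    (ZS K G r i).map θ = ρ (Fin.append G.γ τ' i) := by
  ext a b
  show θ (C _ + MvPowerSeries.X _) = _
  rw [map_add, h.c, h.x]
  exact add_sub_cancel _ _

theorem map_t (h : Hm j (v0 K G r j ρ α α' τ') θ) (s : Finset (Fin (n + r))) :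
    θ (tS (G.rcr r) (e0 r) s) = (wm (fun i => ρ (Fin.append G.γ τ' i)) s).trace := by
  rw [tS, map_add, h.c, h.x]
  exact add_sub_cancel _ _

theorem map_d (h : Hm j (v0 K G r j ρ α α' τ') θ) (i : Fin (n + r)) :
    θ (dS (G.rcr r) (e0 r) i) = (ρ (Fin.append G.γ τ' i)).det := by
  rw [dS, map_add, h.c, h.x]
  exact add_sub_cancel _ _

theorem map_α (h : Hm j (v0 K G r j ρ α α' τ') θ) (h1 : ∀ l ∉ S.T, α l = 1) (l : ℕ) :
    (αS τ L n S.T r l).map θ = α l := by
  unfold αS
  split_ifs with hl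
  · ext a b
    rw [Matrix.map_apply, Matrix.add_apply, map_add, Matrix.of_apply, h.x]
    show θ _ + (α l - 1) a b = _
    rw [Matrix.sub_apply, Matrix.one_apply, Matrix.one_apply]
    split_ifs <;> simp
  · rw [h1 l hl, Matrix.map_one _ (map_zero θ) (map_one θ)]

theorem α_unit (l : ℕ) : IsUnit (αS (O := O) τ L n S.T r l).det := by
  unfold αS
  split_ifs with hl
  · rw [MvPowerSeries.isUnit_iff_constantCoeff, Matrix.det_fin_two]
    simp
  · simp

theorem map_l (h : Hm j (v0 K G r j ρ α α' τ') θ) (h1 : ∀ l ∉ S.T, α l = 1)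
    (h2 : ∀ l, α l * α' l = 1) (l : ℕ) (i : Fin n) :
    (lS K G r l i).map θ = α' l * ρ (G.γ i) * α l := by
  have e : ((αS τ L n S.T r l)⁻¹).map θ = α' l := by
    have := congrArg (fun m => m.map θ) (Matrix.nonsing_inv_mul _ (α_unit (O := O) (S := S)
      (L := L) (τ := τ) (n := n) (r := r) l))
    simp only [Matrix.map_mul] at this
    rw [map_α h h1, Matrix.map_one _ (map_zero θ) (map_one θ)] at this
    rw [← mul_one (Matrix.map _ θ), ← h2 l, ← mul_assoc, this, one_mul]
  rw [lS, Matrix.map_mul, Matrix.map_mul, e, map_Z h, map_α h h1, Fin.append_left]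

/-- the tautological relations hold at every framed point -/
theorem t0_le (h : Hm j (v0 K G r j ρ α α' τ') θ) (h1 : ∀ l ∉ S.T, α l = 1)
    (h2 : ∀ l, α l * α' l = 1) (h4 : α S.l0 = 1) : t0 K G r ≤ RingHom.ker θ := by
  refine Ideal.span_le.2 ?_
  rintro _ (((⟨s, rfl⟩ | ⟨i, rfl⟩) | ⟨i, rfl⟩) | ⟨p, rfl⟩) <;> refine RingHom.mem_ker.2 ?_
  · rw [map_sub, map_t h, tr_map, wm_map]
    simp only [map_Z h]
    exact sub_self _
  · rw [map_sub, map_d h, det_map, map_Z h, sub_self]
  · rw [map_sub, h.x, κS, val_map θ C j h.c]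
    simp only [map_l h h1 h2, G.hK, G.hφ, G.hτ]
    exact sub_self _
  · show ((αS τ L n S.T r S.l0 - 1).map θ) p.1 p.2 = 0
    rw [Matrix.map_sub _ (map_sub θ), map_α h h1, Matrix.map_one _ (map_zero θ) (map_one θ), h4,
      sub_self, Matrix.zero_apply]

end ev

/-- the symbols of level zero inside all symbols -/
def em (n r : ℕ) : Sy n ↪ Sy (n + r) ⊕ Fin r :=
  ((Finset.mapEmbedding (Fin.castAddEmb r)).toEmbedding.sumMap (Fin.castAddEmb r)).trans
    Function.Embedding.inl

theorem jv_em (s : Sy n) : G.jv r (em n r s) = MvPowerSeries.X s := by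
  rcases s with s | i
  · show tS G.rc id (Finset.univ.filter fun i => Fin.castAdd r i ∈ s.map (Fin.castAddEmb r)) -
      C (wm (G.rcr r) (s.map (Fin.castAddEmb r))).trace = _
    have e : (Finset.univ.filter fun i => Fin.castAdd r i ∈ s.map (Fin.castAddEmb r)) = s := by
      ext i
      rw [Finset.mem_filter, and_iff_right (Finset.mem_univ _)]
      exact Finset.mem_map' (Fin.castAddEmb r)
    rw [e, rcr_eq, wm_hom, Mod.wd_left, ← wm_hom]
    exact add_sub_cancel_left _ _
  · show Fin.append (dS G.rc id) (fun _ : Fin r => 1) (Fin.castAdd r i) -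
      C (G.rcr r (Fin.castAdd r i)).det = _
    rw [Gs.rcr, Fin.append_left, Fin.append_left]
    exact add_sub_cancel_left _ _

theorem jr_surj [IsLocalRing O] [IsNoetherianRing O] {jr : PP O n r →+* PS O (Sy n)}
    (h : Hm C (G.jv r) jr) : Function.Surjective jr := by
  let e : PS O (Sy n) →+* PP O n r := (MvPowerSeries.rename (R := O) (em n r) : _ →ₐ[O] _)
  have k : jr.comp e = RingHom.id _ :=
    hm_ext (j := C) (v := fun s => MvPowerSeries.X s)
      ⟨fun o => by rw [RingHom.comp_apply, show e (C o) = C o from rename_C _ o, h.c],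
        fun s => by
          rw [RingHom.comp_apply, show e (MvPowerSeries.X s) = MvPowerSeries.X (em n r s) from
            rename_X _ s, h.x, jv_em]⟩
      ⟨fun _ => rfl, fun _ => rfl⟩
      (fun c hc => (P022D.CA.Cpl.mem_max_iff _).2 (by rwa [constantCoeff_C]))
      fun s => (P022D.CA.Cpl.mem_max_iff _).2 (by simp)
  exact fun f => ⟨e f, congrArg (fun φ : PS O (Sy n) →+* PS O (Sy n) => φ f) k⟩

/-- the two descriptions of the curve in the ring of symbols -/
theorem comp_eq [IsDomain O] [IsDiscreteValuationRing O] [Coef O] {ϖ : O} (hϖ : Irreducible ϖ)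
    [Fintype β] [∀ b, Fintype (τ b)] {s : ℕ} {V : Type} [CommRing V] [IsDomain V]
    [IsDiscreteValuationRing V] [CharP V 2] {Y : Pc (S := S) (n := n) K r s V}
    (ht : Irreducible Y.t) (h : Y.Ok) : Y.θ.comp (ψ1 S L τ n r) = Y.θA.comp Y.jr := by
  let ρ : GQ →* M2 V := (Units.coeHom _).comp Y.ρ
  have wh : ∀ {m : ℕ} (γ : Fin m → GQ) (s : Finset (Fin m)),
      wm (fun i => (Y.ρ (γ i) : M2 V)) s = (Y.ρ (wd γ s) : M2 V) := fun γ s => wm_hom ρ γ s
  have a1 : ∀ s, Y.θA (tS Y.G'.rc id s) = (Y.ρ (wd Y.G'.γ s) : M2 V).trace := fun s => by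
    rw [tS, map_add, h.crv.hm.c, h.crv.hm.x, ← wh]
    exact add_sub_cancel _ _
  have a2 : ∀ i, Y.θA (dS Y.G'.rc id i) = (Y.ρ (Y.G'.γ i) : M2 V).det := fun i => by
    rw [dS, map_add, h.crv.hm.c, h.crv.hm.x]
    exact add_sub_cancel _ _
  have rs : ∀ g a b, (Y.ρ g : M2 V) a b - Y.j (L.r g a b) ∈ maximalIdeal V := fun g a b => by
    rw [ht.maximalIdeal_eq, Ideal.mem_span_singleton]
    exact h.crv.res _ a b
  have rq : ∀ g, (Y.ρ g : M2 V).map (Ideal.Quotient.mk (maximalIdeal V)) =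
      ((L.r g).map Y.j).map (Ideal.Quotient.mk (maximalIdeal V)) := fun g => by
    ext a b
    exact Ideal.Quotient.eq.2 (rs g a b)
  refine hm_ext (j := Y.j) (v := Sum.elim (sv (Y.G'.rcr r) Y.j
    fun i => (Y.ρ (Fin.append Y.G'.γ (fun _ => 1) i) : M2 V)) fun _ => 0)
    ⟨fun o => ?_, fun z => ?_⟩
    ⟨fun o => by rw [RingHom.comp_apply, h.jr.c, h.crv.hm.c], fun z => ?_⟩
    (fun c hc => by rw [j_max hϖ _ hc]; exact zero_mem _) fun z => ?_
  · rw [← h.cf.c o, RingHom.comp_apply, RingHom.comp_apply,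
      show ψ1 S L τ n r (C o) = C o from rename_C _ o, show io O _ r (C o) = C o from rename_C _ o]
  · rcases z with z | i
    · have := h.cf.x (e0 r z)
      rw [RingHom.comp_apply, show io O _ r (MvPowerSeries.X (e0 r z)) =
        MvPowerSeries.X (Sum.inl (e0 r z)) from rename_X _ _] at this
      rw [RingHom.comp_apply, show ψ1 S L τ n r (MvPowerSeries.X (Sum.inl z)) =
        MvPowerSeries.X (Sum.inl (e0 r z)) from rename_X _ _, this]
      rfl
    · rw [RingHom.comp_apply, show ψ1 S L τ n r (MvPowerSeries.X (Sum.inr i)) =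
        MvPowerSeries.X (Sum.inr i) from rename_X _ _]
      exact h.y0 i
  · rw [RingHom.comp_apply, h.jr.x]
    rcases z with (s | i) | i
    · show Y.θA (tS Y.G'.rc id _ - C _) = (wm _ s).trace - _
      rw [map_sub, a1, h.crv.hm.c, wh, Mod.wd_append]
    · show Y.θA (Fin.append (dS Y.G'.rc id) (fun _ : Fin r => 1) i - C _) =
        (Y.ρ (Fin.append Y.G'.γ (fun _ => 1) i) : M2 V).det - _
      rw [map_sub, h.crv.hm.c]
      induction i using Fin.addCases with
      | left i => rw [Fin.append_left, Fin.append_left, a2]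
      | right i => rw [Fin.append_right, Fin.append_right, map_one, h.crv.det]
    · exact map_zero _
  · rcases z with (s | i) | i
    · show (wm _ s).trace - Y.j (wm (Y.G'.rcr r) s).trace ∈ _
      rw [wh, rcr_eq, wm_hom, ← Ideal.Quotient.eq, tr_map, tr_map Y.j, tr_map, rq]
    · show (Y.ρ _ : M2 V).det - Y.j (Y.G'.rcr r i).det ∈ _
      rw [rcr_eq, ← Ideal.Quotient.eq, det_map, det_map Y.j, det_map, rq]
    · exact zero_mem _

/-- the traces and determinants of the inertia elements are residually trivial -/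
theorem ta_res [IsLocalRing O] [Finite F] [CharP F 2] (hC : Cx S L X as)
    [Fintype β] [∀ b, Fintype (τ b)] {s : ℕ} {V : Type} [CommRing V]
    {Y : Pc (S := S) (n := n) K r s V} (h : Y.Ok) (i : Fin r) :
    S.red (constantCoeff (Y.ta i)) = 0 ∧ S.red (constantCoeff (Y.da i)) = 1 := by
  have key : ∀ m, S.red (constantCoeff (Y.tn m i)) = 0 ∧ S.red (constantCoeff (Y.dn m i)) = 1 :=
    fun m => by
      have k := h.tn m i F (Z0 S) (S.red.comp constantCoeff) (Z0_cl hC _)
        ⟨fun o => by rw [RingHom.comp_apply, constantCoeff_C]; rfl, fun z => by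
          rw [RingHom.comp_apply, constantCoeff_X, map_zero, Z0_val hC (rcr_eq _ r)]⟩
      rw [Z0_t, Z0_d] at k
      exact k
  have lim : ∀ (z : ℕ → PS O (Sy (n + r))) (a : PS O (Sy (n + r))) (c : F),
      P022D.PA.Cv (Y.U : Filter ℕ) z a → (∀ m, S.red (constantCoeff (z m)) = c) →
      S.red (constantCoeff a) = c := fun z a c hz hc => by
    obtain ⟨m, hm⟩ := (hz 1).exists
    rw [pow_one, P022D.CA.Cpl.mem_max_iff, ← hC.ok.ker, map_sub, map_sub, hc, sub_eq_zero] at hm
    exact hm.symm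
  exact ⟨lim _ _ _ (h.cvt i) fun m => (key m).1, lim _ _ _ (h.cvd i) fun m => (key m).2⟩

/-- **row RCOV** -/
theorem rcovC (hO : COBJ) : RCOV := by
  intro O F _ _ _ _ _ _ _ ϖ S L X as β τ ι' _ _ _ K n G hϖ hC hK hD r s V _ _ _ _ _ _ Y ht hG h
  subst hG
  have e := comp_eq hϖ ht h
  have p0 : (Y.rd ϖ).p0 = (RingHom.ker Y.θA).comap Y.jr := by
    show (RingHom.ker Y.θ).comap (ψ1 S L τ n r) = _
    rw [RingHom.comap_ker, RingHom.comap_ker, e]
  have cc : ∀ f, constantCoeff (ψ0 S L τ n r f) = constantCoeff f := fun f =>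
    constantCoeff_rename _ f
  have nu : ∀ f : S0 O τ L n S.T r, S.red (constantCoeff f) = 0 → ¬ IsUnit f := fun f hf hu =>
    ((hu.map constantCoeff).map S.red).ne_zero hf
  refine ⟨P022D.As.cov O _ r _ _ fun i => ⟨nu _ ?_, nu _ ?_⟩, ?_, ?_, p0, jr_surj h.jr, ?_⟩
  · show S.red (constantCoeff (ψ0 S L τ n r (Y.ta i) - 2)) = 0
    rw [map_sub, map_sub, cc, (ta_res hC h i).1, map_ofNat, map_ofNat, CharTwo.two_eq_zero,
      sub_zero]
  · show S.red (constantCoeff (1 - ψ0 S L τ n r (Y.ta i) + ψ0 S L τ n r (Y.da i))) = 0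
    rw [map_add, map_add, map_sub, map_sub, cc, cc, (ta_res hC h i).1, (ta_res hC h i).2,
      map_one, map_one, sub_zero, CharTwo.add_self_eq_zero]
  · refine Ideal.map_le_iff_le_comap.2 ?_
    show _ ≤ (RingHom.ker Y.θ).comap (io O _ r)
    rw [RingHom.comap_ker]
    exact t0_le h.cf (fun _ _ => rfl) (fun _ => mul_one _) rfl
  · rw [p0]
    exact Ideal.comap_mono
      (hO O F ϖ S L X as β τ ι' K n Y.G' hϖ hC hK hD V Y.t Y.j Y.ρ Y.θA ht h.crv).1
  · rw [← j_pi hϖ Y.j, ← h.cf.c, RingHom.comp_apply,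
      show io O _ r (C ϖ) = C ϖ from rename_C _ ϖ]

end Vale.Agent.P022S.H90
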