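import Vale.Agent.P022S.Rows
import Vale.Agent.P022S.Tw.Univ

/-! P022S, row REPO. -/

set_option linter.all false

namespace Vale.Agent.P022S

theorem repoC : REPO := by
  intro O F _ _ _ _ _ _ _ ϖ S L X as β τ ι' _ _ _ K n G hϖ hC hK hD r q τ' hq B _ _ π ψ loc hπ hψ
  haveI := P022D.Core.Coef.cpl (O := O)
  obtain ⟨Y, a, b, c⟩ := Tw.univ K G r hC.ok.ker hK.clo hC.rb1 (G.gen r q τ' hq) π loc ψ
    (fun c => by rw [hπ, MvPowerSeries.constantCoeff_C]) hψ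
  exact ⟨Y, b, a, c⟩

end Vale.Agent.P022S
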