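import Vale.Agent.P022S.Rows
import Vale.Agent.P022S.Flat3
import Vale.Agent.P022S.Tw.Crv
import Vale.Agent.P022G.Col0
import Vale.Agent.P022G.Up2
import Vale.Agent.P022D.As.Cov

/-!
# P022S: rows RFL and RUP
-/

set_option linter.all false

noncomputable section

namespace Vale.Agent.P022S.Rf

open MvPowerSeries IsLocalRing _root_.P022G.Sum
open _root_.P022G.Th (del dl del_eq map_del map_dl)
open Vale.Agent.P022S.R Vale.Agent.P022S.Loc Vale.Agent.P022S.Fl
open Vale.Agent.P022D.Sel (M2)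
open Vale.Agent.P022D.Core (PS io Coef)
open Vale.Agent.P022E.Loc (Pl)
open Vale.Agent.P022G (Hm KI MemM io_C' io_X')

variable {O F : Type} [CommRing O] [Field F] {S : Dat O F} {L : Pl O} {β : Type} {τ ι' : β → Type}
  (K : Kx O β τ ι' L.C) {n : ℕ} (G : Gs S L K.g n) (r : ℕ)

theorem wm_map {A B : Type} [CommRing A] [CommRing B] (u : A →+* B) {m : ℕ} (Z : Fin m → M2 A)
    (s : Finset (Fin m)) : u (wm Z s).trace = (wm (fun i => (Z i).map u) s).trace := by
  have e : (wm Z s).map u = wm (fun i => (Z i).map u) s := by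
    have := map_list_prod u.mapMatrix ((s.sort (· ≤ ·)).map Z)
    rw [List.map_map] at this
    exact this
  rw [← e]
  exact AddMonoidHom.map_trace u _

theorem wm_one {A : Type} [CommRing A] {m : ℕ} (Z : Fin m → M2 A) (i : Fin m) :
    wm Z {i} = Z i := by
  simp [wm]

theorem wm_lt {A : Type} [CommRing A] {m : ℕ} (Z : Fin m → M2 A) {i k : Fin m} (h : i < k) :
    wm Z {i, k} = Z i * Z k := by
  have : ({i, k} : Finset (Fin m)).sort (· ≤ ·) = [i, k] := by
    rw [Finset.sort_insert _ (by simpa using h.le) (by simpa using h.ne), Finset.sort_singleton]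
  simp [wm, this]

theorem wm_two {A : Type} [CommRing A] {m : ℕ} (Z : Fin m → M2 A) {i k : Fin m} (h : i ≠ k) :
    (wm Z {i, k}).trace = (Z i * Z k).trace := by
  rcases lt_or_gt_of_ne h with h | h
  · rw [wm_lt Z h]
  · rw [Finset.pair_comm, wm_lt Z h, Matrix.trace_mul_comm]

theorem psi_C (o : O) : ψ1 S L τ n r (C o) = C o := rename_C _ o

theorem psi_inl (s : Sy (n + r)) :
    ψ1 S L τ n r (X (Sum.inl s)) = X (Sum.inl (e0 r s)) := rename_X _ _

theorem psi_t (rc : Fin (n + r) → M2 O) (s : Finset (Fin (n + r))) :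
    ψ1 S L τ n r (tS rc Sum.inl s) = io O _ r (tS rc (e0 r) s) := by
  rw [tS, tS, map_add, map_add, psi_C, psi_inl, io_C', io_X']

theorem psi_d (rc : Fin (n + r) → M2 O) (i : Fin (n + r)) :
    ψ1 S L τ n r (dS rc Sum.inl i) = io O _ r (dS rc (e0 r) i) := by
  rw [dS, dS, map_add, map_add, psi_C, psi_inl, io_C', io_X']

/-- the free frames -/
abbrev KF (S : Dat O F) : Type := {l : S.T // (l : ℕ) ≠ S.l0} × Fin 2 × Fin 2

variable (S L τ n) in
/-- the names of the variables which are not symbols or roots -/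
def gz : (KF S ⊕ (Fin (n + r) × Fin 2 × Fin 2)) ⊕ (Ix τ L ⊕ (Fin 2 × Fin 2)) →
    V0 τ L n S.T r ⊕ Fin r :=
  Sum.elim (Sum.elim (fun v => .inl (.inr (.inr (.inr (v.1.1, v.2)))))
      fun v => .inl (.inr (.inr (.inl v))))
    (Sum.elim (fun i => .inl (.inl i)) fun v => .inl (.inr (.inr (.inr (⟨S.l0, S.hl0⟩, v)))))

theorem ext_psi : Ext (ψ1 S L τ n r) fun w => X (gz S L τ n r w) := by
  refine ext_rename _ _
    { toFun := Sum.elim (Sum.elim (fun s => Sum.inl (Sum.inr (Sum.inl s))) Sum.inr) (gz S L τ n r)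
      invFun := Sum.elim (Sum.elim (fun i => .inr (.inr (.inl i)))
        (Sum.elim (fun s => .inl (.inl s)) (Sum.elim (fun v => .inr (.inl (.inr v))) fun v =>
          if h : (v.1 : ℕ) = S.l0 then .inr (.inr (.inr v.2))
          else .inr (.inl (.inl (⟨v.1, h⟩, v.2))))))
        fun i => .inl (.inr i)
      left_inv := ?_
      right_inv := ?_ } ?_ fun _ => rfl
  · rintro ((s | i) | (v | v) | i | v)
    exacts [rfl, rfl, dif_neg v.1.2, rfl, rfl, dif_pos rfl]
  · rintro ((i | s | v | ⟨⟨l, hl⟩, v⟩) | i)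
    iterate 3 rfl
    · by_cases h : l = S.l0
      · subst h
        exact congrArg _ (dif_pos rfl)
      · exact congrArg _ (dif_neg h)
    · rfl
  · rintro (s | i) <;> rfl

/-- the local matrices with the frame at `l0` removed -/
def lT (l : ℕ) (i : Fin n) : M2 (PS O (V0 τ L n S.T r)) :=
  if l = S.l0 then ZS K G r (Fin.castAdd r i) else lS K G r l i

def κT : Ix τ L → PS O (V0 τ L n S.T r) :=
  K.val C (fun t => lT K G r (K.l t) (G.iK t)) (fun γ => lT K G r γ (G.iφ γ))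
    fun γ => lT K G r γ (G.iτ γ)

theorem kap_mem (A : Subring (PS O (V0 τ L n S.T r))) (hC : ∀ o, C o ∈ A)
    (hX : ∀ v, X (.inr (.inr (.inl v))) ∈ A)
    (hY : ∀ v : KF S, X (.inr (.inr (.inr (v.1.1, v.2)))) ∈ A)
    (hA : ∀ w ∈ A, IsUnit w → ∃ w' ∈ A, w * w' = 1) (i : Ix τ L) : κT K G r i ∈ A := by
  have ha : ∀ l, l ≠ S.l0 → MemM A (αS τ L n S.T r l) := fun l hl a b => by
    have h1 : (1 : M2 (PS O (V0 τ L n S.T r))) a b ∈ A := by
      rw [Matrix.one_apply]
      split_ifs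
      exacts [A.one_mem, A.zero_mem]
    unfold αS
    split_ifs with h
    exacts [A.add_mem h1 (hY (⟨⟨l, h⟩, hl⟩, a, b)), h1]
  have hZ : ∀ i, MemM A (ZS K G r i) := fun i a b => A.add_mem (hC _) (hX _)
  have hl : ∀ l i, MemM A (lT K G r l i) := fun l i => by
    unfold lT
    split_ifs with h
    exacts [hZ _, (((ha l h).inv hA).mul (hZ _)).mul (ha l h)]
  have hm : ∀ (γ : L.C) (Z : M2 (PS O (V0 τ L n S.T r))), MemM A Z →
      MemM A ((K.u γ).map C * Z * (K.v γ).map C) := fun γ Z h =>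
    (MemM.mul (fun a b => hC _) h).mul fun a b => hC _
  rcases i with t | ⟨γ, n⟩
  · exact A.sub_mem (hl _ _ _ _) (hC _)
  · have h1 := hm γ _ (hl γ (G.iφ γ))
    have h2 := hm γ _ (hl γ (G.iτ γ))
    fin_cases n
    exacts [A.sub_mem (h1 0 0) (hC _), A.sub_mem (h1 0 1) (hC _), h1 1 0,
      A.sub_mem (h1 1 1) (hC _), A.sub_mem (h2 0 0) A.one_mem, A.sub_mem (h2 0 1) (hC _), h2 1 0,
      A.sub_mem (h2 1 1) A.one_mem]

theorem al0 (a b : Fin 2) : (αS (O := O) τ L n S.T r S.l0 - 1) a b =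
    X (.inr (.inr (.inr (⟨S.l0, S.hl0⟩, a, b)))) := by
  rw [αS, dif_pos S.hl0, add_sub_cancel_left]
  rfl

theorem det_unit {σ : Type} (c : M2 O) (hc : IsUnit c.det) (Z : M2 (PS O σ)) (v : Fin 2 → Fin 2 → σ)
    (h : ∀ a b, Z a b = C (c a b) + X (v a b)) : IsUnit Z.det := by
  rw [isUnit_iff_constantCoeff, RingHom.map_det]
  have : (constantCoeff : PS O σ →+* O).mapMatrix Z = c := Matrix.ext fun a b => by
    show constantCoeff (Z a b) = _
    rw [h, map_add, constantCoeff_C, constantCoeff_X, add_zero]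
  rwa [this]

theorem kap_sub (J : Ideal (PS O (V0 τ L n S.T r)))
    (hJ : ∀ a b, X (.inr (.inr (.inr (⟨S.l0, S.hl0⟩, a, b)))) ∈ J) (i : Ix τ L) :
    κS K G r i - κT K G r i ∈ J := by
  have h1 : (αS (O := O) τ L n S.T r S.l0).map (Ideal.Quotient.mk J) = 1 := Matrix.ext fun a b => by
    rw [← P022D.R.map_one' (Ideal.Quotient.mk J)]
    have := hJ a b
    rw [← al0] at this
    exact Ideal.Quotient.eq.2 this
  have hu : IsUnit (αS (O := O) τ L n S.T r S.l0).det :=
    det_unit 1 (by simp) _ (fun a b => .inr (.inr (.inr (⟨S.l0, S.hl0⟩, a, b)))) fun a b => by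
      rw [← al0, Matrix.sub_apply]
      have := congrFun (congrFun (P022D.R.map_one' (C : O →+* PS O (V0 τ L n S.T r))) a) b
      rw [← this]
      exact (add_sub_cancel _ _).symm
  have h2 : (αS (O := O) τ L n S.T r S.l0)⁻¹.map (Ideal.Quotient.mk J) = 1 := by
    rw [← mul_one (Matrix.map _ _), ← h1, ← Matrix.map_mul, Matrix.nonsing_inv_mul _ hu, h1]
    exact P022D.R.map_one' _
  have h3 : ∀ l i, (lS K G r l i).map (Ideal.Quotient.mk J) =
      (lT K G r l i).map (Ideal.Quotient.mk J) := fun l i => by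
    unfold lT
    split_ifs with h
    · subst h
      rw [lS, Matrix.map_mul, Matrix.map_mul, h1, h2, one_mul, mul_one]
    · rfl
  refine Ideal.Quotient.eq.1 ?_
  rw [κS, κT, Tw.val_map, Tw.val_map]
  simp only [h3]

variable (hd : ∀ g, IsUnit (L.r g).det)
include hd

theorem rcr_unit (i : Fin (n + r)) : IsUnit (G.rcr r i).det := by
  refine Fin.addCases (fun i => ?_) (fun i => ?_) i
  · rw [Gs.rcr, Fin.append_left]; exact hd _
  · rw [Gs.rcr, Fin.append_right]; simp

theorem dS_unit (i : Fin (n + r)) :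
    IsUnit (dS (G.rcr r) (Sum.inl : _ → Sy (n + r) ⊕ Fin r) i) := by
  rw [isUnit_iff_constantCoeff, dS, map_add, constantCoeff_C, constantCoeff_X, add_zero]
  exact rcr_unit K G r hd i

/-- the chart -/
def cu : Cu (ψ1 S L τ n r) (KF S) (Ix τ L ⊕ (Fin 2 × Fin 2)) (n + r) (aF (G.rcr r) Sum.inl)
    ((t0 K G r).map (io O _ r)) where
  z := fun w => X (gz S L τ n r w)
  Z := fun i => (ZS K G r i).map (io O _ r)
  z0 := fun i => (G.rcr r i).map C
  gm := Sum.elim (fun i => io O _ r (κT K G r i)) fun _ => 0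
  p := tS (G.rcr r) Sum.inl
  r := fun i => (dS_unit K G r hd i).unit
  hu := fun i => ((Matrix.isUnit_iff_isUnit_det _).2 (det_unit _ (rcr_unit K G r hd i) _ _
    fun _ _ => rfl)).map (io O _ r).mapMatrix
  ext := ext_psi r
  hZ := fun i a b => by
    rw [Matrix.map_apply, Matrix.map_apply, psi_C]
    exact (map_add _ _ _).trans (by rw [io_C', io_X']; rfl)
  hg := fun A ⟨h1, h2, h3⟩ m => by
    rcases m with m | m
    · refine kap_mem K G r (A.comap (io O _ r)) (fun o => ?_) (fun v => ?_) (fun v => ?_)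
        (fun w hw hu => ?_) m
      · show io O _ r (C o) ∈ A
        rw [io_C', ← psi_C]
        exact h1 _
      · show io O _ r (X _) ∈ A
        rw [io_X']
        exact h2 (.inr v)
      · show io O _ r (X _) ∈ A
        rw [io_X']
        exact h2 (.inl v)
      · obtain ⟨w', e⟩ := hu.exists_right_inv
        obtain ⟨v, e1, e2⟩ := h3 _ hw (hu.map _)
        refine ⟨w', ?_, e⟩
        show io O _ r w' ∈ A
        rwa [← mul_one (io O _ r w'), ← e2, ← mul_assoc, ← map_mul, mul_comm w', e, map_one,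
          one_mul]
    · exact A.zero_mem
  hc := fun f hf B _ j v ψ ⟨_, t, d, T, e⟩ h => (Ut.spec T FreeGroup.of ψ
    (fun s => by rw [tS, map_add, h.c, h.x, e]; exact add_sub_cancel _ _)
    fun i => by
      rw [IsUnit.unit_spec, dS, map_add, h.c, h.x, e]; exact add_sub_cancel _ _).1 hf
  tp := fun s => by
    have := Ideal.mem_map_of_mem (io O _ r)
      (Ideal.subset_span (Or.inl (Or.inl (Or.inl ⟨s, rfl⟩))) : _ ∈ t0 K G r)
    rwa [map_sub, wm_map, ← psi_t] at this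
  tr := fun i => by
    have := Ideal.mem_map_of_mem (io O _ r)
      (Ideal.subset_span (Or.inl (Or.inl (Or.inr ⟨i, rfl⟩))) : _ ∈ t0 K G r)
    rwa [map_sub, RingHom.map_det, ← psi_d] at this
  tm := fun m => by
    have k : ∀ a b, X (.inr (.inr (.inr (⟨S.l0, S.hl0⟩, a, b)))) ∈ t0 K G r := fun a b =>
      al0 (O := O) (S := S) (L := L) (τ := τ) (n := n) r a b ▸
        Ideal.subset_span (Or.inr ⟨(a, b), rfl⟩)
    rcases m with m | m
    · have := Ideal.mem_map_of_mem (io O _ r) (Ideal.add_mem _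
        (Ideal.subset_span (Or.inl (Or.inr ⟨m, rfl⟩)) : _ ∈ t0 K G r) (kap_sub K G r _ k m))
      rwa [sub_add_sub_cancel, map_sub, io_X'] at this
    · have := Ideal.mem_map_of_mem (io O _ r) (k m.1 m.2)
      rwa [io_X', ← sub_zero (X _)] at this
  le := fun J h1 h2 h3 => by
    have k : ∀ a b, X (.inr (.inr (.inr (⟨S.l0, S.hl0⟩, a, b)))) ∈ J.comap (io O _ r) :=
      fun a b => by
        have := h3 (.inr (a, b))
        rw [Ideal.mem_comap, io_X']
        exact (sub_zero (X _ : S1 O τ L n S.T r)) ▸ this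
    refine Ideal.map_le_iff_le_comap.2 (Ideal.span_le.2 ?_)
    rintro _ (((⟨s, rfl⟩ | ⟨i, rfl⟩) | ⟨i, rfl⟩) | ⟨p, rfl⟩)
    · show io O _ r _ ∈ J
      rw [map_sub, wm_map, ← psi_t]
      exact h1 s
    · show io O _ r _ ∈ J
      rw [map_sub, RingHom.map_det, ← psi_d]
      exact h2 i
    · have e : X (.inl i) - κT K G r i ∈ J.comap (io O _ r) := by
        rw [Ideal.mem_comap, map_sub, io_X']
        exact h3 (.inl i)
      have := Ideal.sub_mem _ e (kap_sub K G r _ k i)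
      rwa [sub_sub_sub_cancel_right] at this
    · have := k p.1 p.2
      rwa [← al0] at this

omit hd

theorem hd_of [IsLocalRing O] {X : Finset ℕ} {as : ℕ} (h : Cx S L X as) (g : P022.GQ) :
    IsUnit (L.r g).det := by
  by_contra hn
  have := (h.ok.ker _).2 ((mem_maximalIdeal _).2 hn)
  rw [RingHom.map_det, RingHom.mapMatrix_apply, h.ok.lift, h.ok.det] at this
  exact one_ne_zero this

variable {K r} {s : ℕ} {V : Type} [CommRing V] [IsLocalRing O] [Fintype β] [∀ b, Fintype (τ b)]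
  {Y : Pc (S := S) (n := n) K r s V}

theorem th_Z (h : Y.Ok) (i : Fin n) :
    ((ZS K Y.G' r (Fin.castAdd r i)).map (io O _ r)).map Y.θ = (Y.ρ (Y.G'.γ i) : M2 V) :=
  Matrix.ext fun a b => by
    refine ((Y.θ.comp (io O _ r)).map_add _ _).trans ?_
    rw [h.cf.c, h.cf.x]
    refine (add_sub_cancel _ _).trans ?_
    beta_reduce
    rw [Fin.append_left]

theorem th_del (h : Y.Ok) {i k : Fin n} (hik : i ≠ k) :
    Y.θ (del ((ZS K Y.G' r (Fin.castAdd r i)).map (io O _ r))
      ((ZS K Y.G' r (Fin.castAdd r k)).map (io O _ r))) = Y.θA (dlS Y.G'.rc id i k) := by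
  have e1 : ∀ s, Y.θA (tS Y.G'.rc id s) = (wm (fun i => (Y.ρ (Y.G'.γ i) : M2 V)) s).trace :=
    fun s => by
      rw [tS, map_add, h.crv.hm.c, h.crv.hm.x]
      exact add_sub_cancel _ _
  have e2 : ∀ i, Y.θA (dS Y.G'.rc id i) = (Y.ρ (Y.G'.γ i) : M2 V).det := fun i => by
    rw [dS, map_add, h.crv.hm.c, h.crv.hm.x]
    exact add_sub_cancel _ _
  rw [map_del, th_Z h, th_Z h, del_eq, dlS, map_dl, trS, trS, tr2, e1, e1, e1, e2, e2, wm_one,
    wm_one, wm_two _ hik]

theorem ex_del (h : Y.Ok) (hd : ∀ g, IsUnit (L.r g).det) : ∃ a b,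
    del (Kd.fr (cu K Y.G' r hd).Z (cu K Y.G' r hd).hu a)
      (Kd.fr (cu K Y.G' r hd).Z (cu K Y.G' r hd).hu b) ∉ RingHom.ker Y.θ := by
  obtain ⟨i, k, hik, e⟩ := h.irr
  refine ⟨.of (Fin.castAdd r i), .of (Fin.castAdd r k), fun e' => e ?_⟩
  rw [Kd.fr_of, Kd.fr_of] at e'
  exact (th_del h hik).symm.trans e'

theorem card_KF : 4 * S.T.card - 1 ≤ Fintype.card (KF S) + 3 := by
  have h : Fintype.card {l : S.T // (l : ℕ) ≠ S.l0} = S.T.card - 1 := by
    rw [← Finset.card_erase_of_mem S.hl0, ← Fintype.card_coe]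
    exact Fintype.card_congr
      { toFun := fun l => ⟨l.1.1, Finset.mem_erase.2 ⟨l.2, l.1.2⟩⟩
        invFun := fun l => ⟨⟨l.1, (Finset.mem_erase.1 l.2).2⟩, (Finset.mem_erase.1 l.2).1⟩
        left_inv := fun _ => rfl
        right_inv := fun _ => rfl }
  rw [Fintype.card_prod, h, Fintype.card_prod, Fintype.card_fin]
  omega

end Vale.Agent.P022S.Rf

namespace Vale.Agent.P022S

open Rf

theorem rfl0 : RFL := by
  intro O F _ _ _ _ _ _ _ ϖ S L X as β τ ι' _ _ _ K n G hϖ hC hK hD r s V _ _ _ _ _ _ Y ht hG hY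
  obtain ⟨a, b, e⟩ := ex_del hY (hd_of hC)
  haveI := RingHom.ker_isPrime Y.θ
  haveI := P022D.As.base O (Sy (n + r) ⊕ Fin r)
  haveI hB := P022D.As.base O (V0 τ L n S.T r ⊕ Fin r)
  haveI := hB.cpl
  have h := (cu K Y.G' r (hd_of hC)).col a b (RingHom.ker Y.θ) e
  exact ⟨h.pur, h.tf _⟩

theorem rflC (hR : RCOV) : RFL := rfl0

theorem rupC (hR : RCOV) : RUP := by
  intro O F _ _ _ _ _ _ _ ϖ S L X as β τ ι' _ _ _ K n G hϖ hC hK hD r s V _ _ _ _ _ _ Y ht hG hY
    η hη g1 g2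
  obtain ⟨a, b, e⟩ := ex_del hY (hd_of hC)
  haveI := P022D.As.base O (Sy (n + r) ⊕ Fin r)
  haveI hB := P022D.As.base O (V0 τ L n S.T r ⊕ Fin r)
  haveI := hB.cpl
  haveI := _root_.P022G.Up.reg2 (σ := Fl.W8) (ω := V0 τ L n S.T r ⊕ Fin r) (O := O)
  exact (cu K Y.G' r (hd_of hC)).up a b (RingHom.ker_isPrime Y.θ)
    (hR O F ϖ S L X as β τ ι' K n G hϖ hC hK hD r s V Y ht hG hY).2.1 e card_KF η hη g1 g2

end Vale.Agent.P022S
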