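import Vale.Agent.P022S.Rw.RlocA86
import Vale.Agent.P022S.Loc.Defs

/-!
# P022S: the blocks are conjugates of the universal matrices
-/

set_option linter.all false

noncomputable section

namespace Vale.Agent.P022S.Rl86

open MvPowerSeries
open Vale.Agent.P022 Vale.Agent.P022S.R Vale.Agent.P022S.Loc
open Vale.Agent.P022D.Sel (M2)

variable {O : Type} [CommRing O] {β Γ σ : Type} {τ ι' : β → Type} (K : Kx O β τ ι' Γ)
  (lc : Γ → ℕ)

theorem conj (huv : ∀ γ, K.u γ * K.v γ = 1) {B : Type} [CommRing B]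
    (m : MvPowerSeries (((Σ b, τ b) ⊕ (Γ × Fin 8)) ⊕ σ) O →+* B) (l : Γ)
    (α Zφ Zτ : M2 (MvPowerSeries (((Σ b, τ b) ⊕ (Γ × Fin 8)) ⊕ σ) O)) (hα : IsUnit α.det)
    (hx : ∀ j : Fin 8, m (X (Sum.inl (Sum.inr (l, j)))) =
      m (e8 (C (K.s l)) (C (K.b l)) (C (K.n l))
        ((K.u l).map C * (α⁻¹ * Zφ * α) * (K.v l).map C)
        ((K.u l).map C * (α⁻¹ * Zτ * α) * (K.v l).map C) j)) :
    ∃ P Q : M2 B, P * Q = 1 ∧ Q * P = 1 ∧ ((K.D lc σ).Φ l).map m = P * Zφ.map m * Q ∧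
      ((K.D lc σ).T l).map m = P * Zτ.map m * Q := by
  set u : M2 (MvPowerSeries (((Σ b, τ b) ⊕ (Γ × Fin 8)) ⊕ σ) O) := (K.u l).map C with hu
  set v : M2 (MvPowerSeries (((Σ b, τ b) ⊕ (Γ × Fin 8)) ⊕ σ) O) := (K.v l).map C with hv
  have h1 : u * v = 1 := by
    rw [hu, hv, ← Matrix.map_mul, huv]; simp
  have h2 : (u * α⁻¹) * (α * v) = 1 := by
    rw [mul_assoc, ← mul_assoc α⁻¹, Matrix.nonsing_inv_mul _ hα, one_mul, h1]
  have h3 : (u * α⁻¹).map m * (α * v).map m = 1 := by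
    rw [← Matrix.map_mul, h2]; simp
  have e : ∀ Z, (u * α⁻¹).map m * Matrix.map Z m * (α * v).map m =
      (u * (α⁻¹ * Z * α) * v).map m := fun Z => by
    rw [← Matrix.map_mul, ← Matrix.map_mul]
    simp only [mul_assoc]
  refine ⟨_, _, h3, mul_eq_one_comm.1 h3, ?_, ?_⟩
  · rw [e]
    have a0 := hx 0
    have a1 := hx 1
    have a2 := hx 2
    have a3 := hx 3
    generalize u * (α⁻¹ * Zφ * α) * v = W at *
    simp only [e8, Matrix.cons_val, map_sub] at a0 a1 a2 a3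
    change (P022D.Rl.mP (fun j => Sum.inl (Sum.inr (l, j))) (K.s l) (K.b l)).map m = _
    ext a b
    fin_cases a <;> fin_cases b <;> simp [P022D.Rl.mP, a0, a1, a2, a3]
  · rw [e]
    have a0 := hx 4
    have a1 := hx 5
    have a2 := hx 6
    have a3 := hx 7
    generalize u * (α⁻¹ * Zτ * α) * v = W at *
    simp only [e8, Matrix.cons_val, map_sub] at a0 a1 a2 a3
    change (P022D.Rl.mT (fun j => Sum.inl (Sum.inr (l, j))) (K.n l)).map m = _
    ext a b
    fin_cases a <;> fin_cases b <;> simp [P022D.Rl.mT, a0, a1, a2, a3]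

theorem tr_conj {B : Type} [CommRing B] {P Q : M2 B} (h : Q * P = 1) (A : M2 B) :
    (P * A * Q).trace = A.trace := by
  rw [Matrix.trace_mul_comm, ← mul_assoc, h, one_mul]

theorem one_conj {B : Type} [CommRing B] {P Q : M2 B} (h : P * Q = 1) (h' : Q * P = 1)
    (A : M2 B) : P * A * Q = 1 ↔ A = 1 := by
  constructor
  · intro e
    have : A = Q * (P * A * Q) * P := by
      calc A = (Q * P) * A * (Q * P) := by rw [h', one_mul, mul_one]
        _ = _ := by simp only [mul_assoc]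
    rw [this, e, mul_one, h']
  · rintro rfl
    rw [mul_one, h]

theorem tr_map {A B : Type} [CommRing A] [CommRing B] (m : A →+* B) (W : M2 A) :
    m W.trace = (W.map m).trace := by
  simp [Matrix.trace_fin_two]

theorem sub_one {A B : Type} [CommRing A] [CommRing B] (m : A →+* B) (W : M2 A) :
    (∀ a b, m ((W - 1) a b) = 0) ↔ W.map m = 1 := by
  constructor
  · intro h
    ext a b
    have := h a b
    rw [Matrix.sub_apply, map_sub, sub_eq_zero] at this
    rw [Matrix.map_apply, this, Matrix.one_apply, Matrix.one_apply]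
    split_ifs <;> simp
  · intro h a b
    have := congrFun (congrFun h a) b
    rw [Matrix.map_apply] at this
    rw [Matrix.sub_apply, map_sub, this, Matrix.one_apply, Matrix.one_apply]
    split_ifs <;> simp

/-- the local elements in terms of the matrices `Zφ`, `Zτ` -/
theorem key {A B : Type} [CommRing A] [CommRing B] (m : A →+* B) {Φ T : M2 A} {Zφ Zτ : M2 B}
    (h : ∃ P Q : M2 B, P * Q = 1 ∧ Q * P = 1 ∧ Φ.map m = P * Zφ * Q ∧ T.map m = P * Zτ * Q) :
    ((∀ a b, m ((T - 1) a b) = 0) ↔ Zτ = 1) ∧ m T.trace = Zτ.trace ∧ m Φ.trace = Zφ.trace ∧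
      m (T * Φ).trace = (Zτ * Zφ).trace := by
  obtain ⟨P, Q, h1, h2, h3, h4⟩ := h
  refine ⟨by rw [sub_one, h4, one_conj h1 h2], by rw [tr_map, h4, tr_conj h2],
    by rw [tr_map, h3, tr_conj h2], ?_⟩
  rw [tr_map, Matrix.map_mul, h3, h4, ← tr_conj h2 (Zτ * Zφ)]
  congr 1
  simp only [mul_assoc]
  rw [← mul_assoc Q P, h2, one_mul]

end Vale.Agent.P022S.Rl86
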