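import Vale.Agent.P022S.Rw.Rgal0B
import Vale.Agent.P022S.Rw.RlocB86
import Vale.Agent.P022G.Rw.RgalA

/-!
# P022S: row RGAL0
-/

set_option linter.all false

noncomputable section

namespace Vale.Agent.P022S

open IsLocalRing MvPowerSeries Filter
open Vale.Agent.P022 Vale.Agent.P022S.R Vale.Agent.P022S.Loc
open Vale.Agent.P027M.S (Inert mx)
open Vale.Agent.P022D.Sel (M2)
open Vale.Agent.P022D.Core (PS io y1 Coef)
open Vale.Agent.P022E.Loc (Pl)
open Vale.Agent.P022E.GW (Ov Gn)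
open Vale.Agent.P022G (Hm KI)
open Vale.Agent.P022G.Word (wd)
open Vale.Agent.P022G.Rg (ioC ioX)
open Vale.Agent.P022G

namespace G0

variable {O F : Type} [CommRing O] [Field F] {S : Dat O F} {L : Pl O}

section maps
variable {β : Type} {τ ι' : β → Type} {n r : ℕ}

theorem p0C (o : O) : ψ0 S L τ n r (C o) = C o := rename_C _ o

theorem p0X (s : Sy (n + r)) : ψ0 S L τ n r (X s) = X (e0 r s) := rename_X _ s

theorem p1y (i : Fin r) : ψ1 S L τ n r (y1 O _ i) = y1 O _ i := rename_X _ _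

theorem p1io (f : PS O (Sy (n + r))) :
    ψ1 S L τ n r (io O _ r f) = io O _ r (ψ0 S L τ n r f) :=
  (rename_rename _ _ f).trans (rename_rename (e0 r : Sy (n + r) ↪ V0 τ L n S.T r)
    (Function.Embedding.inl : V0 τ L n S.T r ↪ V0 τ L n S.T r ⊕ Fin r) f).symm

theorem p1_max [IsLocalRing O] : ∀ f ∈ maximalIdeal (PP O n r),
    ψ1 S L τ n r f ∈ maximalIdeal (S1 O τ L n S.T r) := fun f hf => by
  rw [P022D.CA.Cpl.mem_max_iff] at hf ⊢
  have e : constantCoeff (ψ1 S L τ n r f) = constantCoeff f := constantCoeff_rename _ f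
  rwa [e]

theorem p0t (rc : Fin (n + r) → M2 O) (s : Finset (Fin (n + r))) :
    ψ0 S L τ n r (tS rc id s) = tS rc (e0 r) s := by
  rw [tS, tS, map_add, p0C, p0X]; rfl

theorem p0d (rc : Fin (n + r) → M2 O) (i : Fin (n + r)) :
    ψ0 S L τ n r (dS rc id i) = dS rc (e0 r) i := by
  rw [dS, dS, map_add, p0C, p0X]; rfl

theorem io_tau (rc : Fin n → M2 O) (i : Fin n) {u : PS O (Sy n)} (h : u ∈ tauP rc id i) :
    io O (Sy n) r u ∈ tauP rc Sum.inl i := by
  have e : ∀ s, io O (Sy n) r (tS rc id s) = tS rc Sum.inl s := fun s => by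
    rw [tS, tS, map_add, ioC, ioX]; rfl
  rcases h with rfl | ⟨s, rfl⟩
  · refine Or.inl ?_
    rw [map_sub, map_one, dS, dS, map_add, ioC, ioX]; rfl
  · exact Or.inr ⟨s, by rw [map_sub, e, e]⟩

theorem al_unit (l : ℕ) : IsUnit (αS (O := O) τ L n S.T r l).det := by
  unfold αS
  split_ifs with h
  · rw [MvPowerSeries.isUnit_iff_constantCoeff, RingHom.map_det]
    have : (constantCoeff : PS O (V0 τ L n S.T r) →+* O).mapMatrix (1 + Matrix.of fun a b =>
        X (Sum.inr (Sum.inr (Sum.inr (⟨l, h⟩, a, b))))) = 1 := by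
      rw [map_add, map_one]
      ext a b
      simp
    rw [this, Matrix.det_one]
    exact isUnit_one
  · rw [Matrix.det_one]
    exact isUnit_one

variable (K : Kx O β τ ι' L.C) (G : Gs S L K.g n)

theorem zs_unit (i : Fin (n + r)) : IsUnit (ZS K G r i) := by
  rw [Matrix.isUnit_iff_isUnit_det, MvPowerSeries.isUnit_iff_constantCoeff, RingHom.map_det]
  have : (constantCoeff : PS O (V0 τ L n S.T r) →+* O).mapMatrix (ZS K G r i) = G.rcr r i := by
    ext a b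
    simp [ZS]
  rw [this, ← Matrix.isUnit_iff_isUnit_det, Gs.rcr]
  induction i using Fin.addCases with
  | left i =>
    rw [Fin.append_left]
    exact (Group.isUnit _).map L.r
  | right i =>
    rw [Fin.append_right]
    exact isUnit_one

/-- the equations `tauP` give `τ = 1` up to the determinant of a commutator -/
theorem blk_one (uv : ∀ γ, K.u γ * K.v γ = 1) (l : L.C) (I : Ideal (S0 O τ L n S.T r))
    (hI : t0 K G r ≤ I) {i k : Fin (n + r)} (hik : i ≠ k)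
    (hτ : ∀ u ∈ tauP (G.rcr r) id (Fin.castAdd r (G.iτ l)), ψ0 S L τ n r u ∈ I) (a b : Fin 2) :
    ψ0 S L τ n r (dlS (G.rcr r) id i k) * ((DD K n S.T r).T l - 1) a b ∈ I := by
  set μ := Ideal.Quotient.mk I with hμ
  have hu : ∀ i, IsUnit ((ZS K G r i).map μ) := fun i => (zs_unit K G i).map μ.mapMatrix
  have ht : ∀ s, μ (ψ0 S L τ n r (tS (G.rcr r) id s)) =
      (wm (fun i => (ZS K G r i).map μ) s).trace := fun s => by
    rw [p0t, ← wm_map, ← Rl86.tr_map]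
    exact Ideal.Quotient.eq.2 (hI (Ideal.subset_span (Or.inl (Or.inl (Or.inl ⟨s, rfl⟩)))))
  have hd : ∀ i, μ (ψ0 S L τ n r (dS (G.rcr r) id i)) = ((ZS K G r i).map μ).det := fun i => by
    rw [p0d]
    exact Eq.trans (Ideal.Quotient.eq.2 (hI (Ideal.subset_span
      (Or.inl (Or.inl (Or.inr ⟨i, rfl⟩)))))) (μ.map_det _)
  have h1 := del_one (Kd.fr _ hu) (FreeGroup.of i) (FreeGroup.of k)
    (tau_tr _ hu (Fin.castAdd r (G.iτ l)) (by
      have := Ideal.Quotient.eq_zero_iff_mem.2 (hτ _ (Or.inl rfl))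
      rwa [map_sub, map_sub, map_one, map_one, sub_eq_zero, hd] at this) fun s => by
      have := Ideal.Quotient.eq_zero_iff_mem.2 (hτ _ (Or.inr ⟨s, rfl⟩))
      rwa [map_sub, map_sub, sub_eq_zero, ht, ht] at this)
  rw [Kd.fr_of, Kd.fr_of, Kd.fr_of] at h1
  have h2 : μ (ψ0 S L τ n r (dlS (G.rcr r) id i k)) =
      _root_.P022G.Th.del ((ZS K G r i).map μ) ((ZS K G r k).map μ) := by
    rw [dlS, _root_.P022G.Th.map_dl, _root_.P022G.Th.map_dl, trS, trS, tr2, ht, ht, ht, hd, hd,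
      wm_one, wm_one, wm_two _ hik, _root_.P022G.Th.del_eq]
  obtain ⟨P, Q, e1, -, -, e2⟩ := Rl86.conj K (fun γ => (γ : ℕ)) uv μ l (αS τ L n S.T r l)
    (ZS K G r (Fin.castAdd r (G.iφ l))) (ZS K G r (Fin.castAdd r (G.iτ l))) (al_unit l)
    fun j => Ideal.Quotient.eq.2 (hI (Ideal.subset_span (Or.inl (Or.inr ⟨Sum.inr (l, j), rfl⟩))))
  have h3 := congrFun (congrFun (conj_one e1 h1) a) b
  rw [← e2, ← h2, ← Matrix.map_one μ (map_zero μ) (map_one μ)] at h3
  rw [← Ideal.Quotient.eq_zero_iff_mem, map_mul, Matrix.sub_apply, map_sub]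
  exact h3

end maps

theorem cl_up {B : Type} [CommRing B] {Z : PO S B} (hZ : Z.Cl L ∅) (Q : Finset ℕ) : Z.Cl L Q :=
  ⟨hZ.d2, hZ.dc, hZ.dl, fun l a b _ => hZ.unr l a b (Finset.notMem_empty l)⟩

theorem triv {B : Type} [CommRing B] {Z : PO S B} (hZ : Z.Cl L ∅) {q : ℕ} (hq : q ∉ S.T)
    {P : Ideal _} (hP : Ov q P) {s : GQ} (hs : Inert P s) : s ∈ Kd.N Z.t Z.d :=
  hZ.unr q hP.1 hq (Finset.notMem_empty q) P hP.2.1 hP.2.2 s hs

section
variable {κ : Type} {gk : κ → GQ} {n : ℕ} {G : Gs S L gk n} {r : ℕ}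
  {jr : PP O n r →+* PS O (Sy n)}

theorem val_eq (h : Hm C (G.jv r) jr) {B : Type} [CommRing B] {Z : PO S B}
    {ψ : PS O (Sy n) →+* B} (hZ : Pz G Z ψ) {τ' : Fin r → GQ} (ht : ∀ i, τ' i ∈ Kd.N Z.t Z.d)
    (z : Sy (n + r)) :
    ψ (jr (X (Sum.inl z))) = Z.val (G.rcr r) (Fin.append G.γ τ') z := by
  haveI := Kd.N_normal Z.tf
  have hm : ∀ i, ((Fin.append G.γ fun _ : Fin r => 1) i)⁻¹ * Fin.append G.γ τ' i ∈
      Kd.N Z.t Z.d := fun i => by
    induction i using Fin.addCases with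
    | left i =>
      rw [Fin.append_left, Fin.append_left, inv_mul_cancel]
      exact one_mem _
    | right i =>
      rw [Fin.append_right, Fin.append_right, inv_one, one_mul]
      exact ht i
  rw [h.x]
  rcases z with s | i <;> refine (map_sub ψ _ _).trans (congrArg₂ (· - ·) ?_ (hZ.2.c _))
  · have := (Mod.wd_mod _ hm s).1 (wd (Fin.append G.γ fun _ => 1) s)
    rw [mul_inv_cancel_left, Mod.wd_append] at this
    refine Eq.trans ?_ this.symm
    beta_reduce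
    rw [tS, map_add, hZ.2.c, hZ.2.x]
    exact add_sub_cancel _ _
  · beta_reduce
    induction i using Fin.addCases with
    | left i =>
      rw [Fin.append_left, Fin.append_left, dS, map_add, hZ.2.c, hZ.2.x]
      exact add_sub_cancel _ _
    | right i => rw [Fin.append_right, Fin.append_right, (ht i).2, map_one, Units.val_one]

/-- a point of level zero is a point of every level -/
theorem pull (h : Hm C (G.jv r) jr) {q : Fin r → ℕ} {τ' : Fin r → GQ}
    (hq : ∀ i, q i ∉ S.T ∧ ∃ P, Ov (q i) P ∧ Gn (q i) P (τ' i)) {B : Type} [CommRing B]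
    {Z : PO S B} {ψ : PS O (Sy n) →+* B} (hZ : Pz G Z ψ) :
    Hm Z.ι (Z.val (G.rcr r) (Fin.append G.γ τ')) (ψ.comp (jr.comp (io O _ r))) := by
  refine ⟨fun o => ?_, fun s => ?_⟩
  · rw [RingHom.comp_apply, RingHom.comp_apply, ioC, h.c, hZ.2.c]
  rw [RingHom.comp_apply, RingHom.comp_apply, ioX]
  refine val_eq h hZ (fun i => ?_) s
  obtain ⟨h1, P, h2, h3⟩ := hq i
  exact triv hZ.1 h1 h2 h3.1

theorem a_le (h : Hm C (G.jv r) jr) : aF (G.rcr r) Sum.inl ≤ G.aP.comap jr := fun f hf =>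
  (mem_aP G).2 fun B _ Z ψ hZ => by
    set q := FreeGroup.lift (Fin.append G.γ fun _ : Fin r => 1) with hq
    refine hf B Z.ι (fun z => ψ (jr (X z))) (ψ.comp jr) ⟨Z.fin, fun w => Z.t (q w), Z.d.comp q,
      ⟨by rw [map_one, Z.tf.one], fun g k => by rw [map_mul, map_mul, Z.tf.comm], fun g k => by
        rw [map_mul, map_mul, map_inv]
        exact Z.tf.mul _ _⟩, fun z => ?_⟩
      ⟨fun o => by rw [RingHom.comp_apply, h.c, hZ.2.c], fun _ => rfl⟩
    refine (val_eq h hZ (τ' := fun _ => 1) (fun _ => one_mem _) z).trans ?_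
    simp only [hq, Ut.lift_wd, MonoidHom.comp_apply, FreeGroup.lift_apply_of]
    rfl

theorem jr_dl (h : Hm C (G.jv r) jr) (i k : Fin n) :
    jr (io O _ r (dlS (G.rcr r) id (Fin.castAdd r i) (Fin.castAdd r k))) = dlS G.rc id i k := by
  have e1 : ∀ s, jr (io O _ r (tS (G.rcr r) id s)) =
      tS G.rc id (Finset.univ.filter fun i => Fin.castAdd r i ∈ s) := fun s => by
    rw [tS, map_add, ioC, ioX, map_add, h.c, h.x]
    exact add_sub_cancel _ _
  have e2 : ∀ i, jr (io O _ r (dS (G.rcr r) id (Fin.castAdd r i))) = dS G.rc id i := fun i => by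
    rw [dS, map_add, ioC, ioX, map_add, h.c, h.x]
    exact (add_sub_cancel _ _).trans (Fin.append_left _ _ i)
  have e3 : ∀ i : Fin n, (Finset.univ.filter fun j => Fin.castAdd r j ∈
      ({Fin.castAdd r i} : Finset _)) = {i} := fun i => by
    ext j
    simp [Fin.castAdd_inj]
  have e4 : (Finset.univ.filter fun j => Fin.castAdd r j ∈
      ({Fin.castAdd r i, Fin.castAdd r k} : Finset _)) = {i, k} := by
    ext j
    simp [Fin.castAdd_inj]
  rw [dlS, _root_.P022G.Th.map_dl, _root_.P022G.Th.map_dl, trS, trS, tr2, e1, e1, e1, e2, e2, e3,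
    e3, e4]
  rfl

end

end G0

open G0

theorem rgal0C (hD : KDEL) (hR : RCOV) : RGAL0 := by
  intro O F _ _ _ _ _ _ _ ϖ S L X as β τ ι' _ _ _ K n G hϖ hC hK hDet r s V _ _ _ _ _ _ Y ht hG hY
  subst hG
  letI : Algebra (S0 O τ L n S.T r) (S1 O τ L n S.T r) := (io O _ r).toAlgebra
  obtain ⟨-, -, -, h0, hs, -⟩ :=
    hR O F ϖ S L X as β τ ι' K n Y.G' hϖ hC hK hDet r s V Y ht rfl hY
  have hd := hD O F ϖ S L X as β τ ι' K n Y.G' hϖ hC hK hDet r
  obtain ⟨i, k, hik, hx0⟩ := hY.irr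
  have hik' : Fin.castAdd r i ≠ Fin.castAdd r k := fun e => hik (Fin.castAdd_inj.1 e)
  haveI := Coef.cpl (O := O)
  have hp : (RingHom.ker Y.θ).IsPrime := RingHom.ker_isPrime Y.θ
  set W : Ideal (S1 O τ L n S.T r) := (Y.G'.aP.comap Y.jr).map (ψ1 S L τ n r) ⊔
    (t0 K Y.G' r).map (io O _ r) with hW
  set δ : S0 O τ L n S.T r :=
    ψ0 S L τ n r (dlS (Y.G'.rcr r) id (Fin.castAdd r i) (Fin.castAdd r k)) with hδ
  have hx : io O _ r δ ∉ RingHom.ker Y.θ := fun e => hx0 (by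
    rw [← jr_dl hY.jr, ← Ideal.mem_comap, ← h0]
    rw [hδ, ← p1io] at e
    exact e)
  have key : ∀ m, ∀ f ∈ Kn K Y.G' r (Y.q m) (Y.τ' m), io O _ r (δ * f) ∈ W := by
    intro m f hf
    refine P022D.PA.mem_of_sup _ _ fun N => ?_
    have h0 : (Y.G'.aP ⊔ maximalIdeal _ ^ N).comap Y.jr ≤
        (W ⊔ maximalIdeal _ ^ N).comap (ψ1 S L τ n r) := by
      refine (cm_sup hs _ N).trans (Ideal.map_le_iff_le_comap.1 ?_)
      rw [Ideal.map_sup]
      exact sup_le_sup le_sup_left (_root_.P022G.Lk.map_pow_le _ p1_max N)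
    rcases G0.one Y.G' N with h | ⟨B, _, Z, ψ, hZ, h⟩
    · rw [h, Ideal.comap_top, top_le_iff, Ideal.comap_eq_top_iff] at h0
      rw [h0]
      trivial
    · have h1 := hd (Y.q m) (Y.τ' m) (hY.gn m) B Z _ (cl_up hZ.1 _) (pull hY.jr (hY.gn m) hZ)
        _ _ hik' f hf
      refine (sup_le (Ideal.map_le_iff_le_comap.2 fun u hu => ?_) ?_ :
        _ ≤ (W ⊔ maximalIdeal _ ^ N).comap (io O _ r)) h1
      · rw [Ideal.mem_comap, Ideal.mem_comap, ← p1io]
        exact h0 (h hu)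
      · exact Ideal.map_le_iff_le_comap.1 (le_sup_right.trans le_sup_left)
  have hE : ∀ f ∈ Rel.IK (DD K n S.T r) Y.k, io O _ r (δ * f) ∈ W := by
    intro f hf
    refine (sup_le (fun u hu => ?_) (Ideal.span_le.2 ?_) :
      _ ≤ Pt.cl (W.comap (io O _ r)) δ) hf
    · refine key 0 u ?_
      rintro B _ j v ψ ⟨Xo, h1, rfl, rfl⟩ h2
      exact hK.eqs _ B Xo h1.1 ψ h2.c (fun z => h2.x (Sum.inl z)) hu
    · rintro _ ⟨a, rfl⟩
      exact cl_mem (Pt.cl (W.comap (io O _ r)) δ) _ (hY.cvk a) fun m => key m _ (hY.kn m a)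
  have hr : (Y.rd ϖ).𝔯 ≤ W := by
    refine Ideal.span_le.2 ?_
    rintro _ ⟨a, rfl⟩
    have h1 : y1 O _ a ∈ W := by
      rw [← p1y]
      refine Ideal.mem_sup_left (Ideal.mem_map_of_mem _ ?_)
      rw [Ideal.mem_comap, y1, hY.jr.x]
      exact zero_mem _
    have h2 : 1 - Y.ta a + Y.da a ∈ Y.G'.aP.comap (Y.jr.comp (io O _ r)) := by
      refine cl_mem _ (Y.U : Filter ℕ) (z := fun m => 1 - Y.tn m a + Y.dn m a)
        (fun j => ((hY.cvt a j).and (hY.cvd a j)).mono fun m hn => ?_) fun m => ?_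
      · rw [show 1 - Y.tn m a + Y.dn m a - (1 - Y.ta a + Y.da a) =
          (Y.dn m a - Y.da a) - (Y.tn m a - Y.ta a) by ring]
        exact sub_mem hn.2 hn.1
      · refine (mem_aP _).2 fun B _ Z ψ hZ => ?_
        obtain ⟨e1, e2⟩ := hY.tn m a B Z _ (cl_up hZ.1 _) (pull hY.jr (hY.gn m) hZ)
        obtain ⟨P, h3, h4⟩ := hY.ine m a
        obtain ⟨a1, a2⟩ := triv hZ.1 (hY.gn m a).1 h3 h4
        have a3 := a1 1
        rw [one_mul, Z.tf.one] at a3
        change (ψ.comp (Y.jr.comp (io O _ r))) _ = 0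
        rw [map_add, map_sub, map_one, e1, e2, a3, a2, Units.val_one]
        ring
    have h3 : io O _ r (1 - ψ0 S L τ n r (Y.ta a) + ψ0 S L τ n r (Y.da a)) ∈ W := by
      rw [← map_one (ψ0 S L τ n r), ← map_sub, ← map_add, ← p1io]
      exact Ideal.mem_sup_left (Ideal.mem_map_of_mem _ h2)
    exact add_mem (sub_mem (W.pow_mem_of_mem h1 2 two_pos) (W.mul_mem_left _ h1)) h3
  have lc : ∀ (E' : Ideal (S0 O τ L n S.T r)) (W' : Ideal (S1 O τ L n S.T r)), W ≤ W' →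
      (∀ f ∈ E', io O _ r (δ * f) ∈ W') →
      Pt.Lc (RingHom.ker Y.θ) (E'.map (io O _ r) ⊔ (Y.rd ϖ).𝔯) W' := fun E' W' h1 h2 =>
    Pt.Lc.sup hp (Pt.Lc.of_span hp (io O _ r '' E') le_rfl (by
      rintro _ ⟨f, hf, rfl⟩
      exact ⟨_, hx, by rw [← map_mul]; exact h2 f hf⟩)) (Pt.Lc.of_le hp (hr.trans h1))
  refine ⟨⟨a_le hY.jr, lc _ _ le_rfl hE⟩, fun 𝔟 hb hτ => ⟨(a_le hY.jr).trans hb, ?_⟩⟩
  have h1 : W ≤ 𝔟.map (ψ1 S L τ n r) ⊔ (t0 K Y.G' r).map (io O _ r) :=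
    sup_le_sup_right (Ideal.map_mono hb) _
  refine lc _ _ h1 fun f hf => (sup_le (fun u hu => h1 (hE u hu)) (Ideal.span_le.2 ?_) :
    _ ≤ Pt.cl ((𝔟.map (ψ1 S L τ n r) ⊔ (t0 K Y.G' r).map (io O _ r)).comap (io O _ r)) δ) hf
  rintro _ ⟨l, hl, a, b, rfl⟩
  refine blk_one K Y.G' hK.uv l
    ((𝔟.map (ψ1 S L τ n r) ⊔ (t0 K Y.G' r).map (io O _ r)).comap (io O _ r))
    (Ideal.map_le_iff_le_comap.1 le_sup_right) hik' (fun u hu => ?_) a b
  rw [Ideal.mem_comap, ← p1io]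
  exact Ideal.mem_sup_left (Ideal.mem_map_of_mem _ (hτ l hl (io_tau _ _ hu)))

end Vale.Agent.P022S
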