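import Vale.Agent.P022S.Rw.Wm86
import Vale.Agent.P022S.Rw.RlocB86
import Vale.Agent.P022S.Mod.Wd

/-!
# P022S: row RLOC
-/

set_option linter.all false

noncomputable section

namespace Vale.Agent.P022S.Rl86

open NumberField IsLocalRing MvPowerSeries Filter
open Vale.Agent.P022 Vale.Agent.P022S.R Vale.Agent.P022S.Loc Vale.Agent.P022S.Wm
open Vale.Agent.P027M.S (Inert mx)
open Vale.Agent.P022D.Sel (M2)
open Vale.Agent.P022D.Core (PS io y1)
open Vale.Agent.P022E.Loc (Pl)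
open Vale.Agent.P022G (Hm)
open Vale.Agent.P022G.Word (wd)

variable {O F : Type} [CommRing O] [Field F] {S : Dat O F}

/-- a map to a finite local ring kills a power of the maximal ideal -/
theorem kill {P B : Type} [CommRing P] [IsLocalRing P] [CommRing B] [Finite B] (π : B →+* F)
    (hl : ∀ u, π u ≠ 0 → IsUnit u) (ψ : P →+* B) (hs : Function.Surjective (π.comp ψ)) :
    ∃ k : ℕ, ∀ f ∈ maximalIdeal P ^ k, ψ f = 0 := by
  obtain ⟨k, hk⟩ := IsArtinianRing.isNilpotent_jacobson_bot (R := B)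
  have h1 : RingHom.ker (π.comp ψ) = maximalIdeal P :=
    eq_maximalIdeal (RingHom.ker_isMaximal_of_surjective _ hs)
  have h2 : (maximalIdeal P).map ψ ≤ Ideal.jacobson ⊥ := by
    rw [Ideal.map_le_iff_le_comap, ← h1]
    intro x hx
    rw [Ideal.mem_comap, Ideal.mem_jacobson_bot]
    intro y
    refine hl _ ?_
    have : π (ψ x) = 0 := hx
    rw [map_add, map_mul, this, zero_mul, zero_add, map_one]
    exact one_ne_zero
  refine ⟨k, fun f hf => ?_⟩
  have h3 : ψ f ∈ ((maximalIdeal P).map ψ) ^ k := by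
    rw [← Ideal.map_pow]; exact Ideal.mem_map_of_mem _ hf
  have h4 := Ideal.pow_right_mono h2 k h3
  rw [hk] at h4
  simpa using h4

theorem ioC (σ : Type) (r : ℕ) (o : O) : io O σ r (C o) = C o := rename_C _ o

theorem ioX (σ : Type) (r : ℕ) (s : σ) : io O σ r (X s) = X (Sum.inl s) := rename_X _ s

variable {L : Pl O} {β : Type} {τ ι' : β → Type} {K : Kx O β τ ι' L.C} {n r s : ℕ}
  {V : Type} [CommRing V]

theorem psiC (o : O) : ψ1 S L τ n r (C o) = C o := rename_C _ o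

theorem psiL (z : Sy (n + r)) : ψ1 S L τ n r (X (Sum.inl z)) = X (Sum.inl (e0 r z)) :=
  rename_X _ _

theorem psiR (i : Fin r) : ψ1 S L τ n r (X (Sum.inr i)) = y1 O _ i := rename_X _ _

theorem psi_t (rc : Fin (n + r) → M2 O) (z : Finset (Fin (n + r))) :
    ψ1 S L τ n r (tS rc Sum.inl z) = io O _ r (tS rc (e0 r) z) := by
  rw [tS, tS, map_add, map_add, psiC, psiL, ioC, ioX]

theorem psi_d (rc : Fin (n + r) → M2 O) (i : Fin (n + r)) :
    ψ1 S L τ n r (dS rc Sum.inl i) = io O _ r (dS rc (e0 r) i) := by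
  rw [dS, dS, map_add, map_add, psiC, psiL, ioC, ioX]

theorem psi_in (f : PS O (Sy (n + r))) :
    ψ1 S L τ n r (io O _ r f) = io O _ r (ψ0 S L τ n r f) := by
  change rename _ (rename _ f) = rename _ (rename _ f)
  rw [rename_rename, rename_rename]
  rfl

theorem al_unit (l : ℕ) : IsUnit (αS τ L n S.T r l).det := by
  unfold αS
  split_ifs with h
  · rw [MvPowerSeries.isUnit_iff_constantCoeff, Matrix.det_fin_two]
    simp
  · simp

/-- modulo the tautological relations the symbols are the traces of the universal matrices -/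
theorem sym (G : Gs S L K.g n) {B : Type} [CommRing B] (φ : S1 O τ L n S.T r →+* B)
    (hm : t0 K G r ≤ RingHom.ker (φ.comp (io O _ r))) :
    (∀ z, (φ.comp (ψ1 S L τ n r)) (tS (G.rcr r) Sum.inl z) =
      (wm (fun i => (ZS K G r i).map (φ.comp (io O _ r))) z).trace) ∧
    ∀ i, (φ.comp (ψ1 S L τ n r)) (dS (G.rcr r) Sum.inl i) =
      ((ZS K G r i).map (φ.comp (io O _ r))).det := by
  constructor
  · intro z
    have : (φ.comp (io O _ r)) (tS (G.rcr r) (e0 r) z - (wm (ZS K G r) z).trace) = 0 :=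
      hm (Ideal.subset_span (Or.inl (Or.inl (Or.inl ⟨z, rfl⟩))))
    rw [map_sub, sub_eq_zero, tr_map, wm_map] at this
    rw [RingHom.comp_apply, psi_t]
    exact this
  · intro i
    have : (φ.comp (io O _ r)) (dS (G.rcr r) (e0 r) i - (ZS K G r i).det) = 0 :=
      hm (Ideal.subset_span (Or.inl (Or.inl (Or.inr ⟨i, rfl⟩))))
    rw [map_sub, sub_eq_zero, RingHom.map_det] at this
    rw [RingHom.comp_apply, psi_d]
    exact this

variable [IsLocalRing O] [Fintype β] [∀ b, Fintype (τ b)] {Y : Pc (S := S) (n := n) K r s V}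

theorem th_dl (h : Y.Ok) {i k : Fin n} (hik : i ≠ k) :
    Y.θ (ψ1 S L τ n r (dlS (Y.G'.rcr r) Sum.inl (Fin.castAdd r i) (Fin.castAdd r k))) =
      Y.θA (dlS Y.G'.rc id i k) := by
  have a := dlS_eq (ψ := Y.θ.comp (ψ1 S L τ n r)) (rc := Y.G'.rcr r) (e := Sum.inl)
    (Z := fun i => (Y.ρ (Fin.append Y.G'.γ (fun _ : Fin r => 1) i) : M2 V))
    (fun z => by
      rw [RingHom.comp_apply, psi_t]
      exact gv_t (ψ := Y.θ.comp (io O _ r)) h.cf.c (fun z => h.cf.x (e0 r z)) z)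
    (fun i => by
      rw [RingHom.comp_apply, psi_d]
      exact gv_d (ψ := Y.θ.comp (io O _ r)) h.cf.c (fun z => h.cf.x (e0 r z)) i)
    (i := Fin.castAdd r i) (k := Fin.castAdd r k) (fun c => hik (Fin.castAdd_injective _ _ c))
  rw [Fin.append_left, Fin.append_left] at a
  exact a.trans (dlS_eq (gv_t (e := id) h.crv.hm.c h.crv.hm.x)
    (gv_d (e := id) h.crv.hm.c h.crv.hm.x) hik).symm

/-- a discriminant outside the curve -/
theorem ex_dl (h : Y.Ok) : ∃ i k : Fin (n + r), i ≠ k ∧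
    ψ1 S L τ n r (dlS (Y.G'.rcr r) Sum.inl i k) ∉ RingHom.ker Y.θ := by
  obtain ⟨i, k, a, e⟩ := h.irr
  exact ⟨_, _, fun c => a (Fin.castAdd_injective _ _ c),
    fun e' => e (by rwa [RingHom.mem_ker, ← th_dl h a])⟩

theorem lim (h : Y.Ok) (i : Fin r) :
    Y.jr (io O _ r (Y.ta i) - 2) ∈ Y.G'.aP ∧ Y.jr (io O _ r (Y.da i) - 1) ∈ Y.G'.aP := by
  have key : ∀ (B : Type) [CommRing B] (Z : PO S B) (ψ : PS O (Sy n) →+* B), Z.Cl L ∅ →
      Hm Z.ι (Z.val Y.G'.rc Y.G'.γ) ψ →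
      ψ (Y.jr (io O _ r (Y.ta i))) = 2 ∧ ψ (Y.jr (io O _ r (Y.da i))) = 1 := by
    intro B _ Z ψ hZ hψ
    haveI := Z.fin
    set ψ' : PS O (Sy (n + r)) →+* B := ψ.comp (Y.jr.comp (io O _ r)) with hψ'
    have hc : ∀ o, ψ' (C o) = Z.ι o := fun o => by
      change ψ (Y.jr (io O _ r (C o))) = _
      rw [ioC, h.jr.c, hψ.c]
    have ht := gv_t (e := id) hψ.c hψ.x
    have hd := gv_d (e := id) hψ.c hψ.x
    have hin : ∀ m i (g : GQ), (∃ P, P022E.GW.Ov (Y.q m i) P ∧ Inert P g) →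
        g ∈ Kd.N Z.t Z.d := by
      rintro m i g ⟨P, ⟨a1, a2, a3⟩, a4⟩
      exact hZ.unr _ a1 (h.gn m i).1 (Finset.notMem_empty _) P a2 a3 g a4
    have hτ : ∀ m i, Y.τ' m i ∈ Kd.N Z.t Z.d := fun m i => by
      obtain ⟨P, a1, a2⟩ := (h.gn m i).2
      exact hin m i _ ⟨P, a1, a2.1⟩
    haveI := Kd.N_normal Z.tf
    have hm : ∀ m, Hm Z.ι (Z.val (Y.G'.rcr r) (Fin.append Y.G'.γ (Y.τ' m))) ψ' := by
      intro m
      refine ⟨hc, fun z => ?_⟩
      change ψ (Y.jr (io O _ r (X z))) = _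
      rw [ioX, h.jr.x]
      rcases z with z | i
      · have e := (Mod.wd_mod (Kd.N Z.t Z.d) (γ := Fin.append Y.G'.γ fun _ : Fin r => 1)
          (γ' := Fin.append Y.G'.γ (Y.τ' m)) (fun i => by
            induction i using Fin.addCases with
            | left i => rw [Fin.append_left, Fin.append_left, inv_mul_cancel]; exact one_mem _
            | right i => rw [Fin.append_right, Fin.append_right, inv_one, one_mul]; exact hτ m i)
          z).1 (wd (Fin.append Y.G'.γ fun _ : Fin r => 1) z)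
        rw [mul_inv_cancel_left, Mod.wd_append] at e
        change ψ (_ - C _) = _ - _
        rw [map_sub, hψ.c, ht, ← e]
      · change ψ (Fin.append (dS Y.G'.rc id) (fun _ : Fin r => 1) i - C _) =
          (Z.d (Fin.append Y.G'.γ (Y.τ' m) i) : B) - _
        rw [map_sub, hψ.c]
        induction i using Fin.addCases with
        | left i => rw [Fin.append_left, Fin.append_left, hd]
        | right i => rw [Fin.append_right, Fin.append_right, (hτ m i).2, map_one, Units.val_one]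
    have hv : ∀ m, ψ' (Y.tn m i) = 2 ∧ ψ' (Y.dn m i) = 1 := by
      intro m
      have a := h.tn m i B Z ψ' ⟨hZ.d2, hZ.dc, hZ.dl, fun l a1 a2 _ =>
        hZ.unr l a1 a2 (Finset.notMem_empty _)⟩ (hm m)
      have b := hin m i _ (h.ine m i)
      have b1 := b.1 1
      rw [one_mul, Z.tf.one] at b1
      exact ⟨a.1.trans b1, a.2.trans (by rw [b.2, Units.val_one])⟩
    obtain ⟨k, hk⟩ := kill Z.π Z.loc ψ' (fun y => by
      obtain ⟨o, rfl⟩ := S.surj y
      exact ⟨C o, by rw [RingHom.comp_apply, hc, Z.alg]⟩)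
    obtain ⟨n', hn⟩ := (h.cvt i k).exists
    obtain ⟨m, hm'⟩ := (h.cvd i k).exists
    have e1 := hk _ hn
    have e2 := hk _ hm'
    rw [map_sub, (hv n').1, sub_eq_zero] at e1
    rw [map_sub, (hv m).2, sub_eq_zero] at e2
    exact ⟨e1.symm, e2.symm⟩
  constructor
  · rintro B _ j v ψ ⟨Z, hZ, rfl, rfl⟩ hψ
    rw [map_sub, map_sub, (key B Z ψ hZ hψ).1, map_ofNat, map_ofNat, sub_self]
  · rintro B _ j v ψ ⟨Z, hZ, rfl, rfl⟩ hψ
    rw [map_sub, map_sub, (key B Z ψ hZ hψ).2, map_one, map_one, sub_self]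

/-- first part of the row -/
theorem one (h : Y.Ok) (𝔮 : Ideal (S1 O τ L n S.T r))
    (he : (Y.G'.aP.comap Y.jr).map (ψ1 S L τ n r) ≤ 𝔮) (i : Fin r) :
    y1 O _ i ∈ 𝔮 ∧ io O _ r (ψ0 S L τ n r (Y.ta i) - 2) ∈ 𝔮 ∧
      io O _ r (1 - ψ0 S L τ n r (Y.ta i) + ψ0 S L τ n r (Y.da i)) ∈ 𝔮 := by
  have k : ∀ f, Y.jr f ∈ Y.G'.aP → ψ1 S L τ n r f ∈ 𝔮 := fun f hf =>
    he (Ideal.mem_map_of_mem _ hf)
  have a1 := k _ (lim h i).1
  have a2 := k _ (lim h i).2
  rw [map_sub, psi_in, map_ofNat] at a1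
  rw [map_sub, psi_in, map_one] at a2
  refine ⟨?_, ?_, ?_⟩
  · have := k (X (Sum.inr i)) (by rw [h.jr.x]; exact Ideal.zero_mem _)
    rwa [psiR] at this
  · rwa [map_sub, map_ofNat]
  · have := sub_mem a2 a1
    rw [map_add, map_sub, map_one]
    exact (congrArg (· ∈ 𝔮) (by ring)).mp this

end Vale.Agent.P022S.Rl86

namespace Vale.Agent.P022S

open NumberField IsLocalRing MvPowerSeries Filter
open Vale.Agent.P022 Vale.Agent.P022S.R Vale.Agent.P022S.Loc Vale.Agent.P022S.Wm Rl86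
open Vale.Agent.P022D.Core (PS io y1)

/-- **row RLOC** -/
theorem rlocC : RLOC := by
  intro O F _ _ _ _ _ _ _ ϖ S L X as β τ ι' _ _ _ K n G hϖ hC hK hD r s V _ _ _ _ _ _ Y ht hG hY
  letI : Algebra (S0 O τ L n S.T r) (S1 O τ L n S.T r) := (io O _ r).toAlgebra
  intro 𝔮 hq
  haveI := hq.pr
  let φ := Ideal.Quotient.mk 𝔮
  have z : ∀ u, u ∈ 𝔮 ↔ φ u = 0 := fun u => Ideal.Quotient.eq_zero_iff_mem.symm
  let m : S0 O τ L n S.T r →+* _ := φ.comp (io O _ r)
  let ν : PP O n r →+* _ := φ.comp (ψ1 S L τ n r)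
  have hm : t0 K Y.G' r ≤ RingHom.ker m := fun u hu =>
    (z _).1 (hq.t (Ideal.mem_map_of_mem _ hu))
  obtain ⟨h1, h2⟩ := sym Y.G' φ hm
  obtain ⟨a, b, hab, e⟩ := ex_dl hY
  have hi : ν (dlS (Y.G'.rcr r) Sum.inl a b) ≠ 0 := fun c => e (hq.le ((z _).2 c))
  have key : ∀ l : L.C,
      ((∀ u ∈ tauP (Y.G'.rcr r) Sum.inl (Fin.castAdd r (Y.G'.iτ l)), ν u = 0) ↔
        ∀ a b, m (((DD K n S.T r).T l - 1) a b) = 0) ∧
      ν (trS (Y.G'.rcr r) Sum.inl (Fin.castAdd r (Y.G'.iτ l))) = m ((DD K n S.T r).T l).trace ∧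
      ν (trS (Y.G'.rcr r) Sum.inl (Fin.castAdd r (Y.G'.iφ l))) = m ((DD K n S.T r).Φ l).trace ∧
      ν (tr2 (Y.G'.rcr r) Sum.inl (Fin.castAdd r (Y.G'.iτ l)) (Fin.castAdd r (Y.G'.iφ l))) =
        m ((DD K n S.T r).T l * (DD K n S.T r).Φ l).trace := by
    intro l
    have hk : ∀ i, m (MvPowerSeries.X (Sum.inl i)) = m (κS K Y.G' r i) := fun i => by
      have : m (MvPowerSeries.X (Sum.inl i) - κS K Y.G' r i) = 0 :=
        hm (Ideal.subset_span (Or.inl (Or.inr ⟨i, rfl⟩)))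
      rwa [map_sub, sub_eq_zero] at this
    obtain ⟨k1, k2, k3, k4⟩ := Rl86.key m (Rl86.conj K (fun γ => (γ : ℕ)) hK.uv m l
      (αS τ L n S.T r l) (ZS K Y.G' r (Fin.castAdd r (Y.G'.iφ l)))
      (ZS K Y.G' r (Fin.castAdd r (Y.G'.iτ l))) (al_unit l) fun j => hk (Sum.inr (l, j)))
    have ne : Fin.castAdd r (Y.G'.iτ l) ≠ Fin.castAdd r (Y.G'.iφ l) := fun c => by
      have := @Y.G'.inj (Sum.inr (Sum.inl l)) (Sum.inr (Sum.inr l)) (Fin.castAdd_injective _ _ c)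
      simp at this
    exact ⟨(tauP_iff h1 h2 hab hi _).trans k1.symm, (trS_eq h1 _).trans k2.symm,
      (trS_eq h1 _).trans k3.symm, (tr2_eq h1 ne).trans k4.symm⟩
  refine ⟨fun he i => one hY 𝔮 he i, fun l h u hu => ?_, fun l h => ?_, fun J => ?_⟩
  · obtain ⟨p, rfl⟩ := hu
    exact (z _).2 ((key l).1.1 (fun u hu => (z _).1 (h u hu)) p.1 p.2)
  · exact (z _).2 ((key l).2.2.1.symm.trans ((z _).1 h))
  · constructor
    · intro h
      have h' : ∀ u, ((∃ l ∈ J, u = trS (Y.G'.rcr r) Sum.inl (Fin.castAdd r (Y.G'.iτ l)) ∨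
          u = trS (Y.G'.rcr r) Sum.inl (Fin.castAdd r (Y.G'.iφ l)) ∨
          u = tr2 (Y.G'.rcr r) Sum.inl (Fin.castAdd r (Y.G'.iτ l)) (Fin.castAdd r (Y.G'.iφ l))) ∨
          ∃ l, l ∉ J ∧ u ∈ tauP (Y.G'.rcr r) Sum.inl (Fin.castAdd r (Y.G'.iτ l))) → ν u = 0 :=
        fun u hu => (z _).1 (h (Ideal.subset_span hu))
      refine Ideal.span_le.2 ?_
      rintro u (⟨l, hl, rfl | rfl | rfl⟩ | ⟨l, hl, a, b, rfl⟩)
      · exact (z _).2 ((key l).2.1.symm.trans (h' _ (Or.inl ⟨l, hl, Or.inl rfl⟩)))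
      · exact (z _).2 ((key l).2.2.1.symm.trans (h' _ (Or.inl ⟨l, hl, Or.inr (Or.inl rfl)⟩)))
      · exact (z _).2 ((key l).2.2.2.symm.trans (h' _ (Or.inl ⟨l, hl, Or.inr (Or.inr rfl)⟩)))
      · exact (z _).2 ((key l).1.1 (fun u hu => h' u (Or.inr ⟨l, hl, hu⟩)) a b)
    · intro h
      have h' : ∀ u, ((∃ l ∈ J, u = ((DD K n S.T r).T l).trace ∨
          u = ((DD K n S.T r).Φ l).trace ∨
          u = ((DD K n S.T r).T l * (DD K n S.T r).Φ l).trace) ∨
          ∃ l, l ∉ J ∧ ∃ a b, u = ((DD K n S.T r).T l - 1) a b) → m u = 0 :=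
        fun u hu => (z _).1 (h (Ideal.subset_span hu))
      refine Ideal.span_le.2 ?_
      rintro u (⟨l, hl, rfl | rfl | rfl⟩ | ⟨l, hl, hu⟩)
      · exact (z _).2 ((key l).2.1.trans (h' _ (Or.inl ⟨l, hl, Or.inl rfl⟩)))
      · exact (z _).2 ((key l).2.2.1.trans (h' _ (Or.inl ⟨l, hl, Or.inr (Or.inl rfl)⟩)))
      · exact (z _).2 ((key l).2.2.2.trans (h' _ (Or.inl ⟨l, hl, Or.inr (Or.inr rfl)⟩)))
      · exact (z _).2 ((key l).1.2 (fun a b => h' _ (Or.inr ⟨l, hl, a, b, rfl⟩)) u hu)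

end Vale.Agent.P022S
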