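import Vale.Agent.P022S.Rows

/-! All hypotheses on the rings at a curve. -/

set_option linter.all false

noncomputable section

namespace Vale.Agent.P022S

open MvPowerSeries
open Vale.Agent.P022D.Core (PS io y1)

theorem rokC (h1 : RCOV) (h2 : RFL) (h3 : RUP) (h4 : RGAL0) (h5 : RLOC) (h6 : RCA) : ROK := by
  intro O F _ _ _ _ _ _ _ ϖ S L X as β τ ι' _ _ _ K n G hϖ hC hK hD r s V _ _ _ _ _ _ Y a1 a2 a3
  obtain ⟨b1, b2, b3, -⟩ := h1 O F ϖ S L X as β τ ι' K n G hϖ hC hK hD r s V Y a1 a2 a3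
  obtain ⟨c1, c2⟩ := h2 O F ϖ S L X as β τ ι' K n G hϖ hC hK hD r s V Y a1 a2 a3
  have d1 := h3 O F ϖ S L X as β τ ι' K n G hϖ hC hK hD r s V Y a1 a2 a3
  obtain ⟨e1, -⟩ := h4 O F ϖ S L X as β τ ι' K n G hϖ hC hK hD r s V Y a1 a2 a3
  have f1 := h5 O F ϖ S L X as β τ ι' K n G hϖ hC hK hD r s V Y a1 a2 a3
  obtain ⟨g1, -⟩ := h6 O F ϖ S L X as β τ ι' K n G hϖ hC hK hD r s V Y a1 a2 a3
  letI : Algebra (S0 O τ L n S.T r) (S1 O τ L n S.T r) := (io O _ r).toAlgebra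
  refine ⟨RingHom.ker_isPrime _, b1, b2, b3, ?_, c1, c2, fun η x y z _ => d1 η x y z, e1,
    fun 𝔮 h => (f1 𝔮 h).1, fun 𝔮 h => (f1 𝔮 h).2.1, fun 𝔮 h => (f1 𝔮 h).2.2.1,
    fun 𝔮 h _ => (f1 𝔮 h).2.2.2, fun η h => (g1 η h).1, fun η h => (g1 η h).2.1,
    fun η h => (g1 η h).2.2⟩
  show ψ1 S L τ n r (C ϖ) = io O _ r (C ϖ)
  simp [ψ1, io]

end Vale.Agent.P022S
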