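import Vale.Agent.P022S.Rows
import Vale.Agent.P022S.Tw.Univ

/-!
# P022S, row TANV
-/

set_option linter.all false

noncomputable section

namespace Vale.Agent.P022S.H67

open NumberField IsLocalRing MvPowerSeries
open Vale.Agent.P022 Vale.Agent.P022S.R Vale.Agent.P022S.Loc
open Vale.Agent.P027M.S (Inert mx)
open Vale.Agent.P022D.Sel (M2)
open Vale.Agent.P022D.Core (PS Coef)
open Vale.Agent.P022E.Loc (Pl)
open Vale.Agent.P022E.GW (Ov Gn Op)
open _root_.P022G.Sel (tI rd mr TanR TanS Lv Co)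
open Vale.Agent.P022D.R (map_one')
open Vale.Agent.P022G (Hm KI)
open Vale.Agent.P022G.H16 (mr_inv f1 f2 f2_one f12 tan_of psi psi_fst psi_snd Bd Bd_unit)

theorem cd {O F : Type} [CommRing O] [IsLocalRing O] [Field F] {S : Dat O F} {L : Pl O}
    {X : Finset ℕ} {as : ℕ} (hC : Cx S L X as) {κ : Type} {gk : κ → GQ} {n : ℕ}
    {G : Gs S L gk n} {V : Type} [CommRing V] {t : V} {j : O →+* V} {ρ : GQ →* GL (Fin 2) V}
    {θ : PS O (Sy n) →+* V} (hc : G.Crv t j ρ θ) : Tw.Cd S L t j ρ :=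
  ⟨hc.res, hc.lv, hc.det, fun l hl => absurd (hC.W0 ▸ hl) (Finset.notMem_empty l)⟩

theorem tanvC (hR : REPO) : TANV := by
  classical
  intro O F _ _ _ _ _ _ _ ϖ S L X as β τ ι' _ _ _ K n G hϖ hC hK hE V _ _ _ _ _ _ t j ρ θ ht hc
    r q τ' hq θ0 h0 N hf
  have hL := hC.ok
  have hd := cd hC hc
  have hj : ∀ c, S.red c = 0 → j c = 0 := fun c h => P022G.Tw.j_zero j ((hL.ker c).1 h)
  rcases N with _ | N
  · haveI : Subsingleton (V ⧸ tI t 0) := Ideal.Quotient.subsingleton_iff.2 (by simp [tI])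
    refine Tw.cnt0 (hc.lv 0) S.hl0 (fun _ => 0) (fun _ => 0) (fun _ => ?_)
      (fun _ => rfl) (fun _ _ _ _ => Subsingleton.elim _ _) hf
    exact ⟨fun _ _ => Subsingleton.elim _ _, ⟨⊤, isOpen_univ, fun _ _ => rfl⟩,
      fun _ _ _ _ _ _ _ => rfl, fun _ _ _ _ => Subsingleton.elim _ _, fun _ _ => rfl⟩
  haveI := P022G.Tw.fin_tI ht (N + 1)
  obtain ⟨A, _, u, ι0, π, H⟩ := P022G.Tw.ex_sb t j N S.red hL.ker ht.not_isUnit (P022G.Tw.fin_tI ht _)
  obtain ⟨Y, rfl, rfl, hα, hβ, hρ, hY⟩ := Tw.crv_obj hL hj hd H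
  have hY' : Ty (ClG L S) (Finset.univ.image q) A Y := ⟨hY.1, hY.2.mono (Finset.empty_subset _)⟩
  have e : u.comp Y.ι = (Ideal.Quotient.mk _).comp j := RingHom.ext H.cst
  have hτ : ∀ i, ρ (τ' i) = 1 := fun i => by
    obtain ⟨h1, P, h2, h3⟩ := hq i
    exact Tw.crv_unr ht.not_isUnit hd h1 h2 h3.1
  have hτ' : ∀ i, mx S.rb (τ' i) = 1 := fun i => by
    obtain ⟨h1, P, h2, h3⟩ := hq i
    rw [← Y.res, hY.2 _ h2.1 h1 (Finset.notMem_empty _) P h2.2.1 h2.2.2 _ h3.1, map_one']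
  obtain ⟨ψ, h1, h2⟩ := H.cor hj (v0 K G r Y.ι Y.ρ Y.α Y.β τ')
    (Tw.v0_res K G r hL.lift Y (hK.loc.res A Y hY.1) τ' hτ') θ0 h0.c fun s => by
      rw [h0.x, Tw.v0_congr K G r j (fun g => (ρ g : M2 V)) _ _ (τ'' := τ')
        (fun i => by rw [hτ, map_one]), Tw.v0_map, Tw.v0_map, e]
      simp only [hρ, hα, hβ, map_one']
  let θ1 : S0 O τ L n S.T r →+* V ⧸ tI t (N + 1) := (Ideal.Quotient.mk _).comp θ0
  have h3 : ∀ f, u (ψ f) = θ1 f := h2
  haveI := Y.fin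
  haveI : Finite (DualNumber (V ⧸ tI t (N + 1))) :=
    inferInstanceAs (Finite ((V ⧸ tI t (N + 1)) × (V ⧸ tI t (N + 1))))
  let p : Bd u →+* A := (RingHom.fst _ _).comp (Bd u).subtype
  let w : Bd u →+* DualNumber (V ⧸ tI t (N + 1)) := (RingHom.snd _ _).comp (Bd u).subtype
  have pw : ∀ b, u (p b) = (w b).fst := fun b => b.2
  let s : A →+* Bd u := ((RingHom.id A).prod ((algebraMap _ _).comp u)).codRestrict (Bd u)
    fun a => rfl
  have ws : ∀ a, w (s a) = TrivSqZeroExt.inl (u a) := fun a => rfl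
  have bl : ∀ b : Bd u, (Y.π.comp p) b ≠ 0 → IsUnit b := fun b hb => Bd_unit u b (Y.loc _ hb)
  let Ψ : (Rs (n + r) S.T → V ⧸ tI t (N + 1)) → (S0 O τ L n S.T r →+* Bd u) := fun v =>
    (ψ.prod (psi Sum.inr θ1 v)).codRestrict (Bd u) fun f =>
      (h3 f).trans (psi_fst Sum.inr θ1 v f).symm
  have pΨ : ∀ v f, p (Ψ v f) = ψ f := fun v f => rfl
  have wΨ : ∀ v f, w (Ψ v f) = psi Sum.inr θ1 v f := fun v f => rfl
  have sΨ : ∀ v f, (∀ z, pderiv O (Sum.inr z) f = 0) → Ψ v f = s (ψ f) := fun v f h => by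
    refine Subtype.ext (Prod.ext rfl ?_)
    show psi Sum.inr θ1 v f = TrivSqZeroExt.inl (u (ψ f))
    ext
    · rw [psi_fst, h3]
      rfl
    · rw [psi_snd]
      simp only [h, map_zero, zero_mul, Finset.sum_const_zero]
      rfl
  let Y0 : Obj S (Bd u) := Tw.omap Y s (Y.π.comp p) inferInstance bl fun a => rfl
  have k0 : Hom Y Y0 s := Tw.hom_map _ _ _ _ _ _
  have key : ∀ v : {v : Rs (n + r) S.T → V ⧸ tI t (N + 1) //
      ∀ f : Kn K G r q τ', ∑ z, Ideal.Quotient.mk (tI t (N + 1))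
        (θ0 (pderiv O (Sum.inr z) f.1)) * v z = 0},
      ∃ Z : Obj S (Bd u), Z.π = Y.π.comp p ∧ Ty (ClG L S) (Finset.univ.image q) _ Z ∧
        Hm Z.ι (v0 K G r Z.ι Z.ρ Z.α Z.β τ') (Ψ v.1) := fun v => by
    refine hR O F ϖ S L X as β τ ι' K n G hϖ hC hK hE r q τ' hq (Bd u) (Y.π.comp p) (Ψ v.1) bl
      (fun f => Tw.res_eq hL.ker (Y.π.comp ψ)
        (fun c => (congrArg Y.π (h1.c c)).trans (Y.alg c)) f) fun f hf => ?_
    have e0 : ψ f = 0 := hf A _ _ ψ ⟨Y, hY', rfl, rfl⟩ h1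
    refine Subtype.ext (Prod.ext e0 ?_)
    show psi Sum.inr θ1 v.1 f = 0
    ext
    · rw [psi_fst, ← h3, e0, map_zero]
      rfl
    · rw [psi_snd]
      exact v.2 ⟨f, hf⟩
  choose Z z1 z2 z3 using key
  have zι : ∀ v, (Z v).ι = Y0.ι := fun v => RingHom.ext fun o => by
    rw [← (z3 v).c, sΨ _ _ fun z => pderiv_C, h1.c]
    rfl
  have zρ : ∀ v g, ((Z v).ρ g).map p = Y.ρ g := fun v g => by
    let Z' : Obj S A := Tw.omap (Z v) p Y.π Y.fin Y.loc fun a => by rw [z1]; rfl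
    refine Tw.ext_gen hC.rb1 (G.gen r q τ' hq) Z' Y (fun l a b c P d e s f => ?_) hY'.2 (fun i => ?_) g
    · show ((Z v).ρ s).map p = 1
      rw [(z2 v).2 l a b c P d e s f, map_one']
    · show ((Z v).ρ _).map p = _
      rw [← Tw.hm_ZS K G r (z3 v), ← Tw.hm_ZS K G r h1]
      rfl
  have zα : ∀ v l, ((Z v).α l).map p = 1 := fun v l => by
    by_cases hl : l ∈ S.T
    · rw [← Tw.hm_αS K G r (z3 v) hl, ← hα l, ← Tw.hm_αS K G r h1 hl]
      rfl
    · rw [(Z v).off l hl, map_one']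
  have f1w : ∀ M : M2 (Bd u), f1 (M.map w) = (M.map p).map u := fun M =>
    Matrix.ext fun a b => (pw _).symm
  have hρ' : ∀ g, (Y.ρ g).map u = mr (rd (tI t (N + 1)) ρ) g := hρ
  have f1ρ : ∀ v g, f1 (((Z v).ρ g).map w) = mr (rd (tI t (N + 1)) ρ) g := fun v g => by
    rw [f1w, zρ, hρ']
  have f1α : ∀ v l, f1 (((Z v).α l).map w) = 1 := fun v l => by rw [f1w, zα, map_one']
  have inv : ∀ v l, ((Z v).α l).map w * ((Z v).β l).map w = 1 := fun v l => by
    rw [← Matrix.map_mul, (Z v).inv, map_one']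
  refine Tw.cnt0 (hc.lv (N + 1)) S.hl0
    (fun v g => f2 (((Z v).ρ g).map w) * mr (rd (tI t (N + 1)) ρ) g⁻¹)
    (fun v l => f2 (((Z v).α l).map w)) (fun v => ?_) (fun v => ?_)
    (fun v v' hc ha => ?_) hf
  · refine tan_of _ _ _ _ (w.mapMatrix.toMonoidHom.comp (Z v).ρ) (fun l => ((Z v).α l).map w)
      (fun l => ((Z v).β l).map w) (f1ρ v) ?_ (fun l a b P d g f => ?_) (f1α v) (inv v)
      (fun l hl => ?_) fun l hl g hg => ?_
    · refine P022D.R.opn_of_le _ _ (Z v).opn fun g hg => ?_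
      show ((Z v).ρ g).map w = 1
      rw [hg, map_one']
    · show ((Z v).ρ g).map w = 1
      rw [(z2 v).2 l d.1 a b P d.2.1 d.2.2 g f, map_one']
    · show ((Z v).α l).map w = 1
      rw [(Z v).off l hl, map_one']
    · have e1 := hE _ (Z v) Y0 (zι v) (z1 v) (z2 v).1 (hK.clo.push _ _ Y Y0 s k0 hY.1)
        (funext fun i => by
          rw [← hK.loc.nat _ _ Y Y0 s k0 hY.1 i]
          refine ((z3 v).x (Sum.inl i)).symm.trans ?_
          rw [sΨ _ _ fun z => pderiv_X_of_ne Sum.inl_ne_inr, h1.x]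
          rfl) l hl g hg
      have e2 : lr Y0 l g = (Y.ρ g).map s := by
        rw [lr_apply, ← k0.α, ← Tw.homβ k0, hα, hβ, map_one', one_mul, mul_one, k0.ρ]
      show ((Z v).β l).map w * ((Z v).ρ g).map w * ((Z v).α l).map w = _
      rw [← Matrix.map_mul, ← Matrix.map_mul, ← lr_apply, e1, e2, ← hρ']
      rfl
  · show f2 (((Z v).α S.l0).map w) = 0
    rw [(Z v).fr, map_one', f2_one]
  · have e1 : (fun g => ((Z v).ρ g).map w) = fun g => ((Z v').ρ g).map w := funext fun g => by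
      refine f12 (by rw [f1ρ, f1ρ]) ?_
      have := congrArg (· * mr (rd (tI t (N + 1)) ρ) g) (congrFun hc g)
      simpa only [mul_assoc, mr_inv, mul_one] using this
    have e2 : (fun l => ((Z v).α l).map w) = fun l => ((Z v').α l).map w := funext fun l =>
      f12 (by rw [f1α, f1α]) (congrFun ha l)
    have e3 : (fun l => ((Z v).β l).map w) = fun l => ((Z v').β l).map w := funext fun l => by
      have k := inv v' l
      rw [← congrFun e2 l] at k
      rw [← mul_one (((Z v).β l).map w), ← k, ← mul_assoc, mul_eq_one_comm.1 (inv v l), one_mul]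
    have e4 : ∀ v z, (w (Ψ v (MvPowerSeries.X (Sum.inr z)))).snd = v z := fun v z => by
      rw [wΨ, psi_snd, Finset.sum_eq_single z, pderiv_X_self, map_one, one_mul]
      · intro b _ hb
        rw [pderiv_X_of_ne fun h => hb (Sum.inr_injective h).symm, map_zero, zero_mul]
      · exact fun h => (h (Finset.mem_univ _)).elim
    refine Subtype.ext (funext fun z => ?_)
    rw [← e4 v.1, ← e4 v'.1, (z3 v).x, (z3 v').x, Tw.v0_map, Tw.v0_map, e1, e2, e3, zι, zι]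

end Vale.Agent.P022S.H67
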