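import Vale.Agent.P022S.Rows
import Vale.Agent.P022S.Geo.Set2
import Vale.Agent.P022S.Geo.Ag0

/-! # P022S: the component in characteristic zero through the point -/

set_option linter.all false

noncomputable section

namespace Vale.Agent.P022S

open NumberField IsLocalRing MvPowerSeries
open Vale.Agent.P022 Vale.Agent.P022S.R Vale.Agent.P022S.Loc
open Vale.Agent.P027M.S (Inert mx)
open Vale.Agent.P022D.Sel (M2)
open Vale.Agent.P022D.Core (PS Coef)
open Vale.Agent.P022E.Loc (Pl)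
open Vale.Agent.P022G.Pres (Dt Jac Un pm pm_apply)
open Vale.Agent.P022S.Geo

namespace Zd

theorem prod_filter {M ι : Type} [Monoid M] [DecidableEq ι] {f : ι → M} {i : ι} (h : f i = 1)
    (l : List ι) : (l.map f).prod = ((l.filter fun x => x ≠ i).map f).prod := by
  induction l with
  | nil => rfl
  | cons x l ih =>
    by_cases e : x = i
    · rw [List.filter_cons_of_neg (by simp [e]), List.map_cons, List.prod_cons, e, h, one_mul, ih]
    · rw [List.filter_cons_of_pos (by simp [e]), List.map_cons, List.map_cons, List.prod_cons,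
        List.prod_cons, ih]

/-- a trivial letter can be omitted -/
theorem sort_one {M : Type} [Monoid M] {n : ℕ} {f : Fin n → M} {i : Fin n} (h : f i = 1)
    (s : Finset (Fin n)) : (((insert i s).sort (· ≤ ·)).map f).prod =
      (((s.erase i).sort (· ≤ ·)).map f).prod := by
  rw [prod_filter h, prod_filter h ((s.erase i).sort (· ≤ ·))]
  congr 2
  refine List.Perm.eq_of_pairwise' (r := (· ≤ ·)) ((Finset.pairwise_sort _ _).filter _)
    ((Finset.pairwise_sort _ _).filter _) ((List.perm_ext_iff_of_nodup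
      ((Finset.sort_nodup _ _).filter _) ((Finset.sort_nodup _ _).filter _)).2 fun x => ?_)
  by_cases e : x = i <;> simp [e]

theorem r_wd {M G : Type} [Monoid M] [Group G] (r : G →* M) {n : ℕ} (γ : Fin n → G)
    (s : Finset (Fin n)) :
    r (P022G.Word.wd γ s) = ((s.sort (· ≤ ·)).map fun i => r (γ i)).prod := by
  rw [P022G.Word.wd, map_list_prod, List.map_map]; rfl

variable {O F : Type} [CommRing O] [Field F] [CharP F 2] {S : Dat O F} {L : Pl O}

/-- the pseudo object of an object -/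
def po (h1 : ∀ g, S.rb g = 1) {B : Type} [CommRing B] (Y : Obj S B) : PO S B where
  ι := Y.ι
  π := Y.π
  t g := (Y.ρ g).trace
  d := Matrix.GeneralLinearGroup.det.comp Y.ρ.toHomUnits
  fin := Y.fin
  loc := Y.loc
  alg := Y.alg
  tf := _root_.P022G.Kd.tf_rep Y.ρ
  rt g := by
    rw [AddMonoidHom.map_trace, Y.res, mx, h1, Units.val_one, Matrix.trace_fin_two]
    exact CharTwo.add_self_eq_zero (1 : F)
  rd g := by
    show Y.π (Y.ρ g).det = 1
    rw [RingHom.map_det, RingHom.mapMatrix_apply, Y.res, mx, h1, Units.val_one, Matrix.det_one]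
  opn := ⟨Y.ρ.toHomUnits.ker, (P022D.R.ker_set Y.ρ).symm ▸ Y.opn, fun u hu => by
    have e : Y.ρ u = 1 := congrArg Units.val (MonoidHom.mem_ker.1 hu)
    exact ⟨fun g => by rw [map_mul, e, mul_one], Units.ext (by
      show (Y.ρ u).det = 1
      rw [e, Matrix.det_one])⟩⟩

theorem po_cl (h1 : ∀ g, S.rb g = 1) {B : Type} [CommRing B] {Y : Obj S B} {Q : Finset ℕ}
    (h : Ty (ClG L S) Q B Y) : (po h1 Y).Cl L Q :=
  ⟨h.1.d2, h.1.dc, h.1.dl, fun l a b c P d e s hs => by
    have k := h.2 l a b c P d e s hs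
    exact ⟨fun g => by
      show (Y.ρ (g * s)).trace = (Y.ρ g).trace
      rw [map_mul, k, mul_one], Units.ext (by
      show (Y.ρ s).det = 1
      rw [k, Matrix.det_one])⟩⟩

/-- **the relations of the pseudo objects hold in the universal ring** -/
theorem ap_jac [IsLocalRing O] [IsNoetherianRing O] [IsAdicComplete (maximalIdeal O) O] [Finite F]
    (h : OkG L S) (hW : L.W = ∅) (h1 : ∀ g, S.rb g = 1) {κ : Type} {gk : κ → GQ} {n : ℕ}
    (G : Gs S L gk n) {ι : Type} [Fintype ι] {gam : ι → GQ} {hS : (d0 S L gam).Ok}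
    {e : ι → Fin n} {R : FreeGroup (Fin n) →* M2 (P022G.Pres.PP O ι)}
    {φ : PS O (Sy n) →+* P022G.Pres.PP O ι} (H : Ph hS G.γ L.r e R φ) {f : PS O (Sy n)}
    (hf : f ∈ G.aP) : φ f ∈ Jac (d0 S L gam) :=
  Ag.sym ⟨rfl, rfl, rfl, fun _ => rfl⟩ hW h.odd H fun B _ Y ψ a b c d =>
    hf B Y.ι _ ψ ⟨po h1 Y, po_cl h1 a, rfl, rfl⟩ ⟨b, by
      rintro (s | i)
      · rw [c, r_wd L.r]; rfl
      · exact d i⟩

theorem ph_t [IsLocalRing O] {κ : Type} {gk : κ → GQ} {n : ℕ} (G : Gs S L gk n) {ι : Type}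
    {D : Dt O F ι} {hS : D.Ok} {e : ι → Fin n} {R : FreeGroup (Fin n) →* M2 (P022G.Pres.PP O ι)}
    {φ : PS O (Sy n) →+* P022G.Pres.PP O ι} (H : Ph hS G.γ L.r e R φ) (s : Finset (Fin n)) :
    φ (tS G.rc id s) = ((s.sort (· ≤ ·)).map fun i => R (FreeGroup.of i)).prod.trace := by
  rw [← r_wd R, ← H.ts, r_wd L.r]; rfl

end Zd

theorem zedC : ZED := by
  intro O F _ _ _ _ _ _ _ ϖ S L X as β τ ι' _ _ _ K n G hϖ hC hK hD
  haveI : IsAdicComplete (maximalIdeal O) O := Coef.cpl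
  have un : Un S.T L.r := fun l hl P hP g hg => hC.unr l hP.1 (Or.inl hl) P hP.2.1 hP.2.2 g hg
  have hτ : ∀ l ∈ X, L.r (L.τ l) = 1 := fun l hl => by
    have k : l ∈ L.W ∪ L.C := Finset.mem_union_right _ (hC.sub hl)
    exact hC.unr l (hC.ok.pr l k).1 (Or.inr hl) _ (hC.ok.hP l k).1 (hC.ok.hP l k).2 _
      (hC.ok.tm l k).tau
  obtain ⟨ι, _, _, e, χ, i2, ic, iτ, hS, R, φ, a1, a2, -, -, -, a3, H⟩ :=
    setup2 hC.ok hC.W0 hC.rb1 un Coef.ne G.gen1 G.hc G.hτ
  obtain ⟨q, q1, q2, q3, q4, q5⟩ := H.zed hC.ok hC.rb1 un a1 a2 a3 hC.sub hτ hC.irr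
  refine ⟨q.comap φ, ⟨Ideal.comap_isPrime φ q,
    fun f hf => q2 (Zd.ap_jac hC.ok hC.W0 hC.rb1 G H hf), q5⟩, fun a ha f hf => ?_, q4⟩
  have k := q3 a ha _ (G.hτ a)
  show φ f ∈ q
  rw [← Ideal.Quotient.eq_zero_iff_mem]
  rcases hf with rfl | ⟨s, rfl⟩
  · rw [map_sub, map_one, show φ (dS G.rc id (G.iτ a)) = _ from H.ds _, map_sub, map_one,
      RingHom.map_det, RingHom.mapMatrix_apply, k, Matrix.det_one, sub_self]
  · have e : ∀ s, Ideal.Quotient.mk q (φ (tS G.rc id s)) = ((s.sort (· ≤ ·)).map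
        fun i => pm (Ideal.Quotient.mk q) R (FreeGroup.of i)).prod.trace := fun s => by
      rw [Zd.ph_t G H, ← Zd.r_wd R, ← Zd.r_wd (pm (Ideal.Quotient.mk q) R),
        AddMonoidHom.map_trace, pm_apply]
    rw [map_sub, map_sub, e, e, Zd.sort_one (f := fun i => pm (Ideal.Quotient.mk q) R
      (FreeGroup.of i)) k, sub_self]

end Vale.Agent.P022S
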