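import Vale.Agent.P022S.Rows

/-!
# P022S: products along increasing words and the values of the symbols
-/

set_option linter.all false

noncomputable section

namespace Vale.Agent.P022S.Wm

open MvPowerSeries _root_.P022G.Th
open Vale.Agent.P022D.Core (PS)

section
variable {B : Type} [CommRing B] {m : ℕ} (Z : Fin m → M2 B)

theorem wm_empty : wm Z ∅ = 1 := by simp [wm]

theorem wm_one (i : Fin m) : wm Z {i} = Z i := by simp [wm]

theorem wm_cons {i : Fin m} {s : Finset (Fin m)} (h : ∀ b ∈ s, i < b) :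
    wm Z (insert i s) = Z i * wm Z s := by
  rw [wm, Finset.sort_insert (· ≤ ·) (fun b hb => (h b hb).le) fun c => lt_irrefl _ (h i c)]
  rfl

theorem wm_two {i k : Fin m} (h : i < k) : wm Z {i, k} = Z i * Z k := by
  rw [wm_cons Z (by simpa using h), wm_one]

theorem tr_two {i k : Fin m} (h : i ≠ k) : (wm Z {i, k}).trace = (Z i * Z k).trace := by
  rcases lt_or_gt_of_ne h with c | c
  · rw [wm_two Z c]
  · rw [Finset.pair_comm, wm_two Z c, Matrix.trace_mul_comm]

theorem wm_three {i k l : Fin m} (h : i < k) (h' : k < l) :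
    wm Z {i, k, l} = Z i * (Z k * Z l) := by
  rw [wm_cons Z (by simpa using ⟨h, h.trans h'⟩), wm_two Z h']

theorem wm_map {B' : Type} [CommRing B'] (f : B →+* B') (s : Finset (Fin m)) :
    (wm Z s).map f = wm (fun i => (Z i).map f) s := by
  change f.mapMatrix _ = _
  rw [wm, wm, map_list_prod, List.map_map]
  rfl

theorem wm_hom {G : Type} [Group G] (ρ : G →* M2 B) (γ : Fin m → G) (s : Finset (Fin m)) :
    wm (fun i => ρ (γ i)) s = ρ (P022G.Word.wd γ s) := by
  rw [wm, P022G.Word.wd, map_list_prod, List.map_map]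
  rfl

theorem prod_filter {α M : Type} [Monoid M] (p : α → Prop) [DecidablePred p] (f : α → M)
    (h : ∀ a, ¬ p a → f a = 1) (l : List α) :
    (l.map f).prod = ((l.filter fun a => p a).map f).prod := by
  induction l with
  | nil => rfl
  | cons a l ih =>
    by_cases c : p a
    · simp [List.filter_cons, c, ih]
    · simp [List.filter_cons, c, ih, h a c]

theorem wm_erase {i : Fin m} (h : Z i = 1) (s : Finset (Fin m)) : wm Z s = wm Z (s.erase i) := by
  have e : (s.erase i).sort (· ≤ ·) = (s.sort (· ≤ ·)).filter fun a => a ≠ i := by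
    refine Eq.trans ?_ ((List.toFinset_sort (· ≤ ·) ((Finset.sort_nodup _ _).filter _)).2
      ((Finset.pairwise_sort _ _).filter _))
    refine congrArg (fun u : Finset (Fin m) => u.sort (· ≤ ·)) (Finset.ext fun j => ?_)
    simp only [List.mem_toFinset, List.mem_filter, Finset.mem_sort, Finset.mem_erase,
      decide_eq_true_eq, and_comm]
  rw [wm, wm, e]
  exact prod_filter (· ≠ i) Z (fun a c => by rw [not_not.1 c, h]) _

theorem del_comm (X Y : M2 B) : del X Y = del Y X := by
  simp only [del, Matrix.det_fin_two, Matrix.sub_apply]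
  ring

/-- the equations of `tauP` say that the matrix is trivial -/
theorem tau_wm [IsDomain B] {a b : Fin m} (hab : a ≠ b) (h : del (Z a) (Z b) ≠ 0) (i : Fin m) :
    ((Z i).det = 1 ∧ ∀ s, (wm Z (insert i s)).trace = (wm Z (s.erase i)).trace) ↔ Z i = 1 := by
  refine ⟨fun ⟨hd, k⟩ => ?_, fun k => ⟨by rw [k, Matrix.det_one], fun s => by
    rw [wm_erase Z k, Finset.erase_insert_eq_erase]⟩⟩
  wlog c : a < b generalizing a b
  · exact this hab.symm (by rwa [del_comm]) (lt_of_le_of_ne (not_lt.1 c) hab.symm)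
  have k0 : (Z i).trace = (1 : M2 B).trace := by
    have := k ∅
    rwa [Finset.erase_empty, wm_empty, insert_empty_eq, wm_one] at this
  have k1 : ∀ u, i ≠ u → (Z i * Z u).trace = (1 * Z u).trace := fun u hu => by
    have := k {u}
    rwa [tr_two Z hu, Finset.erase_eq_of_notMem (by simpa using hu), wm_one, ← one_mul (Z u),
      ← mul_assoc, mul_one] at this
  have no : ∀ u, i ≠ u → del (Z i) (Z u) = 0 := fun u hu => by
    rw [del_eq, k0, k1 u hu, hd, one_mul, Matrix.trace_one, Fintype.card_fin, dl]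
    push_cast
    ring
  by_cases ia : i = a
  · exact absurd (ia ▸ no b (ia ▸ hab)) h
  by_cases ib : i = b
  · exact absurd (del_comm (Z a) (Z b) ▸ ib ▸ no a ia) h
  have k2 := k {a, b}
  rw [Finset.erase_eq_of_notMem (by simp [ia, ib]), wm_two Z c] at k2
  have fin : ∀ X Y : M2 B, del X Y ≠ 0 → del X Y • Z i = del X Y • (1 : M2 B) → Z i = 1 :=
    fun X Y h s => Matrix.ext fun u v => mul_left_cancel₀ h (congrFun (congrFun s u) v)
  rcases lt_or_gt_of_ne ia with c1 | c1
  · rw [wm_three Z c1 c] at k2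
    exact fin _ _ h (same _ _ _ _ k0 (k1 a ia) (k1 b ib) (by rw [k2, one_mul]))
  rcases lt_or_gt_of_ne ib with c2 | c2
  · rw [Finset.insert_comm, wm_three Z c1 c2, Matrix.trace_mul_comm, mul_assoc] at k2
    exact fin (Z b) (Z a) (by rwa [del_comm]) (same _ _ _ _ k0 (k1 b ib) (k1 a ia)
      (by rw [k2, one_mul, Matrix.trace_mul_comm]))
  · rw [Finset.insert_comm, Finset.pair_comm i b, wm_three Z c c2, ← mul_assoc,
      Matrix.trace_mul_comm] at k2
    exact fin _ _ h (same _ _ _ _ k0 (k1 a ia) (k1 b ib) (by rw [k2, one_mul]))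

end

section
variable {O B σ : Type} [CommRing O] [CommRing B] {m : ℕ} {rc : Fin m → M2 O} {e : Sy m → σ}
  {ψ : PS O σ →+* B}

theorem gv_t {j : O →+* B} {t : Finset (Fin m) → B} {d : Fin m → B} (hc : ∀ o, ψ (C o) = j o)
    (hx : ∀ z, ψ (X (e z)) = gv rc j t d z) (s : Finset (Fin m)) : ψ (tS rc e s) = t s := by
  rw [tS, map_add, hc, hx]; simp [gv]

theorem gv_d {j : O →+* B} {t : Finset (Fin m) → B} {d : Fin m → B} (hc : ∀ o, ψ (C o) = j o)
    (hx : ∀ z, ψ (X (e z)) = gv rc j t d z) (i : Fin m) : ψ (dS rc e i) = d i := by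
  rw [dS, map_add, hc, hx]; simp [gv]

variable {Z : Fin m → M2 B} (ht : ∀ s, ψ (tS rc e s) = (wm Z s).trace)
include ht

theorem trS_eq (i : Fin m) : ψ (trS rc e i) = (Z i).trace := by rw [trS, ht, wm_one]

theorem tr2_eq {i k : Fin m} (h : i ≠ k) : ψ (tr2 rc e i k) = (Z i * Z k).trace := by
  rw [tr2, ht, tr_two Z h]

variable (hd : ∀ i, ψ (dS rc e i) = (Z i).det)
include hd

theorem dlS_eq {i k : Fin m} (h : i ≠ k) : ψ (dlS rc e i k) = del (Z i) (Z k) := by
  rw [dlS, map_dl, trS_eq ht, trS_eq ht, tr2_eq ht h, hd, hd, del_eq]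

theorem tauP_of {i : Fin m} (h : Z i = 1) : ∀ u ∈ tauP rc e i, ψ u = 0 := by
  rintro u (rfl | ⟨s, rfl⟩)
  · rw [map_sub, hd, h, Matrix.det_one, map_one, sub_self]
  · rw [map_sub, ht, ht, wm_erase Z h, Finset.erase_insert_eq_erase, sub_self]

theorem tauP_iff [IsDomain B] {a b : Fin m} (hab : a ≠ b) (h : ψ (dlS rc e a b) ≠ 0) (i : Fin m) :
    (∀ u ∈ tauP rc e i, ψ u = 0) ↔ Z i = 1 := by
  refine ⟨fun k => ?_, tauP_of ht hd⟩
  rw [dlS_eq ht hd hab] at h
  refine (tau_wm Z hab h i).1 ⟨?_, fun s => ?_⟩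
  · have := k _ (Or.inl rfl)
    rwa [map_sub, hd, map_one, sub_eq_zero] at this
  · have := k _ (Or.inr ⟨s, rfl⟩)
    rwa [map_sub, ht, ht, sub_eq_zero] at this

end

end Vale.Agent.P022S.Wm
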