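import Vale.Agent.P022S.Rows2
import Vale.Agent.P022S.Pt.T2

/-!
# P022S: the package at a curve (statements)
-/

set_option linter.all false

noncomputable section

namespace Vale.Agent.P022S

open NumberField IsLocalRing MvPowerSeries
open Vale.Agent.P022 Vale.Agent.P022S.R Vale.Agent.P022S.Loc
open Vale.Agent.P022D.Core (PS io y1 Coef)
open Vale.Agent.P022D.Sel (M2)
open Vale.Agent.P022E.Loc (Pl)
open Vale.Agent.P022E.As (Tg Lv2)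
open Vale.Agent.P022G.Chain (Pd)
open Vale.Agent.P022G.Ps (Ps2)
open Vale.Agent.P022G.Pt (FD)
open Vale.Agent.P022S.Mod (Dm)
open Vale.Agent.P022S.Wx (HDX AqS)
open Vale.Agent.P022G

/-- the patched modules at a curve; the denominator lies in no member of `σ` -/
def Pc.Md {O F : Type} [CommRing O] [Field F] {S : Dat O F} {L : Pl O} {β : Type}
    {τ ι' : β → Type} {K : Kx O β τ ι' L.C} {n r s : ℕ} {V : Type} [CommRing V]
    (Y : Pc (S := S) (n := n) K r s V) (ϖ : O) (X : Finset ℕ) {I : Type} (Y0 : I → Type)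
    [∀ i, AddCommGroup (Y0 i)] [∀ i, Module (Tg O) (Y0 i)] (ses : I → I → I → Prop) (ib : I)
    (iJ : Finset L.C → I) (σ : Finset (Ideal (PS O (Sy n)))) [P022D.PA.Base (PP O n r)] : Prop :=
  letI : Algebra (S0 O τ L n S.T r) (S1 O τ L n S.T r) := (io O _ r).toAlgebra
  ∃ (u : ℕ → Fin r ⊕ Fin r → PP O n r) (a : Fin r ⊕ Fin r → PP O n r) (D : ℕ → PP O n r)
    (d : PP O n r) (M : I → ℕ → Type) (Gm : I → Type) (_ : ∀ i m, AddCommGroup (M i m))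
    (_ : ∀ i m, Module (PP O n r) (M i m)) (_ : ∀ i, AddCommGroup (Gm i))
    (_ : ∀ i, Module (PP O n r) (Gm i)),
    P022S.Pt.MD0 (Y.rd ϖ) Y.U u a D d M Gm ses iJ ∧ (∀ E ∈ σ, Y.jr d ∉ E) ∧
    (∀ i, Module.annihilator (PP O n r) (Gm i) = (Y.G'.An (Y0 i)).comap Y.jr) ∧
    ∀ l : L.C, (l : ℕ) ∈ X → ∃ (Cc : ℕ → Type) (_ : ∀ m, AddCommGroup (Cc m))
      (_ : ∀ m, Module (PP O n r) (Cc m)), FD (Y.rd ϖ) Y.U u D M Gm ib
        ((Y.rd ϖ).E ⊔ Ideal.span {((DD K n S.T r).T l).trace}) Cc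

/-- **the package at a curve** -/
def PKG : Prop := All fun O F _ _ _ _ _ _ _ ϖ S L X as β τ ι' _ _ _ K n G =>
  ∀ (Sf : P022D.R.Dat O F) (I : Type) (Y0 : I → Type) (W0 : Type) [∀ i, AddCommGroup (Y0 i)]
    [∀ i, Module (Tg O) (Y0 i)] [AddCommGroup W0] [Module (Tg O) W0] (ses : I → I → I → Prop)
    (ig ib : I) (iJ : Finset L.C → I), Sf.T = S.T → HD4 ϖ Sf L Y0 W0 ses ig ib iJ →
    ∀ (p : Ideal (PS O (Sy n))) (σ : Finset (Ideal (PS O (Sy n)))), Chain.Cv p → G.aP ≤ p →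
      C ϖ ∈ p → (∀ h : as ∈ L.C, G.fr ⟨as, h⟩ ∈ p) →
      (∀ E ∈ σ, Pd (G.aP ⊔ Ideal.span {C ϖ}) 2 E ∧ E ≤ p) →
      ∃ (r s : ℕ) (V : Type) (_ : CommRing V) (_ : IsDomain V) (_ : IsDiscreteValuationRing V)
        (_ : CharP V 2) (_ : IsAdicComplete (maximalIdeal V) V) (_ : Finite (ResidueField V))
        (Y : Pc (S := S) (n := n) K r s V), Irreducible Y.t ∧ Y.G' = G ∧ Y.Ok ∧
        RingHom.ker Y.θA = p ∧ ∀ [P022D.PA.Base (PP O n r)], Y.Md ϖ X Y0 ses ib iJ σ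

/-- the data at a curve and the modules of level `Y.q m`, for any set of places `L'` -/
def CPK : Prop := All fun O F _ _ _ _ _ _ _ ϖ S L X as β τ ι' _ _ _ K n G =>
  ∀ (ps : Prop) (L' : Pl O) (Sf : P022D.R.Dat O F) (I : Type) (Y0 : I → Type) (W0 : Type)
    [∀ i, AddCommGroup (Y0 i)] [∀ i, Module (Tg O) (Y0 i)] [AddCommGroup W0] [Module (Tg O) W0]
    (ses : I → I → I → Prop) (ig ib : I) (iJ : Finset L'.C → I), Sf.T ⊆ S.T →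
    HDX ps ϖ Sf L' Y0 W0 ses ig ib iJ →
    ∀ (p : Ideal (PS O (Sy n))) (σ : Finset (Ideal (PS O (Sy n)))), Chain.Cv p → G.aP ≤ p →
      C ϖ ∈ p → (∀ h : as ∈ L.C, G.fr ⟨as, h⟩ ∈ p) →
      (∀ E ∈ σ, Pd (G.aP ⊔ Ideal.span {C ϖ}) 2 E ∧ E ≤ p) →
      ∃ (r s : ℕ) (V : Type) (_ : CommRing V) (_ : IsDomain V) (_ : IsDiscreteValuationRing V)
        (_ : CharP V 2) (_ : IsAdicComplete (maximalIdeal V) V) (_ : Finite (ResidueField V))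
        (Y : Pc (S := S) (n := n) K r s V), Irreducible Y.t ∧ Y.G' = G ∧ Y.Ok ∧
        RingHom.ker Y.θA = p ∧
        ∃ (b : I → ℕ) (c : ℕ) (φ : ℕ → Fin r → GQ) (Yb : ℕ → I → Type) (Wc : ℕ → Type)
          (Pb : ℕ → L'.C → Type) (_ : ∀ m i, AddCommGroup (Yb m i))
          (_ : ∀ m i, Module (Tg O) (Yb m i)) (_ : ∀ m, AddCommGroup (Wc m))
          (_ : ∀ m, Module (Tg O) (Wc m)) (_ : ∀ m a, AddCommGroup (Pb m a))
          (_ : ∀ m a, Module (Tg O) (Pb m a)),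
          (∀ m, Lv2 ϖ Sf L' Y0 W0 ses ig iJ b c m (Y.q m) (Y.τq m) (φ m) (Yb m) (Wc m)) ∧
          (∀ m i, Dm O Sf.T (Finset.univ.image (Y.q m)) (Yb m i)) ∧
          (∀ m, Dm O Sf.T (Finset.univ.image (Y.q m)) (Wc m)) ∧
          (ps → ∀ m (a : L'.C), 4 ∣ (a : ℕ) - 1 → L'.r (L'.τ a) = 1 →
            Ps2 ϖ Sf L' m (Y.q m) (Y.τq m) (L'.τ a) (Yb m ib) (Pb m a) ∧
              Dm O Sf.T (Finset.univ.image (Y.q m)) (Pb m a)) ∧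
          ∃ (tu : GQ → PS O (Sy n)) (e : ℕ), G.Tu tu ∧
            ∀ m i, ∀ E ∈ σ, tu (φ m i) ∉ E ⊔ maximalIdeal (PS O (Sy n)) ^ e

theorem cpkC (h1 : CRV) (h2 : NICE) (h3 : PCEX) (h4 : EXQ) (h5 : LAM0) (h6 : COBJ) : CPK := by
  intro O F _ _ _ _ _ _ _ ϖ S L X as β τ ι' _ _ _ K n G hϖ hC hK hK' ps L' Sf I Y0 W0 _ _ _ _ ses ig
    ib iJ e1 hD p σ hp a1 a2 a3 a4
  obtain ⟨V, _, _, _, _, _, _, t, j, ρ, θ, ht, hc, rfl⟩ :=
    h1 O F ϖ S L X as β τ ι' K n G hϖ hC hK hK' p hp a1 a2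
  obtain ⟨n1, ⟨g, n2, n2'⟩, n3⟩ :=
    h2 O F ϖ S L X as β τ ι' K n G hϖ hC hK hK' V t j ρ θ ht hc hp a3
  obtain ⟨r, sg, U, T₁, u1, u2, u3, u4, hY⟩ :=
    h3 O F ϖ S L X as β τ ι' K n G hϖ hC hK hK' V t j ρ θ ht hc n1 n3
  obtain ⟨tu, -, hu, -⟩ := h5 O F ϖ S L X as β τ ι' K n G hϖ hC hK hK'
  have hθ := (h6 O F ϖ S L X as β τ ι' K n G hϖ hC hK hK' V t j ρ θ ht hc).2.1 tu hu
  obtain ⟨b, c, n₀, A, hl⟩ := hD.lev r
  obtain ⟨q, e, hq⟩ := h4 O F ϖ S L X as β τ ι' K n G hϖ hC hK hK' tu hu σ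
    (fun E hE => ⟨(a4 E hE).1, g, n2, fun k => n2' ((hθ g).symm.trans ((a4 E hE).2 k))⟩)
    r sg U u1 u2 u3 (A ∪ T₁) n₀ (u4.trans Finset.subset_union_right)
  have hA : ∀ m i, AqS (A ∪ Sf.T) (m + n₀) (q m i) := fun m i =>
    have h := ((hq m).2 i).2.1
    ⟨h.prime, fun k => h.out (Finset.union_subset_union_right (e1.trans u4) k), h.one, h.two⟩
  choose τq φ Yb Wc Pb i1 i2 i3 i4 i5 i6 k1 k2 k3 k4 using fun m => hl m (q m) (hq m).1 (hA m)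
  obtain ⟨s, Y, b1, b2, b3, b4, rfl, rfl⟩ := hY q
    (fun m => ⟨(hq m).1, fun i => ⟨((hq m).2 i).1.1,
      fun k => ((hq m).2 i).1.2.1 (Finset.mem_union_right _ k), ((hq m).2 i).1.2.2⟩⟩)
    τq fun m i => (k1 m).hτ i |>.imp fun P h => ⟨⟨(hA m i).prime, h.1, h.2.1⟩, h.2.2⟩
  exact ⟨r, s, V, inferInstance, inferInstance, inferInstance, inferInstance, inferInstance,
    inferInstance, Y, b3 ▸ ht, b2, b1, by rw [b4], b, c, φ, Yb, Wc, Pb, i1, i2, i3,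
    i4, i5, i6, k1, k2, k3, fun h m => k4 m h, tu, e, hu,
    fun m i => ((hq m).2 i).2.2 _ ((k1 m).hφ i)⟩

end Vale.Agent.P022S
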