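import Vale.Agent.P022S.Rows
import Vale.Agent.P022S.Tw.Univ
import Vale.Agent.P022S.Geo.Ag

/-!
# P022S, row COBJ
-/

set_option linter.all false

noncomputable section

namespace Vale.Agent.P022S.H33

open MvPowerSeries
open Vale.Agent.P022 Vale.Agent.P022S.R Vale.Agent.P022S.Loc Vale.Agent.P022S.Tw
open Vale.Agent.P027M.S (mx)
open Vale.Agent.P022D.Sel (M2)
open Vale.Agent.P022G (Hm KI)
open Vale.Agent.P022G.Tw (krull ex_sb fin_tI j_zero)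
open Vale.Agent.P022S.Geo.Ag (po po_cl wm_r)
open _root_.P022G.Sel (tI)

theorem val_po {O F : Type} [CommRing O] [Field F] [CharP F 2] {S : Dat O F}
    (h1 : ∀ g, S.rb g = 1) {B : Type} [CommRing B] (Y : Obj S B) {m : ℕ} (rc : Fin m → M2 O)
    (γ : Fin m → GQ) : (po h1 Y).val rc γ = sv rc Y.ι fun i => Y.ρ (γ i) := by
  funext s
  rcases s with s | i
  · show (Y.ρ (P022G.Word.wd γ s)).trace - _ = (wm (fun i => Y.ρ (γ i)) s).trace - _
    rw [wm_r]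
    rfl
  · rfl

theorem cobjC : COBJ := by
  intro O F _ _ _ _ _ _ _ ϖ S L X as β τ ι' _ _ _ K n G hϖ hC hK hE V _ _ _ _ _ _ t j ρ θ ht hc
  have hL := hC.ok
  have hd : Tw.Cd S L t j ρ :=
    ⟨hc.res, hc.lv, hc.det, fun l hl => absurd (hC.W0 ▸ hl) (Finset.notMem_empty l)⟩
  have hj : ∀ c, S.red c = 0 → j c = 0 := fun c h => j_zero j ((hL.ker c).1 h)
  have key : ∀ N, ∃ (A : Type) (_ : CommRing A) (u : A →+* V ⧸ tI t (N + 1)) (Z : PO S A)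
      (ψ : P022D.Core.PS O (Sy n) →+* A), Z.Cl L ∅ ∧ Hm Z.ι (Z.val G.rc G.γ) ψ ∧
      (∀ f, u (ψ f) = Ideal.Quotient.mk _ (θ f)) ∧
      ∀ g, u (Z.t g) = Ideal.Quotient.mk _ (ρ g : M2 V).trace := fun N => by
    obtain ⟨A, _, u, ι0, π, H⟩ := ex_sb t j N S.red hL.ker ht.not_isUnit (fin_tI ht _)
    obtain ⟨Y, rfl, rfl, -, -, hρ, hY⟩ := crv_obj hL hj hd H
    have e : u.comp Y.ι = (Ideal.Quotient.mk _).comp j := RingHom.ext H.cst
    obtain ⟨ψ, h1, h2⟩ := H.cor hj (sv G.rc Y.ι fun i => Y.ρ (G.γ i))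
      (sv_res _ _ _ _ fun i a b => ent_res hL.lift Y _ a b) θ hc.hm.c fun s => by
        rw [hc.hm.x, sv_map, sv_map, e]
        simp only [hρ]
    refine ⟨A, inferInstance, u, po hC.rb1 Y, ψ, po_cl hC.rb1 hY, ?_, h2, fun g => ?_⟩
    · rw [val_po]
      exact h1
    · show u (Y.ρ g).trace = _
      rw [tr_map, hρ, ← tr_map]
  refine ⟨fun f hf => krull ht.not_isUnit fun N => ?_,
    fun tu htu g => sub_eq_zero.1 (krull ht.not_isUnit fun N => ?_),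
    fun r q τ' hq θ0 h0 f hf => krull ht.not_isUnit fun N => ?_⟩
  · obtain ⟨A, _, u, Z, ψ, a, b, c, -⟩ := key N
    rw [← c, hf A _ _ ψ ⟨Z, a, rfl, rfl⟩ b, map_zero]
  · obtain ⟨A, _, u, Z, ψ, a, b, c, d⟩ := key N
    rw [map_sub, ← c, htu A Z ψ a b, d, sub_self]
  · obtain ⟨A, _, u, ι0, π, H⟩ := ex_sb t j N S.red hL.ker ht.not_isUnit (fin_tI ht _)
    obtain ⟨Y, rfl, rfl, hα, hβ, hρ, hY⟩ := crv_obj hL hj hd H
    have e : u.comp Y.ι = (Ideal.Quotient.mk _).comp j := RingHom.ext H.cst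
    have hτ : ∀ i, ρ (τ' i) = 1 := fun i => by
      obtain ⟨h1, P, h2, h3⟩ := hq i
      exact crv_unr ht.not_isUnit hd h1 h2 h3.1
    have hτ' : ∀ i, mx S.rb (τ' i) = 1 := fun i => by
      obtain ⟨h1, P, h2, h3⟩ := hq i
      rw [← Y.res, hY.2 _ h2.1 h1 (Finset.notMem_empty _) P h2.2.1 h2.2.2 _ h3.1,
        P022D.R.map_one']
    obtain ⟨ψ, h1, h2⟩ := H.cor hj (v0 K G r Y.ι Y.ρ Y.α Y.β τ')
      (v0_res K G r hL.lift Y (hK.loc.res A Y hY.1) τ' hτ') θ0 h0.c fun s => by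
        rw [h0.x, v0_congr K G r j (fun g => (ρ g : M2 V)) _ _ (τ'' := τ')
          (fun i => by rw [hτ, map_one]), v0_map, v0_map, e]
        simp only [hρ, hα, hβ, P022D.R.map_one']
    rw [← h2, hf A _ _ ψ ⟨Y, ⟨hY.1, hY.2.mono (Finset.empty_subset _)⟩, rfl, rfl⟩ h1, map_zero]

end Vale.Agent.P022S.H33
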