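import Vale.Agent.P022S.Rw.RlocA86
import Vale.Agent.P022G.Pt.Gal

/-!
# P022S: an element which the traces do not see is trivial up to the discriminant
-/

set_option linter.all false

noncomputable section

namespace Vale.Agent.P022S.G0

open IsLocalRing _root_.P022G.Th

theorem del_one {G B : Type} [Group G] [CommRing B] (R : G →* M2 B) (a b : G) {g : G}
    (h : ∀ w, (R (w * g)).trace = (R w).trace) : del (R a) (R b) • (R g - 1) = 0 := by
  have k : ∀ w, (R g * R w).trace = (1 * R w).trace := fun w => by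
    rw [Matrix.trace_mul_comm, ← map_mul, h, one_mul]
  have k0 := k 1
  rw [map_one, mul_one, mul_one] at k0
  have k3 := k (a * b)
  rw [map_mul] at k3
  rw [smul_sub, same (R a) (R b) (R g) 1 k0 (k a) (k b) k3, sub_self]

theorem conj_one {B : Type} [CommRing B] {P Q Z : M2 B} {δ : B} (h : P * Q = 1)
    (hZ : δ • (Z - 1) = 0) : δ • (P * Z * Q - 1) = 0 := by
  have e : P * Z * Q - 1 = P * (Z - 1) * Q := by rw [mul_sub, sub_mul, mul_one, h]
  rw [e, ← smul_mul_assoc, ← mul_smul_comm, hZ, mul_zero, zero_mul]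

theorem cl_mem {P : Type} [CommRing P] [IsLocalRing P] [IsNoetherianRing P] (I : Ideal P)
    (U : Filter ℕ) [U.NeBot] {z : ℕ → P} {a : P} (h : P022D.PA.Cv U z a) (hz : ∀ n, z n ∈ I) :
    a ∈ I := P022D.PA.mem_of_sup _ _ fun j => by
  obtain ⟨n, hn⟩ := (h j).exists
  have := sub_mem (Ideal.mem_sup_left (T := maximalIdeal P ^ j) (hz n)) (Ideal.mem_sup_right hn)
  rwa [sub_sub_cancel] at this

theorem cm_sup {P A : Type} [CommRing P] [IsLocalRing P] [CommRing A] [IsLocalRing A]
    {f : P →+* A} (hf : Function.Surjective f) (I : Ideal A) (N : ℕ) :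
    (I ⊔ maximalIdeal A ^ N).comap f ≤ I.comap f ⊔ maximalIdeal P ^ N := fun x hx => by
  rw [Ideal.mem_comap, ← IsLocalRing.map_maximalIdeal_of_surjective f hf, ← Ideal.map_pow] at hx
  obtain ⟨a, ha, b, hb, e⟩ := Submodule.mem_sup.1 hx
  obtain ⟨c, hc, rfl⟩ := (Ideal.mem_map_iff_of_surjective f hf).1 hb
  refine Submodule.mem_sup.2 ⟨x - c, ?_, c, hc, sub_add_cancel _ _⟩
  rw [Ideal.mem_comap, map_sub, ← e, add_sub_cancel_right]
  exact ha

end Vale.Agent.P022S.G0
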