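import Vale.Agent.P022S.Rows
import Vale.Agent.P022S.Rw.RlocB86
import Vale.Agent.P022S.Rw.Rgal0A
import Vale.Agent.P022G.Rw.Rgal

/-!
# P022S: the maps between the rings at a curve
-/

set_option linter.all false

noncomputable section

namespace Vale.Agent.P022S.Rg

open IsLocalRing MvPowerSeries
open Vale.Agent.P022 Vale.Agent.P022S.R Vale.Agent.P022S.Loc
open Vale.Agent.P027M.S (Inert mx)
open Vale.Agent.P022D.Sel (M2)
open Vale.Agent.P022D.Core (PS io y1)
open Vale.Agent.P022E.Loc (Pl)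
open Vale.Agent.P022E.As (Tg cc tt dd yy)
open Vale.Agent.P022G (Hm KI)
open Vale.Agent.P022G.Word (wd)
open Vale.Agent.P022G.Rg (ioC ioX io_max)
open _root_.P022G.Th (del dl del_eq map_dl)

variable {O F : Type} [CommRing O] [Field F]

section wm
variable {B : Type} [CommRing B] {m : ℕ}

theorem wm_one (Z : Fin m → M2 B) (i : Fin m) : wm Z {i} = Z i := by
  rw [wm, Finset.sort_singleton, List.map_singleton, List.prod_singleton]

theorem wm_lt (Z : Fin m → M2 B) {i k : Fin m} (h : i < k) : wm Z {i, k} = Z i * Z k := by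
  rw [wm, Finset.sort_insert (r := (· ≤ ·)) (fun b hb => by
      rw [Finset.mem_singleton.1 hb]; exact h.le) (by simpa using h.ne), Finset.sort_singleton]
  simp

theorem wm_two (Z : Fin m → M2 B) {i k : Fin m} (h : i ≠ k) :
    (wm Z {i, k}).trace = (Z i * Z k).trace := by
  rcases lt_or_gt_of_ne h with h | h
  · rw [wm_lt Z h]
  · rw [Finset.pair_comm, wm_lt Z h, Matrix.trace_mul_comm]

theorem wm_map {A : Type} [CommRing A] (f : B →+* A) (Z : Fin m → M2 B) (s : Finset (Fin m)) :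
    (wm Z s).map f = wm (fun i => (Z i).map f) s := by
  change f.mapMatrix (wm Z s) = _
  rw [wm, wm, map_list_prod, List.map_map]
  rfl

theorem wm_id (s : Finset (Fin m)) : wm (fun _ : Fin m => (1 : M2 B)) s = 1 :=
  List.prod_eq_one fun x hx => by
    obtain ⟨_, -, rfl⟩ := List.mem_map.1 hx
    rfl

theorem wd_one {G : Type} [Group G] (γ : Fin m → G) (i : Fin m) : wd γ {i} = γ i := by
  rw [wd, Finset.sort_singleton, List.map_singleton, List.prod_singleton]

end wm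

section hm
variable {σ B : Type} [CommRing B] {m : ℕ} {j : O →+* B} {rc : Fin m → M2 O} {e : Sy m → σ}
  {t : Finset (Fin m) → B} {d : Fin m → B} {Ψ : PS O σ →+* B}

theorem ev_t (hc : ∀ o, Ψ (C o) = j o) (hx : ∀ s, Ψ (X (e s)) = gv rc j t d s)
    (s : Finset (Fin m)) : Ψ (tS rc e s) = t s := by
  rw [tS, map_add, hc, hx]
  exact add_sub_cancel _ _

theorem ev_d (hc : ∀ o, Ψ (C o) = j o) (hx : ∀ s, Ψ (X (e s)) = gv rc j t d s) (i : Fin m) :
    Ψ (dS rc e i) = d i := by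
  rw [dS, map_add, hc, hx]
  exact add_sub_cancel _ _

/-- the determinant of the commutator on matrices -/
theorem dl_of {Z : Fin m → M2 B} (h1 : ∀ s, Ψ (tS rc e s) = (wm Z s).trace)
    (h2 : ∀ i, Ψ (dS rc e i) = (Z i).det) {i k : Fin m} (h : i ≠ k) :
    Ψ (dlS rc e i k) = del (Z i) (Z k) := by
  rw [dlS, map_dl, trS, trS, tr2, h1, h1, h1, h2, h2, wm_one, wm_one, wm_two Z h, del_eq]

theorem ev_dl {Z : Fin m → M2 B} (hc : ∀ o, Ψ (C o) = j o)
    (hx : ∀ s, Ψ (X (e s)) = sv rc j Z s) {i k : Fin m} (h : i ≠ k) :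
    Ψ (dlS rc e i k) = del (Z i) (Z k) := dl_of (ev_t hc hx) (ev_d hc hx) h

theorem d_unit (h : ∀ i, IsUnit (rc i)) (i : Fin m) : IsUnit (dS rc e i) := by
  rw [MvPowerSeries.isUnit_iff_constantCoeff, dS, map_add, constantCoeff_C, constantCoeff_X,
    add_zero]
  exact (Matrix.isUnit_iff_isUnit_det _).1 (h i)

end hm

variable {S : Dat O F} {L : Pl O} {β : Type} {τ ι' : β → Type} {n r : ℕ}

theorem p0C (o : O) : ψ0 S L τ n r (C o) = C o := rename_C _ o

theorem p0X (s : Sy (n + r)) : ψ0 S L τ n r (X s) = X (e0 r s) := rename_X _ s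

theorem p1C (o : O) : ψ1 S L τ n r (C o) = C o := rename_C _ o

theorem p1y (i : Fin r) : ψ1 S L τ n r (y1 O _ i) = y1 O _ i := rename_X _ _

theorem p1io (f : PS O (Sy (n + r))) :
    ψ1 S L τ n r (io O _ r f) = io O _ r (ψ0 S L τ n r f) :=
  (rename_rename _ _ f).trans (rename_rename (e0 r : Sy (n + r) ↪ V0 τ L n S.T r)
    (Function.Embedding.inl : V0 τ L n S.T r ↪ V0 τ L n S.T r ⊕ Fin r) f).symm

theorem p1_max [IsLocalRing O] : ∀ f ∈ maximalIdeal (PP O n r),
    ψ1 S L τ n r f ∈ maximalIdeal (S1 O τ L n S.T r) := fun f hf => by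
  rw [P022D.CA.Cpl.mem_max_iff] at hf ⊢
  have e : constantCoeff (ψ1 S L τ n r f) = constantCoeff f := constantCoeff_rename _ f
  rwa [e]

theorem p0t (rc : Fin (n + r) → M2 O) (s : Finset (Fin (n + r))) :
    ψ0 S L τ n r (tS rc id s) = tS rc (e0 r) s := by
  rw [tS, tS, map_add, p0C, p0X]; rfl

theorem p0d (rc : Fin (n + r) → M2 O) (i : Fin (n + r)) :
    ψ0 S L τ n r (dS rc id i) = dS rc (e0 r) i := by
  rw [dS, dS, map_add, p0C, p0X]; rfl

theorem p0dl (rc : Fin (n + r) → M2 O) (i k : Fin (n + r)) :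
    ψ0 S L τ n r (dlS rc id i k) = dlS rc (e0 r) i k := by
  rw [dlS, dlS, map_dl, trS, trS, tr2, p0t, p0t, p0t, p0d, p0d]; rfl

theorem al_unit (l : ℕ) : IsUnit (αS (O := O) τ L n S.T r l).det := by
  unfold αS
  split_ifs with h
  · rw [MvPowerSeries.isUnit_iff_constantCoeff, RingHom.map_det]
    have : (constantCoeff : PS O (V0 τ L n S.T r) →+* O).mapMatrix (1 + Matrix.of fun a b =>
        X (Sum.inr (Sum.inr (Sum.inr (⟨l, h⟩, a, b))))) = 1 := by
      rw [map_add, map_one]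
      ext a b
      simp
    rw [this, Matrix.det_one]
    exact isUnit_one
  · rw [Matrix.det_one]
    exact isUnit_one

theorem rcr_unit {κ : Type} {gk : κ → GQ} (G : Gs S L gk n) (i : Fin (n + r)) :
    IsUnit (G.rcr r i) := by
  refine Fin.addCases (fun i => ?_) (fun i => ?_) i
  · rw [Gs.rcr, Fin.append_left]
    exact (Group.isUnit _).map L.r
  · rw [Gs.rcr, Fin.append_right]
    exact isUnit_one

/-- the determinants as units -/
def dU {κ : Type} {gk : κ → GQ} (G : Gs S L gk n) (r : ℕ) (i : Fin (n + r)) :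
    (PS O (Sy (n + r)))ˣ := (d_unit (e := id) (rcr_unit G) i).unit

/-- the universal trace of a word -/
def uT {κ : Type} {gk : κ → GQ} (G : Gs S L gk n) (r : ℕ) (w : FreeGroup (Fin (n + r))) :
    PS O (Sy (n + r)) := Ut.tw (tS (G.rcr r) id) (dU G r) w

theorem uT_val {κ : Type} {gk : κ → GQ} (G : Gs S L gk n) {B : Type} [CommRing B] (Z : PO S B)
    (γ : Fin (n + r) → GQ) {ψ : PS O (Sy (n + r)) →+* B} (h : Hm Z.ι (Z.val (G.rcr r) γ) ψ)
    (w : FreeGroup (Fin (n + r))) : ψ (uT G r w) = Z.t (FreeGroup.lift γ w) :=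
  (Ut.spec Z.tf γ ψ (ev_t (e := id) h.c h.x) (ev_d (e := id) h.c h.x)).2.1 w

variable (K : Kx O β τ ι' L.C) (G : Gs S L K.g n)

theorem zs_unit (i : Fin (n + r)) : IsUnit (ZS K G r i) := by
  rw [Matrix.isUnit_iff_isUnit_det, MvPowerSeries.isUnit_iff_constantCoeff, RingHom.map_det]
  have : (constantCoeff : PS O (V0 τ L n S.T r) →+* O).mapMatrix (ZS K G r i) = G.rcr r i := by
    ext a b
    simp [ZS]
  rw [this]
  exact (Matrix.isUnit_iff_isUnit_det _).1 (rcr_unit G i)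

theorem t_mem (s : Finset (Fin (n + r))) :
    tS (G.rcr r) (e0 r) s - (wm (ZS K G r) s).trace ∈ t0 K G r :=
  Ideal.subset_span (Or.inl (Or.inl (Or.inl ⟨s, rfl⟩)))

theorem d_mem (i : Fin (n + r)) : dS (G.rcr r) (e0 r) i - (ZS K G r i).det ∈ t0 K G r :=
  Ideal.subset_span (Or.inl (Or.inl (Or.inr ⟨i, rfl⟩)))

theorem k_mem (i : Ix τ L) : X (Sum.inl i) - κS K G r i ∈ t0 K G r :=
  Ideal.subset_span (Or.inl (Or.inr ⟨i, rfl⟩))

section md
variable {B : Type} [CommRing B] (m : S0 O τ L n S.T r →+* B) (hm : t0 K G r ≤ RingHom.ker m)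
include hm

theorem m_t (s : Finset (Fin (n + r))) : m.comp (ψ0 S L τ n r) (tS (G.rcr r) id s) =
    (wm (fun i => (ZS K G r i).map m) s).trace := by
  have := hm (t_mem K G s)
  rw [RingHom.mem_ker, map_sub, sub_eq_zero] at this
  rw [RingHom.comp_apply, p0t, this, Rl86.tr_map, wm_map]

theorem m_d (i : Fin (n + r)) : m.comp (ψ0 S L τ n r) (dS (G.rcr r) id i) =
    ((ZS K G r i).map m).det := by
  have := hm (d_mem K G i)
  rw [RingHom.mem_ker, map_sub, sub_eq_zero] at this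
  rw [RingHom.comp_apply, p0d, this, RingHom.map_det]
  rfl

theorem m_blk (uv : ∀ γ, K.u γ * K.v γ = 1) (l : L.C) : ∃ P Q : M2 B, P * Q = 1 ∧ Q * P = 1 ∧
    ((DD K n S.T r).Φ l).map m = P * (ZS K G r (Fin.castAdd r (G.iφ l))).map m * Q ∧
    ((DD K n S.T r).T l).map m = P * (ZS K G r (Fin.castAdd r (G.iτ l))).map m * Q :=
  Rl86.conj K _ uv m l (αS τ L n S.T r l) _ _ (al_unit l) fun j => by
    have := hm (k_mem (r := r) K G (Sum.inr (l, j)))
    rw [RingHom.mem_ker, map_sub, sub_eq_zero] at this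
    exact this

theorem m_tr (uv : ∀ γ, K.u γ * K.v γ = 1) (l : L.C) : m ((DD K n S.T r).T l).trace =
    m (ψ0 S L τ n r (trS (G.rcr r) id (Fin.castAdd r (G.iτ l)))) := by
  rw [(Rl86.key m (m_blk K G m hm uv l)).2.1]
  exact ((m_t K G m hm _).trans (by rw [wm_one])).symm

/-- a generator which the traces do not see is trivial up to the discriminant -/
theorem m_one (uv : ∀ γ, K.u γ * K.v γ = 1) (l : L.C) {i k : Fin (n + r)} (hik : i ≠ k)
    (h : ∀ w, m (ψ0 S L τ n r (uT G r (w * FreeGroup.of (Fin.castAdd r (G.iτ l))) - uT G r w)) = 0)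
    (a b : Fin 2) :
    m (ψ0 S L τ n r (dlS (G.rcr r) id i k) * ((DD K n S.T r).T l - 1) a b) = 0 := by
  have hu : ∀ i, IsUnit ((ZS K G r i).map m) := fun i => (zs_unit K G i).map m.mapMatrix
  have sp := (Ut.spec_mat (p := tS (G.rcr r) id) (r := dU G r) _ hu
    (m.comp (ψ0 S L τ n r)) (m_t K G m hm) (m_d K G m hm)).2.1
  have h1 := G0.del_one (Kd.fr _ hu) (FreeGroup.of i) (FreeGroup.of k)
    (g := FreeGroup.of (Fin.castAdd r (G.iτ l))) fun w => by
      rw [← sp, ← sp, ← sub_eq_zero, ← map_sub]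
      exact h w
  rw [Kd.fr_of, Kd.fr_of, Kd.fr_of] at h1
  obtain ⟨P, Q, a1, -, -, a2⟩ := m_blk K G m hm uv l
  have h2 := congrFun (congrFun (G0.conj_one a1 h1) a) b
  rw [← a2, ← dl_of (m_t K G m hm) (m_d K G m hm) hik] at h2
  rw [map_mul]
  refine Eq.trans ?_ h2
  rw [Matrix.smul_apply, smul_eq_mul, Matrix.sub_apply, Matrix.sub_apply, map_sub,
    Matrix.map_apply, Matrix.one_apply, Matrix.one_apply]
  congr 2
  split_ifs <;> simp

end md

end Vale.Agent.P022S.Rg
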