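import Vale.Agent.P022S.Pt.Fin
import Vale.Agent.P022S.Rw.GpoH94
import Vale.Agent.P022S.Rw.RgalA

/-!
# P022S: what the rings at a curve know about the symbols
-/

set_option linter.all false

open IsLocalRing Filter MvPowerSeries NumberField

noncomputable section

namespace Vale.Agent.P022S.H56

open Vale.Agent.P022 Vale.Agent.P022S.R Vale.Agent.P022S.Loc
open Vale.Agent.P022G (Hm)
open Vale.Agent.P022G.Mod (Ph Kr mem_Kr)
open Vale.Agent.P022G.Word (wd)
open Vale.Agent.P022E.As (Tg cc tt dd yy mT)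
open Vale.Agent.P022D.Core (PS io y1 Coef)
open Vale.Agent.P022D.PA (Base Cv)
open Vale.Agent.P022E.Loc (Pl)
open Vale.Agent.P022S.Mod (Lv gq GS)

theorem wd_ins {G : Type} [Group G] {n : ℕ} (γ : Fin n → G) (i : Fin n) (s : Finset (Fin n)) :
    ∃ A B : G, wd γ (insert i s) = A * γ i * B ∧ wd γ (s.erase i) = A * B := by
  obtain ⟨l1, l2, e⟩ := List.append_of_mem
    ((Finset.mem_sort (· ≤ ·)).2 (Finset.mem_insert_self i s))
  have nd := Finset.sort_nodup (insert i s) (· ≤ ·)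
  have pw := Finset.pairwise_sort (insert i s) (· ≤ ·)
  have mm := fun j => Finset.mem_sort (s := insert i s) (a := j) (· ≤ ·)
  rw [e] at nd pw mm
  have sb : (l1 ++ l2).Sublist (l1 ++ i :: l2) := (List.sublist_cons_self _ _).append_left _
  have k : (s.erase i).sort (· ≤ ·) = l1 ++ l2 := by
    rw [← (List.toFinset_sort (· ≤ ·) (nd.sublist sb)).2 (pw.sublist sb)]
    congr 1
    ext j
    have ni : i ∉ l1 ++ l2 := (List.nodup_cons.1 (List.perm_middle.nodup_iff.1 nd)).1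
    have := mm j
    rw [List.perm_middle.mem_iff, List.mem_cons, Finset.mem_insert] at this
    rw [Finset.mem_erase, List.mem_toFinset]
    exact ⟨fun h => (this.2 (Or.inr h.2)).resolve_left h.1, fun h =>
      have c : j ≠ i := fun c => ni (c ▸ h)
      ⟨c, (this.1 (Or.inr h)).resolve_left c⟩⟩
  refine ⟨(l1.map γ).prod, (l2.map γ).prod, ?_, ?_⟩
  · rw [wd, e, List.map_append, List.prod_append, List.map_cons, List.prod_cons, mul_assoc]
  · rw [wd, k, List.map_append, List.prod_append]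

variable {O F : Type} [CommRing O] [IsDomain O] [IsDiscreteValuationRing O] [Coef O] [Field F]
  [Finite F] [CharP F 2] {ϖ : O} {S : Dat O F} {L : Pl O} {X : Finset ℕ} {as : ℕ} {β : Type}
  {τ ι' : β → Type} [Fintype β] [∀ b, Fintype (τ b)] [∀ b, Fintype (ι' b)]
  {K : Kx O β τ ι' L.C} {n r s : ℕ} {V : Type} [CommRing V] [IsDomain V]
  [IsDiscreteValuationRing V] [CharP V 2] [IsAdicComplete (maximalIdeal V) V]
  [Finite (ResidueField V)] {Y : Pc (S := S) (n := n) K r s V}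

theorem pc_rd (hG : RGAL) (hϖ : Irreducible ϖ) (hC : Cx S L X as) (hK : K.Ok L S ϖ)
    (hK' : K.Det L S) (ht : Irreducible Y.t) (hY : Y.Ok) [Base (PP O n r)] [Base (PS O (Sy n))]
    (A : Lv ϖ L S.T Y.q (fun m => Y.G'.vP (Y.τ' m)) (vT Y.G'.rc Y.G'.γ) Y.jr Sum.inr) :
    letI : Algebra (S0 O τ L n S.T r) (S1 O τ L n S.T r) := (io O _ r).toAlgebra
    H78.Rd ϖ S.T Y.q (fun m => Y.G'.vP (Y.τ' m)) (vT Y.G'.rc Y.G'.γ) Y.jr Sum.inr Y.τq Y.U
      (Y.rd ϖ) X (fun l => (Y.rd ϖ).E ⊔ Ideal.span {((DD K n S.T r).T l).trace})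
      ((Y.rd ϖ).E ⊔ EU K n S.T r X) := by
  letI : Algebra (S0 O τ L n S.T r) (S1 O τ L n S.T r) := (io O _ r).toAlgebra
  have R := hG O F ϖ S L X as β τ ι' K n Y.G' hϖ hC hK hK' r s V Y ht rfl hY
  have et : ∀ m, ∀ b ∈ gq ϖ L S.T Y.q m, ∀ z, Ph (Y.G'.vP (Y.τ' m)) b
      (tS (Y.G'.rcr r) Sum.inl z) = Ideal.Quotient.mk b (tt (wd (Fin.append Y.G'.γ (Y.τ' m)) z)) :=
    fun m b hb => Rg.ev_t (j := (Ideal.Quotient.mk b).comp MvPolynomial.C)
      (t := fun z => Ideal.Quotient.mk b (tt (wd (Fin.append Y.G'.γ (Y.τ' m)) z)))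
      (d := fun i => Ideal.Quotient.mk b (dd (Fin.append Y.G'.γ (Y.τ' m) i))) (A.hq m hb).c
      fun z => ((A.hq m hb).x _).trans (by rcases z with z | z <;> exact map_sub _ _ _)
  have ed : ∀ m, ∀ b ∈ gq ϖ L S.T Y.q m, ∀ i, Ph (Y.G'.vP (Y.τ' m)) b
      (dS (Y.G'.rcr r) Sum.inl i) = Ideal.Quotient.mk b (dd (Fin.append Y.G'.γ (Y.τ' m) i)) :=
    fun m b hb => Rg.ev_d (j := (Ideal.Quotient.mk b).comp MvPolynomial.C)
      (t := fun z => Ideal.Quotient.mk b (tt (wd (Fin.append Y.G'.γ (Y.τ' m)) z)))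
      (d := fun i => Ideal.Quotient.mk b (dd (Fin.append Y.G'.γ (Y.τ' m) i))) (A.hq m hb).c
      fun z => ((A.hq m hb).x _).trans (by rcases z with z | z <;> exact map_sub _ _ _)
  have ne : ∀ {a : Ideal (Tg O)}, a ≤ mT L.r → a ≠ ⊤ := fun h e =>
    (maximalIdeal.isMaximal O).ne_top ((Ideal.eq_top_iff_one _).2 (by
      have : (1 : Tg O) ∈ mT L.r := h (e ▸ trivial)
      exact (map_one (P022E.As.ev0 L.r)) ▸ this))
  refine
    { pi := rfl
      he := Ideal.comap_mono fun f hf => (H94.mem_aP Y.G' hϖ hC f).2 (mem_Kr.1 hf)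
      dim := ?_
      hq := fun m i => (hY.gn m i).1
      ine := hY.ine
      hU := hY.hU
      tau := fun l t ht m => ?_
      new := fun l m b hb => ?_
      y := fun i => Rg.p1y i
      un := fun i => ?_
      ta := fun i => ⟨fun m => io O _ r (Y.tn m i), io O _ r (Y.ta i), fun m b hb => ?_,
        P022D.As.EA.cv_map (io O _ r) (P022G.Rg.io_max _ _) (hY.cvt i), ?_⟩
      e1 := fun l => le_sup_left
      e0 := le_sup_left
      eu := fun l hl => ?_
      gal := fun N _ _ W h => R N W fun m k => ?_ }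
  · have := Finset.card_pos.2 (⟨S.l0, S.hl0⟩ : S.T.Nonempty)
    change 4 * S.T.card + 2 * r + 1 = 4 * S.T.card - 1 + (r + r + 2)
    omega
  · have e : Fin.append Y.G'.γ (Y.τ' m) (Fin.castAdd r (Y.G'.iτ l)) = L.τ l := by
      rw [Fin.append_left, Y.G'.hτ]
    rcases ht with rfl | ⟨z, rfl⟩
    · have h1 := A.fs.det (L.τ l)
      rw [hϖ.maximalIdeal_eq, Ideal.mem_span_singleton'] at h1
      obtain ⟨c, hc⟩ := h1
      refine ⟨1, 0, -cc c, fun b hb => ?_⟩
      rw [map_sub, ed m b hb, e, map_one, Ideal.Quotient.eq.2 (hb.gw.cld _ (Or.inr (Or.inr (Or.inl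
        ⟨l, Finset.mem_union_right _ l.2, rfl⟩)))), ← map_one (Ideal.Quotient.mk b), ← map_sub,
        zero_mul, zero_add, ← sub_sub_cancel 1 (L.r (L.τ l)).det, ← hc]
      congr 1
      simp only [cc, map_sub, map_mul, map_one]
      ring
    · obtain ⟨a1, a2, e1, e2⟩ := wd_ins (Fin.append Y.G'.γ (Y.τ' m)) (Fin.castAdd r (Y.G'.iτ l)) z
      refine ⟨a2 * a1, 1, 0, fun b hb => ?_⟩
      rw [map_sub, et m b hb, et m b hb, e1, e2, e, one_mul, zero_mul, add_zero, map_sub,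
        Ideal.Quotient.eq.2 (hb.gw.tc (a1 * L.τ l) a2), Ideal.Quotient.eq.2 (hb.gw.tc a1 a2),
        mul_assoc]
  · refine (et m b hb _).trans ?_
    rw [Rg.wd_one, Fin.append_left, Y.G'.hφ]
  · rw [MvPowerSeries.isUnit_iff_constantCoeff]
    change IsUnit (constantCoeff (1 + MvPowerSeries.X _))
    rw [map_add, map_one, constantCoeff_X, add_zero]
    exact isUnit_one
  · by_cases e : b = ⊤
    · haveI : Subsingleton (Tg O ⧸ b) := e ▸ inferInstance
      exact Subsingleton.elim _ _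
    · obtain ⟨Z, a1, a2, -, -⟩ := H94.gp_of hϖ hC e hb
      exact (hY.tn m i _ Z ((Ph (Y.G'.vP (Y.τ' m)) b).comp (io O _ r)) a2
        ⟨fun o => (congrArg _ (P022G.Rg.ioC _ _ o)).trans (((A.hq m hb).c o).trans (a1.c o)),
          fun z => (congrArg _ (P022G.Rg.ioX _ _ z)).trans (((A.hq m hb).x (Sum.inl z)).trans
            (H94.std_val a1 (Y.G'.rcr r) (Fin.append Y.G'.γ (Y.τ' m)) z))⟩).1.trans (a1.t _).symm
  · change io O _ r (ψ0 S L τ n r (Y.ta i) - 2) = ψ1 S L τ n r (io O _ r (Y.ta i)) - 2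
    rw [map_sub, map_ofNat, Rg.p1io]
  · rintro _ ⟨z, rfl⟩
    exact Ideal.mem_sup_right (Ideal.subset_span ⟨l, hl, z.1, z.2, rfl⟩)
  · obtain ⟨a, a1, a2, a3⟩ := h m k
    exact ⟨a, H94.gp_of hϖ hC (ne a2) a1, a3⟩

end Vale.Agent.P022S.H56
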