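import Vale.Agent.P022S.Rw.RgalA

/-!
# P022S: the equations hold over the patched ring
-/

set_option linter.all false

noncomputable section

namespace Vale.Agent.P022S

open IsLocalRing MvPowerSeries Filter
open Vale.Agent.P022 Vale.Agent.P022S.R Vale.Agent.P022S.Loc Vale.Agent.P022S.Rg
open Vale.Agent.P027M.S (Inert mx)
open Vale.Agent.P022D.Sel (M2)
open Vale.Agent.P022D.Core (PS io y1)
open Vale.Agent.P022E.Loc (Pl)
open Vale.Agent.P022E.GW (Ov Gn)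
open Vale.Agent.P022E.As (Tg cc tt dd yy)
open Vale.Agent.P022G (Hm KI)
open Vale.Agent.P022G.Word (wd)
open Vale.Agent.P022G.Rg (ioC ioX io_max ex_hm quad_mem)
open Vale.Agent.P022G

namespace Rg

variable {O F : Type} [CommRing O] [Field F] {S : Dat O F} {L : Pl O}

theorem rcr_res [IsLocalRing O] {X : Finset ℕ} {as : ℕ} (hC : Cx S L X as) {κ : Type} {n : ℕ}
    {gk : κ → GQ} (G : Gs S L gk n) {r : ℕ} (i : Fin (n + r)) : (G.rcr r i).map S.red = 1 := by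
  refine Fin.addCases (fun i => ?_) (fun i => ?_) i
  · rw [Gs.rcr, Fin.append_left, Gs.rc, hC.ok.lift, mx, hC.rb1]
    rfl
  · rw [Gs.rcr, Fin.append_right]
    exact Matrix.map_one _ (map_zero _) (map_one _)

theorem val_of [CharP F 2] {m : ℕ} {rc : Fin m → M2 O} (e : ∀ i, (rc i).map S.red = 1)
    (γ : Fin m → GQ) {B : Type} [CommRing B] (Z : PO S B) (s : Sy m) :
    Z.π (Z.val rc γ s) = 0 := by
  rcases s with s | i
  · change Z.π (Z.t _ - Z.ι _) = 0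
    rw [map_sub, Z.rt, Z.alg, Rl86.tr_map, wm_map, funext e, wm_id, Matrix.trace_one, zero_sub,
      neg_eq_zero]
    exact CharP.cast_eq_zero F 2
  · change Z.π (Z.d _ - Z.ι _) = 0
    rw [map_sub, Z.rd, Z.alg, RingHom.map_det, RingHom.mapMatrix_apply, e, Matrix.det_one,
      sub_self]

theorem std_val {B : Type} {m : ℕ} [CommRing B] {Z : PO S B} {u : Tg O →+* B} (h : Z.Std u)
    (rc : Fin m → M2 O) (γ : Fin m → GQ) (s : Sy m) : u (vT rc γ s) = Z.val rc γ s := by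
  rcases s with s | i
  · change u (tt _ - cc _) = Z.t _ - Z.ι _
    rw [map_sub, h.t, h.c]
  · change u (dd _ - cc _) = Z.d _ - Z.ι _
    rw [map_sub, h.d, h.c]

/-- a pseudo object satisfies the relations of all trace functions -/
theorem aF_le {B σ : Type} {m : ℕ} [CommRing B] (Z : PO S B) {rc : Fin m → M2 O} (γ : Fin m → GQ)
    {e : Sy m → σ} {Ψ : PS O σ →+* B} (hc : ∀ o, Ψ (C o) = Z.ι o)
    (hx : ∀ s, Ψ (X (e s)) = Z.val rc γ s) : aF rc e ≤ RingHom.ker Ψ := fun f hf =>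
  hf B Z.ι (fun s => Ψ (X s)) Ψ ⟨Z.fin, fun w => Z.t (FreeGroup.lift γ w),
    Z.d.comp (FreeGroup.lift γ), ⟨by rw [map_one, Z.tf.one], fun g h => by
      rw [map_mul, map_mul, Z.tf.comm], fun g h => by
      rw [map_mul, map_mul, map_inv]; exact Z.tf.mul _ _⟩, fun z => by
      refine (hx z).trans ?_
      simp only [PO.val, Ut.lift_wd, MonoidHom.comp_apply, FreeGroup.lift_apply_of]⟩
    ⟨hc, fun _ => rfl⟩

variable [IsLocalRing O] {β : Type} {τ ι' : β → Type} {K : Kx O β τ ι' L.C} {n r s : ℕ}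
  {V : Type} [CommRing V]

/-- the ideal generated by `A`, the tautological relations and a power of the maximal ideal -/
def bb (Y : Pc (S := S) (n := n) K r s V) (A : Ideal (PP O n r)) (j : ℕ) :
    Ideal (S1 O τ L n S.T r) :=
  A.map (ψ1 S L τ n r) ⊔ (t0 K Y.G' r).map (io O _ r) ⊔ maximalIdeal (S1 O τ L n S.T r) ^ j

/-- a pseudo object of level `m` which controls `A` modulo the `j`-th power -/
structure Ky (Y : Pc (S := S) (n := n) K r s V) (m : ℕ) (A : Ideal (PP O n r)) (j : ℕ) {B : Type}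
    [CommRing B] (Z : PO S B) (Ψ : PP O n r →+* B) : Prop where
  cl : Z.Cl L (Finset.univ.image (Y.q m))
  hm : Hm Z.ι (Z.val (Y.G'.rcr r) (Fin.append Y.G'.γ (Y.τ' m))) (Ψ.comp (io O _ r))
  qd : ∀ i, Ψ (y1 O _ i) ^ 2 - (Z.t (Y.τq m i) - 2) * Ψ (y1 O _ i) +
    (1 - Z.t (Y.τq m i) + Z.d (Y.τq m i)) = 0
  le : RingHom.ker Ψ ≤ A ⊔ maximalIdeal (PP O n r) ^ j

variable {Y : Pc (S := S) (n := n) K r s V} {m j : ℕ} {A : Ideal (PP O n r)} {B : Type}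
  [CommRing B] {Z : PO S B} {Ψ : PP O n r →+* B}

theorem bt {f : S0 O τ L n S.T r} (hf : f ∈ t0 K Y.G' r) : io O _ r f ∈ bb Y A j :=
  Ideal.mem_sup_left (Ideal.mem_sup_right (Ideal.mem_map_of_mem _ hf))

theorem bm {f : S0 O τ L n S.T r} (hf : f ∈ maximalIdeal (S0 O τ L n S.T r) ^ j) :
    io O _ r f ∈ bb Y A j :=
  Ideal.mem_sup_right (_root_.P022G.Lk.map_pow_le _ (io_max _ r) j (Ideal.mem_map_of_mem _ hf))

theorem bm0 {f : PS O (Sy (n + r))} (hf : f ∈ maximalIdeal (PS O (Sy (n + r))) ^ j) :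
    io O _ r (ψ0 S L τ n r f) ∈ bb Y A j := by
  rw [← p1io]
  exact Ideal.mem_sup_right (_root_.P022G.Lk.map_pow_le _ p1_max j (Ideal.mem_map_of_mem _
    (_root_.P022G.Lk.map_pow_le _ (io_max _ r) j (Ideal.mem_map_of_mem _ hf))))

theorem Ky.mem (h : Ky Y m A j Z Ψ) {f : PP O n r} (hf : Ψ f = 0) :
    ψ1 S L τ n r f ∈ bb Y A j := by
  obtain ⟨x, hx, y, hy, e⟩ := Submodule.mem_sup.1 (h.le hf)
  rw [← e, map_add]
  exact add_mem (Ideal.mem_sup_left (Ideal.mem_sup_left (Ideal.mem_map_of_mem _ hx)))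
    (Ideal.mem_sup_right (_root_.P022G.Lk.map_pow_le _ p1_max j (Ideal.mem_map_of_mem _ hy)))

theorem Ky.mem0 (h : Ky Y m A j Z Ψ) {f : PS O (Sy (n + r))}
    (hf : Ψ.comp (io O _ r) f = 0) : io O _ r (ψ0 S L τ n r f) ∈ bb Y A j := by
  rw [← p1io]
  exact h.mem hf

theorem Ky.rk (h : Ky Y m A j Z Ψ) (ϖ : O) :
    (Y.rd ϖ).𝔞 ≤ A ⊔ maximalIdeal (PP O n r) ^ j :=
  (aF_le Z _ (fun o => by rw [← h.hm.c, RingHom.comp_apply, ioC])
    fun s => by rw [← h.hm.x, RingHom.comp_apply, ioX]).trans h.le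

theorem Ky.kn (h : Ky Y m A j Z Ψ) {δ f : S0 O τ L n S.T r}
    (h8 : δ * f ∈ (RingHom.ker (Ψ.comp (io O _ r))).map (ψ0 S L τ n r) ⊔ t0 K Y.G' r) :
    io O _ r δ * io O _ r f ∈ bb Y A j := by
  rw [← map_mul]
  exact (sup_le (Ideal.map_le_iff_le_comap.2 fun u hu => h.mem0 hu) fun u hu => bt hu :
    _ ≤ (bb Y A j).comap (io O _ r)) h8

theorem Ky.root (h : Ky Y m A j Z Ψ) (i : Fin r)
    (t1 : Ψ.comp (io O _ r) (Y.tn m i) = Z.t (Y.τq m i))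
    (t2 : Ψ.comp (io O _ r) (Y.dn m i) = Z.d (Y.τq m i))
    (c1 : Y.tn m i - Y.ta i ∈ maximalIdeal (PS O (Sy (n + r))) ^ j)
    (c2 : Y.dn m i - Y.da i ∈ maximalIdeal (PS O (Sy (n + r))) ^ j) :
    y1 O _ i ^ 2 - io O _ r (ψ0 S L τ n r (Y.ta i) - 2) * y1 O _ i +
      io O _ r (1 - ψ0 S L τ n r (Y.ta i) + ψ0 S L τ n r (Y.da i)) ∈ bb Y A j := by
  have h8 := h.mem (f := y1 O _ i ^ 2 - (io O _ r (Y.tn m i) - 2) * y1 O _ i +
      (1 - io O _ r (Y.tn m i) + io O _ r (Y.dn m i))) (by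
    rw [RingHom.comp_apply] at t1 t2
    rw [map_add, map_sub, map_mul, map_pow, map_add, map_sub, map_sub, map_one, map_ofNat, t1, t2]
    exact h.qd i)
  have m1 := bm0 (Y := Y) (A := A) c1
  have m2 := bm0 (Y := Y) (A := A) c2
  rw [map_add, map_sub, map_mul, map_pow, map_add, map_sub, map_sub, map_one, map_ofNat, p1io,
    p1io, p1y] at h8
  rw [map_sub, map_sub] at m1 m2
  rw [map_add, map_sub, map_sub, map_one, map_ofNat]
  exact quad_mem _ h8 m1 m2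

/-- the quotient map which belongs to `bb` -/
def mq (Y : Pc (S := S) (n := n) K r s V) (A : Ideal (PP O n r)) (j : ℕ) :
    S0 O τ L n S.T r →+* S1 O τ L n S.T r ⧸ bb Y A j :=
  (Ideal.Quotient.mk (bb Y A j)).comp (io O _ r)

theorem mq_iff {f : S0 O τ L n S.T r} : mq Y A j f = 0 ↔ io O _ r f ∈ bb Y A j :=
  Ideal.Quotient.eq_zero_iff_mem

theorem mq_t : t0 K Y.G' r ≤ RingHom.ker (mq Y A j) := fun _ hf => mq_iff.2 (bt hf)

theorem Ky.tr (h : Ky Y m A j Z Ψ) (uv : ∀ γ, K.u γ * K.v γ = 1) (l : L.C)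
    (hl : Z.t (L.τ l) = 0) : io O _ r ((DD K n S.T r).T l).trace ∈ bb Y A j := by
  rw [← mq_iff, m_tr K Y.G' _ mq_t uv l, mq_iff]
  exact h.mem0 (by
    rw [trS, ev_t (e := id) h.hm.c h.hm.x, wd_one, Fin.append_left, Y.G'.hτ, hl])

theorem Ky.one (h : Ky Y m A j Z Ψ) (uv : ∀ γ, K.u γ * K.v γ = 1) (l : L.C)
    (u1 : ∀ g, Z.t (g * L.τ l) = Z.t g) {i k : Fin (n + r)} (hik : i ≠ k) (a b : Fin 2) :
    io O _ r (ψ0 S L τ n r (dlS (Y.G'.rcr r) id i k) * ((DD K n S.T r).T l - 1) a b) ∈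
      bb Y A j :=
  mq_iff.1 (m_one K Y.G' _ mq_t uv l hik (fun w => mq_iff.2 (h.mem0 (by
    rw [map_sub, uT_val Y.G' Z _ h.hm, uT_val Y.G' Z _ h.hm, map_mul, FreeGroup.lift_apply_of,
      Fin.append_left, Y.G'.hτ, u1, sub_self]))) a b)

theorem ex_ky [CharP F 2] {X : Finset ℕ} {as : ℕ} (hC : Cx S L X as)
    {a : Ideal (Tg O)} {Z : PO S (Tg O ⧸ a)} (z1 : Z.Std (Ideal.Quotient.mk a))
    (z2 : Z.Cl L (Finset.univ.image (Y.q m))) (z3 : ∀ i, Z.π (Ideal.Quotient.mk a (yy i)) = 0)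
    (a3 : ∀ i, dd (Y.τq m i) - (1 + yy i) * (tt (Y.τq m i) - (1 + yy i)) ∈ a)
    (a4 : ∀ Ψ : PP O n r →+* Tg O ⧸ a, Hm ((Ideal.Quotient.mk a).comp MvPolynomial.C)
      (fun z => Ideal.Quotient.mk a (Y.G'.vP (Y.τ' m) z)) Ψ →
      RingHom.ker Ψ ≤ A ⊔ maximalIdeal (PP O n r) ^ j) : ∃ Ψ, Ky Y m A j Z Ψ := by
  haveI := Z.fin
  obtain ⟨Ψ, hΨ⟩ := ex_hm Z.π Z.loc ((Ideal.Quotient.mk a).comp MvPolynomial.C)
    (fun z => Ideal.Quotient.mk a (Y.G'.vP (Y.τ' m) z)) (by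
      rintro (z | i)
      · exact (congrArg Z.π (std_val z1 _ _ z)).trans (val_of (rcr_res hC Y.G') _ Z z)
      · exact z3 i)
  refine ⟨Ψ, z2, ⟨fun o => ?_, fun z => ?_⟩, fun i => ?_, a4 Ψ hΨ⟩
  · rw [RingHom.comp_apply, ioC, hΨ.c]
    exact z1.c o
  · rw [RingHom.comp_apply, ioX, hΨ.x]
    exact std_val z1 _ _ z
  · have e1 : Ψ (y1 O _ i) = Ideal.Quotient.mk a (yy i) := hΨ.x (Sum.inr i)
    have e2 := Ideal.Quotient.eq_zero_iff_mem.2 (a3 i)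
    simp only [map_sub, map_mul, map_add, map_one, z1.t, z1.d] at e2
    rw [e1]
    linear_combination e2

variable [Fintype β] [∀ b, Fintype (τ b)]

theorem del_not (hY : Y.Ok) : ∃ i k : Fin n, i ≠ k ∧
    Y.θ (io O _ r (ψ0 S L τ n r (dlS (Y.G'.rcr r) id (Fin.castAdd r i) (Fin.castAdd r k)))) ≠ 0 := by
  obtain ⟨i, k, h0, hik⟩ := hY.irr
  refine ⟨i, k, h0, fun h => hik ?_⟩
  have e3 : Y.θ.comp (io O _ r) (dlS (Y.G'.rcr r) (e0 r) (Fin.castAdd r i) (Fin.castAdd r k)) =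
      0 := by rw [← p0dl]; exact h
  rw [ev_dl (e := e0 r) hY.cf.c (fun s => hY.cf.x (e0 r s))
    fun c => h0 (Fin.castAdd_injective _ _ c), Fin.append_left, Fin.append_left] at e3
  rw [RingHom.mem_ker, ev_dl (e := id) hY.crv.hm.c hY.crv.hm.x h0]
  exact e3

theorem eq_kn [∀ b, Fintype (ι' b)] {ϖ : O} (hO : K.Ok L S ϖ) (G : Gs S L K.g n) (q : Fin r → ℕ)
    (τ' : Fin r → GQ) : (DD K n S.T r).I ≤ Kn K G r q τ' := by
  rintro f hf B _ _ _ ψ ⟨Z, h1, rfl, rfl⟩ h2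
  exact hO.eqs _ B Z h1.1 ψ h2.c (fun i => h2.x (Sum.inl i)) hf

end Rg

theorem rgalC (hK : KDEL) : RGAL := by
  intro O F _ _ _ _ _ _ _ ϖ S L X as β τ ι' _ _ _ K n G hϖ hC hO hD r s V _ _ _ _ _ _ Y ht hG hY
    _ N _ _ W H
  letI : Algebra (S0 O τ L n S.T r) (S1 O τ L n S.T r) := (io O _ r).toAlgebra
  subst hG
  have hKD := hK O F ϖ S L X as β τ ι' K n Y.G' hϖ hC hO hD r
  obtain ⟨i0, k0, h0, hδ⟩ := del_not hY
  have h0' : Fin.castAdd r i0 ≠ Fin.castAdd r k0 := fun c => h0 (Fin.castAdd_injective _ _ c)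
  obtain ⟨δ, eδ⟩ : ∃ δ : S0 O τ L n S.T r,
    δ = ψ0 S L τ n r (dlS (Y.G'.rcr r) id (Fin.castAdd r i0) (Fin.castAdd r k0)) := ⟨_, rfl⟩
  have hp : (Y.rd ϖ).𝔭.IsPrime := RingHom.ker_isPrime Y.θ
  have key : ∀ m j, ∃ (a : Ideal (Tg O)) (Z : PO S (Tg O ⧸ a)) (Ψ : PP O n r →+* Tg O ⧸ a),
      W a ∧ Z.Std (Ideal.Quotient.mk a) ∧
      Ky Y m (Module.annihilator (PP O n r) (N m)) j Z Ψ := by
    intro m j
    obtain ⟨a, ⟨Z, z1, z2, z3, -⟩, a2, a3, a4⟩ := H m j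
    obtain ⟨Ψ, h⟩ := ex_ky hC z1 z2 z3 a3 a4
    exact ⟨a, Z, Ψ, a2, z1, h⟩
  have ha : ∀ m, (Y.rd ϖ).𝔞 ≤ Module.annihilator (PP O n r) (N m) := fun m f hf =>
    P022D.PA.mem_of_sup _ _ fun j => by
      obtain ⟨a, Z, Ψ, -, -, h⟩ := key m j
      exact h.rk ϖ hf
  have kA : ∀ m j, ∀ f ∈ Kn K Y.G' r (Y.q m) (Y.τ' m),
      io O _ r δ * io O _ r f ∈ bb Y (Module.annihilator (PP O n r) (N m)) j := by
    intro m j f hf
    obtain ⟨a, Z, Ψ, -, -, h⟩ := key m j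
    rw [eδ]
    exact h.kn (hKD _ _ (hY.gn m) _ Z _ h.cl h.hm _ _ h0' f hf)
  have main : ∀ E' : Ideal (S0 O τ L n S.T r),
      (∀ f ∈ E', ∀ m j, io O _ r δ * io O _ r f ∈
        bb Y (Module.annihilator (PP O n r) (N m)) j) →
      (Y.rd ϖ).Gal ((Y.rd ϖ).E ⊔ E') (Pt.An Y.U N) := by
    intro E' hE
    refine Pt.gal_lim (Y.rd ϖ) hp p1_max Y.U N _ (Eventually.of_forall ha)
      {c | ∀ j, ∀ᶠ m in (Y.U : Filter ℕ),
        io O _ r δ * c ∈ bb Y (Module.annihilator (PP O n r) (N m)) j} ?_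
      fun c hc => ⟨io O _ r δ, eδ ▸ hδ, hc⟩
    refine sup_le (Ideal.map_le_iff_le_comap.2 (sup_le (sup_le ?_ (Ideal.span_le.2 ?_)) ?_))
      (Ideal.span_le.2 ?_)
    · exact fun f hf => Ideal.subset_span fun j => Eventually.of_forall fun m =>
        kA m j f (eq_kn hO _ _ _ hf)
    · rintro _ ⟨a, rfl⟩
      refine Ideal.subset_span fun j => (hY.cvk a j).mono fun m hn => ?_
      have h1 := sub_mem (kA m j _ (hY.kn m a)) (Ideal.mul_mem_left _ (io O _ r δ) (bm hn))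
      rwa [map_sub, ← mul_sub, sub_sub_cancel] at h1
    · exact fun f hf => Ideal.subset_span fun j => Eventually.of_forall fun m => hE f hf m j
    · rintro _ ⟨i, rfl⟩
      refine Ideal.subset_span fun j => ((hY.cvt i j).and (hY.cvd i j)).mono fun m hn => ?_
      obtain ⟨a, Z, Ψ, -, -, h⟩ := key m j
      obtain ⟨t1, t2⟩ := hY.tn m i _ Z _ h.cl h.hm
      exact Ideal.mul_mem_left _ _ (h.root i t1 t2 hn.1 hn.2)
  refine ⟨?_, fun l hl => main _ fun f hf m j => ?_, fun hX => main _ fun f hf m j => ?_⟩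
  · exact (main ⊥ fun f hf m j => by
      rw [Ideal.mem_bot.1 hf, map_zero, mul_zero]; exact zero_mem _).mono _ le_sup_left le_rfl
  · obtain ⟨c, rfl⟩ := Ideal.mem_span_singleton'.1 hf
    obtain ⟨a, Z, Ψ, h1, h2, h⟩ := key m j
    rw [map_mul]
    exact Ideal.mul_mem_left _ _ (Ideal.mul_mem_left _ _ (h.tr hO.uv l
      ((h2.t _).symm.trans (Ideal.Quotient.eq_zero_iff_mem.2 (hl a h1)))))
  · obtain ⟨a, Z, Ψ, h1, h2, h⟩ := key m j
    rw [← map_mul]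
    refine Submodule.span_induction (p := fun f _ => io O _ r (δ * f) ∈
      bb Y (Module.annihilator (PP O n r) (N m)) j) ?_ ?_ ?_ ?_ hf
    · rintro _ ⟨l, hl, a1, a2, rfl⟩
      rw [eδ]
      exact h.one hO.uv l (fun g => by
        rw [← h2.t, ← h2.t]
        exact Ideal.Quotient.eq.2 (hX a h1 l hl g)) h0' a1 a2
    · rw [mul_zero, map_zero]; exact zero_mem _
    · intro x y _ _ h1 h2
      rw [mul_add, map_add]; exact add_mem h1 h2
    · intro c x _ h1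
      rw [smul_eq_mul, mul_left_comm, map_mul]; exact Ideal.mul_mem_left _ _ h1

end Vale.Agent.P022S
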