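import Vale.Agent.P022S.Loc.All2
import Vale.Agent.P022S.Rw.Gens
import Vale.Agent.P022S.Rw.Kdel
import Vale.Agent.P022S.Rw.Crv
import Vale.Agent.P022S.Rw.Nice
import Vale.Agent.P022S.Rw.CobjH33
import Vale.Agent.P022S.Rw.Repo
import Vale.Agent.P022S.Rw.TanvH67
import Vale.Agent.P022S.Rw.Pcex
import Vale.Agent.P022S.Rw.ExqH65
import Vale.Agent.P022S.Rw.RcovH90
import Vale.Agent.P022S.Rw.Rfl
import Vale.Agent.P022S.Rw.Rgal
import Vale.Agent.P022S.Rw.Rgal0
import Vale.Agent.P022S.Rw.Rloc
import Vale.Agent.P022S.Rw.MtH96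
import Vale.Agent.P022S.Rw.Rok
import Vale.Agent.P022S.Rw.Presc
import Vale.Agent.P022S.Rw.Zed
import Vale.Agent.P022S.Rw.Seed
import Vale.Agent.P022S.Rw.FinH28
import Vale.Agent.P022S.Rw.L2xH26

/-!
# P022S: the rows of the Galois side without hypotheses
-/

set_option linter.all false

namespace Vale.Agent.P022S.A93

theorem kdel : KDEL := kdelC
theorem crv : CRV := CrvR.crv
theorem lam : LAM := CrvR.lam
theorem lam0 : LAM0 := CrvR.lam0
theorem nice : NICE := niceC
theorem typ : TYP := typC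
theorem cobj : COBJ := H33.cobjC
theorem tanv : TANV := H67.tanvC repoC
theorem pcex : PCEX := pcexC tanv lam
theorem gpw : GPW := H94.gpw
theorem gpo : GPO := H94.gpo
theorem exq : EXQ := X65.exqS gpo
theorem rcov : RCOV := H90.rcovC cobj
theorem rup : RUP := rupC rcov
theorem rgal0 : RGAL0 := rgal0C kdel rcov
theorem rgal : RGAL := rgalC kdel
theorem rca : RCA := H96.rcaC cobj
theorem rfin : RFIN := H96.rfinC cobj
theorem rok : ROK := rokC rcov rfl0 rup rgal0 rlocC rca
theorem presc : PRESC := prescC crv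
theorem connj : CONNJ := connjC crv nice
theorem seed : SEED := seedS gpw crv typ
theorem outg : OUTG := H94.outg
theorem tra : TRA := H94.tra
theorem cpk : CPK := cpkC crv nice pcex exq lam0 cobj

theorem pkg : PKG := pkgC gpw gpo cpk rgal
theorem final2 : FINAL2 := H28.final2C gpw gpo cpk rgal rcov rok rgal0 rfin

/-- **the Galois side** -/
theorem l2x : L2X :=
  L2H26.l2x Loc.locg2 gensC crv nice typ presc connj zedC seed (Jr.patch_of pkg rcov rok)
    (Jr.lower_of pkg rcov rok rca) final2 outg tra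

end Vale.Agent.P022S.A93
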