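import Vale.Agent.P022S.Rows
import Vale.Agent.P022S.Utr

/-!
# P022S: the symbols at a curve
-/

set_option linter.all false

noncomputable section

namespace Vale.Agent.P022S.B87

open MvPowerSeries Vale.Agent.P022 Vale.Agent.P022S.R Vale.Agent.P022S.Loc Vale.Agent.P022.H346
open Vale.Agent.P022D.Core (PS io)
open Vale.Agent.P022D.Sel (M2)
open Vale.Agent.P022E.Loc (Pl)
open Vale.Agent.P022G (Hm KI)
open Vale.Agent.P022G.Word (wd)
open _root_.P022G.Th (del dl del_eq)

section wm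
variable {A B : Type} [CommRing A] [CommRing B] {m : ℕ}

theorem wm_one (Z : Fin m → M2 A) (i : Fin m) : wm Z {i} = Z i := by
  rw [wm, Finset.sort_singleton]
  simp

theorem wm_lt (Z : Fin m → M2 A) {i k : Fin m} (h : i < k) : wm Z {i, k} = Z i * Z k := by
  rw [wm, Finset.sort_insert _ (by simpa using h.le) (by simpa using h.ne), Finset.sort_singleton]
  simp

theorem wm_two (Z : Fin m → M2 A) {i k : Fin m} (h : i ≠ k) :
    (wm Z {i, k}).trace = (Z i * Z k).trace := by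
  rcases h.lt_or_gt with h | h
  · rw [wm_lt Z h]
  · rw [Finset.pair_comm, wm_lt Z h, Matrix.trace_mul_comm]

theorem wm_map (f : A →+* B) (Z : Fin m → M2 A) (s : Finset (Fin m)) :
    (wm Z s).map f = wm (fun i => (Z i).map f) s := by
  change f.mapMatrix (wm Z s) = _
  rw [wm, map_list_prod, List.map_map]
  rfl

theorem tr_map (f : A →+* B) (W : M2 A) : f W.trace = (W.map f).trace := by
  simp [Matrix.trace_fin_two]

theorem det_map (f : A →+* B) (W : M2 A) : f W.det = (W.map f).det := RingHom.map_det f W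

theorem del_map (f : A →+* B) (W W' : M2 A) : f (del W W') = del (W.map f) (W'.map f) := by
  rw [del, del, det_map, Matrix.map_sub _ (map_sub f), Matrix.map_mul, Matrix.map_mul]

/-- a map which sends the symbols to traces and determinants -/
theorem dl_val {O σ : Type} [CommRing O] (rc : Fin m → M2 O) (e : Sy m → σ) (f : PS O σ →+* B)
    (Z : Fin m → M2 B) (h1 : ∀ s, f (tS rc e s) = (wm Z s).trace)
    (h2 : ∀ i, f (dS rc e i) = (Z i).det) {i k : Fin m} (h : i ≠ k) :
    f (dlS rc e i k) = del (Z i) (Z k) := by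
  rw [del_eq, ← wm_two Z h, ← h1, ← h2, ← h2, ← wm_one Z i, ← wm_one Z k, ← h1, ← h1]
  simp only [dlS, dl, trS, tr2, map_sub, map_add, map_mul, map_pow, map_ofNat]

theorem hm_t {O σ : Type} [CommRing O] {rc : Fin m → M2 O} {e : Sy m → σ} {j : O →+* B}
    {v : σ → B} {f : PS O σ →+* B} (h : Hm j v f) {t : Finset (Fin m) → B} {d : Fin m → B}
    (hv : ∀ z, v (e z) = gv rc j t d z) :
    (∀ s, f (tS rc e s) = t s) ∧ ∀ i, f (dS rc e i) = d i :=
  ⟨fun s => by rw [tS, map_add, h.c, h.x, hv]; exact add_sub_cancel _ _,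
    fun i => by rw [dS, map_add, h.c, h.x, hv]; exact add_sub_cancel _ _⟩

theorem d_unit {O σ : Type} [CommRing O] {rc : Fin m → M2 O} (hu : ∀ i, IsUnit (rc i).det)
    (e : Sy m → σ) (i : Fin m) : IsUnit (dS rc e i) := by
  rw [isUnit_iff_constantCoeff, dS, map_add, constantCoeff_C, constantCoeff_X, add_zero]
  exact hu i

/-- the universal relations hold for all trace functions -/
theorem aT_le {O σ : Type} [CommRing O] {rc : Fin m → M2 O} (hu : ∀ i, IsUnit (rc i).det)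
    (e : Sy m → σ) : Ut.aT (tS rc e) (fun i => (d_unit hu e i).unit) ≤ aF rc e := by
  rintro f hf B _ j v ψ ⟨-, t, d, T, hv⟩ h
  exact (Ut.spec T FreeGroup.of ψ (hm_t h hv).1 (hm_t h hv).2).1 hf

end wm

variable {O F : Type} [CommRing O] [Field F] {S : Dat O F} {L : Pl O} {β : Type}
  {τ ι' : β → Type} {K : Kx O β τ ι' L.C} {n : ℕ}

theorem rc_unit (G : Gs S L K.g n) (i : Fin n) : IsUnit (G.rc i).det :=
  (Matrix.isUnit_iff_isUnit_det _).1 ((Group.isUnit (G.γ i)).map L.r)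

theorem rcr_unit (G : Gs S L K.g n) (r : ℕ) (i : Fin (n + r)) : IsUnit (G.rcr r i).det := by
  refine Fin.addCases (fun i => ?_) (fun i => ?_) i
  · rw [Gs.rcr, Fin.append_left]; exact rc_unit G i
  · rw [Gs.rcr, Fin.append_right, Matrix.det_one]; exact isUnit_one

theorem ZS_unit (G : Gs S L K.g n) (r : ℕ) (i : Fin (n + r)) : IsUnit (ZS K G r i) := by
  rw [Matrix.isUnit_iff_isUnit_det, isUnit_iff_constantCoeff, det_map]
  have e : (ZS K G r i).map constantCoeff = G.rcr r i := by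
    ext a b
    simp [ZS]
  rw [e]
  exact rcr_unit G r i

theorem psi_t (G : Gs S L K.g n) (r : ℕ) (s : Finset (Fin (n + r))) :
    ψ1 S L τ n r (tS (G.rcr r) Sum.inl s) = io O _ r (tS (G.rcr r) (e0 r) s) := by
  change rename _ _ = rename (Function.Embedding.inl : _ ↪ V0 τ L n S.T r ⊕ Fin r) _
  simp only [tS, map_add, rename_C, rename_X]
  rfl

theorem psi_d (G : Gs S L K.g n) (r : ℕ) (i : Fin (n + r)) :
    ψ1 S L τ n r (dS (G.rcr r) Sum.inl i) = io O _ r (dS (G.rcr r) (e0 r) i) := by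
  change rename _ _ = rename (Function.Embedding.inl : _ ↪ V0 τ L n S.T r ⊕ Fin r) _
  simp only [dS, map_add, rename_C, rename_X]
  rfl

theorem t0_t (G : Gs S L K.g n) (r : ℕ) (s : Finset (Fin (n + r))) :
    tS (G.rcr r) (e0 r) s - (wm (ZS K G r) s).trace ∈ t0 K G r :=
  Ideal.subset_span (Or.inl (Or.inl (Or.inl ⟨s, rfl⟩)))

theorem t0_d (G : Gs S L K.g n) (r : ℕ) (i : Fin (n + r)) :
    dS (G.rcr r) (e0 r) i - (ZS K G r i).det ∈ t0 K G r :=
  Ideal.subset_span (Or.inl (Or.inl (Or.inr ⟨i, rfl⟩)))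

theorem t0_k (G : Gs S L K.g n) (r : ℕ) (i : Ix τ L) :
    X (Sum.inl i) - κS K G r i ∈ t0 K G r :=
  Ideal.subset_span (Or.inl (Or.inr ⟨i, rfl⟩))

theorem t0_a (G : Gs S L K.g n) (r : ℕ) (p : Fin 2 × Fin 2) :
    (αS τ L n S.T r S.l0 - 1) p.1 p.2 ∈ t0 K G r :=
  Ideal.subset_span (Or.inr ⟨p, rfl⟩)

variable {r s : ℕ} {V : Type} [CommRing V]

/-- the universal matrices on the framed curve -/
theorem cf_Z {G : Gs S L K.g n} {j : O →+* V} {ρ : GQ →* GL (Fin 2) V}
    {θ : S0 O τ L n S.T r →+* V} (h : Cf K G r j ρ θ) (i : Fin (n + r)) :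
    (ZS K G r i).map θ = (ρ (Fin.append G.γ (fun _ => 1) i) : M2 V) := by
  ext a b
  rw [Matrix.map_apply, ZS, Matrix.of_apply, map_add, h.c, h.x]
  exact add_sub_cancel _ _

variable [IsLocalRing O] [Fintype β] [∀ b, Fintype (τ b)] {Y : Pc (S := S) (n := n) K r s V}

/-- two generators which are irreducible on the curve -/
theorem ex_del (h : Y.Ok) : ∃ i k : Fin n, i ≠ k ∧
    Y.θ (io O _ r (del (ZS K Y.G' r (Fin.castAdd r i)) (ZS K Y.G' r (Fin.castAdd r k)))) ≠ 0 := by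
  obtain ⟨i, k, hik, e⟩ := h.irr
  refine ⟨i, k, hik, fun e' => e ?_⟩
  have k1 := hm_t (e := id) h.crv.hm fun _ => rfl
  rw [RingHom.mem_ker, dl_val _ _ _ _ k1.1 k1.2 hik, ← e']
  change _ = (Y.θ.comp (io O _ r)) _
  rw [del_map, cf_Z h.cf, cf_Z h.cf, Fin.append_left, Fin.append_left]

end Vale.Agent.P022S.B87
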