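import Vale.Agent.P022S.Rw.GpoH94
import Vale.Agent.P022S.Mod.La
import Vale.Agent.P022S.Mod.Dp3

/-! # P022S: the denominator lies outside the chosen surfaces -/

set_option linter.all false

open IsLocalRing NumberField MvPowerSeries

noncomputable section

namespace Vale.Agent.P022S.H99D

open Vale.Agent.P022 Vale.Agent.P022S.R Vale.Agent.P022S.Loc
open Vale.Agent.P022D.Core (PS Coef)
open Vale.Agent.P022D.PA (Base Cv)
open Vale.Agent.P022E.As (Tg cc tt dd yy mT)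
open Vale.Agent.P022E.Loc (Pl)
open Vale.Agent.P022E.GW (Ov Gn)
open Vale.Agent.P022G.Mod (Ph Kr Lm ph_hm mem_Kr)
open Vale.Agent.P022G.Chain (Pd)
open Vale.Agent.P022S.Mod (GS La)

variable {O F : Type} [CommRing O] [IsDomain O] [IsDiscreteValuationRing O] [Coef O] [Field F]
  [CharP F 2] {S : Dat O F} {L : Pl O} {X : Finset ℕ} {as : ℕ} {ϖ : O}
  {κ : Type} {gk : κ → GQ} {n : ℕ} (G : Gs S L gk n)

theorem kr_eq (hϖ : Irreducible ϖ) (hC : Cx S L X as) :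
    Kr (GS ϖ L S.T ∅ 0) (Ph (vT G.rc G.γ)) = G.aP :=
  Ideal.ext fun f => mem_Kr.trans (H94.mem_aP G hϖ hC f).symm

/-- the lifts of the traces are universal traces -/
theorem lam_tu (hϖ : Irreducible ϖ) (hC : Cx S L X as) {lam : Tg O →+* PS O (Sy n)}
    (l : Lm (GS ϖ L S.T ∅ 0) (Ph (vT G.rc G.γ)) lam) {tu : GQ → PS O (Sy n)} (hu : G.Tu tu)
    (g : GQ) : tu g - lam (tt g) ∈ G.aP := by
  refine (H94.mem_aP G hϖ hC _).2 fun a ha => ?_
  by_cases e : a = ⊤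
  · haveI : Subsingleton (Tg O ⧸ a) := e ▸ inferInstance
    exact Subsingleton.elim _ _
  · obtain ⟨Z, a1, a2, -, -⟩ := H94.gp_of hϖ hC e ha
    obtain ⟨m, hm⟩ := (H94.fs hϖ hC).nil ha.gw
    have k := ph_hm hm (H94.vA_mem G)
    rw [map_sub, l a ha, hu _ Z _ a2
      ⟨fun o => (k.c o).trans (a1.c o), fun s => (k.x s).trans (H94.std_val a1 _ _ s)⟩ g, a1.t,
      sub_self]

theorem odd_q (hC : Cx S L X as) {q : ℕ} {τ' : GQ} (h : q ∉ S.T ∧ ∃ P, Ov q P ∧ Gn q P τ') :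
    Odd q := by
  obtain ⟨h1, P, h2, -⟩ := h
  refine h2.1.odd_of_ne_two fun e => h1 ?_
  rw [e, hC.ok.hT]
  simp

/-- **the denominator** -/
theorem den (hϖ : Irreducible ϖ) (hC : Cx S L X as) {σ : Type} [Fintype σ] [Base (PS O σ)]
    [Base (PS O (Sy n))] {r : ℕ} {q : ℕ → Fin r → ℕ} {v : ℕ → σ → Tg O}
    {jr : PS O σ →+* PS O (Sy n)} {ey : Fin r → σ} {lam : ℕ → Tg O →+* PS O σ}
    (A : La ϖ L S.T q v (vT G.rc G.γ) jr ey lam) (hs : Function.Surjective jr)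
    (hq : ∀ m i, Odd (q m i)) {tu : GQ → PS O (Sy n)} (hu : G.Tu tu) {E : Ideal (PS O (Sy n))}
    (hE : Pd (G.aP ⊔ Ideal.span {C ϖ}) 2 E) {φ : ℕ → Fin r → GQ} {e : ℕ}
    (hφ : ∀ m i, tu (φ m i) ∉ E ⊔ maximalIdeal (PS O (Sy n)) ^ e) {U : Ultrafilter ℕ} {c : ℕ}
    {d : PS O σ} (hd : Cv (U : Filter ℕ) (P022G.Mod.DD lam q φ c) d) : jr d ∉ E := by
  obtain ⟨lam₀, l, -⟩ := A.lv.fs.lam0 A.lv.fm0 (H94.vA_mem G)
  have e1 : G.aP ≤ E := le_sup_left.trans hE.2.1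
  have e2 : (C ϖ : PS O (Sy n)) ∈ E :=
    hE.2.1 (Ideal.mem_sup_right (Ideal.mem_span_singleton_self _))
  haveI := IsLocalHom.of_surjective jr hs
  refine Mod.dpV (lam := lam₀) (fun z hz => map_nonunit jr z hz) hE.1 ?_
    (fun m t => e1 (kr_eq G hϖ hC ▸ A.jrK l m t)) hq (e := e) (fun m i k => hφ m i ?_) hd
  · have h2 : (2 : O) ∈ Ideal.span {ϖ} := hϖ.maximalIdeal_eq ▸ Coef.two
    obtain ⟨w, hw⟩ := Ideal.mem_span_singleton.1 h2
    rw [← map_ofNat (C : O →+* PS O (Sy n)) 2, hw, map_mul]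
    exact E.mul_mem_right _ e2
  · have := add_mem (Ideal.mem_sup_left (e1 (lam_tu G hϖ hC l hu (φ m i)))) k
    rwa [sub_add_cancel] at this

end Vale.Agent.P022S.H99D
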