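import Vale.Agent.P022S.Rw.ExqH65
import Vale.Agent.P022S.Rw.Wm86
import Vale.Agent.P022S.Mod.Lv
import Vale.Agent.P022S.Pt.Fin
import Vale.Agent.P022G.Rw.RgalA

/-!
# P022S: the symbols at a curve
-/

set_option linter.all false

noncomputable section

namespace Vale.Agent.P022S.H79

open NumberField IsLocalRing MvPowerSeries Filter
open Vale.Agent.P022 Vale.Agent.P022S.R Vale.Agent.P022S.Loc
open Vale.Agent.P022D.Sel (M2)
open Vale.Agent.P022D.Core (PS Coef io y1)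
open Vale.Agent.P022D.PA (Base Cv)
open Vale.Agent.P022E.Loc (Pl)
open Vale.Agent.P022E.As (Tg cc tt dd yy mT)
open Vale.Agent.P022G (Hm subL resJ)
open Vale.Agent.P022G.Word (wd)
open Vale.Agent.P022G.Mod (Fm Kr Ph Lm Gd ph_hm mem_Kr hm_ext)
open Vale.Agent.P022S.Mod (GS Fs Ax Lv La A0 vS gq mem_A0)

section jr
variable {O F : Type} [CommRing O] [Field F] {S : Dat O F} {L : Pl O} {κ : Type} {gk : κ → GQ}
  {n : ℕ} {G : Gs S L gk n} {r : ℕ}

theorem rcr_eq (G : Gs S L gk n) (r : ℕ) :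
    G.rcr r = fun i => L.r (Fin.append G.γ (fun _ : Fin r => 1) i) := funext fun i => by
  induction i using Fin.addCases with
  | left i => rw [Gs.rcr, Fin.append_left, Fin.append_left]; rfl
  | right i => rw [Gs.rcr, Fin.append_right, Fin.append_right, map_one]

theorem wm_rcr (G : Gs S L gk n) (r : ℕ) (s : Finset (Fin (n + r))) :
    wm (G.rcr r) s = wm G.rc (Finset.univ.filter fun i => Fin.castAdd r i ∈ s) := by
  rw [rcr_eq, Wm.wm_hom, Mod.wd_append, ← Wm.wm_hom]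
  rfl

theorem vT_eq {m : ℕ} (c γ : Fin m → GQ) (z : Sy m) :
    vT (fun i => L.r (c i)) γ z = Sum.elim (fun s => tt (wd γ s) - cc (L.r (wd c s)).trace)
      (fun i => dd (γ i) - cc (L.r (c i)).det) z := by
  rcases z with s | i
  · change tt _ - MvPolynomial.C (wm _ s).trace = _
    rw [Wm.wm_hom]
    rfl
  · rfl

variable {jr : PP O n r →+* PS O (Sy n)} (h : Hm C (G.jv r) jr)
include h

theorem jr_t (s : Finset (Fin (n + r))) : jr (tS (G.rcr r) Sum.inl s) =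
    tS G.rc id (Finset.univ.filter fun i => Fin.castAdd r i ∈ s) :=
  Wm.gv_t h.c (fun z => h.x (Sum.inl z)) s

theorem jr_d (i : Fin n) : jr (dS (G.rcr r) Sum.inl (Fin.castAdd r i)) = dS G.rc id i :=
  (Wm.gv_d h.c (fun z => h.x (Sum.inl z)) _).trans (Fin.append_left _ _ i)

theorem jr_ins (i : Fin n) (s : Finset (Fin (n + r))) :
    jr (tS (G.rcr r) Sum.inl (insert (Fin.castAdd r i) s) -
      tS (G.rcr r) Sum.inl (s.erase (Fin.castAdd r i))) =
    tS G.rc id (insert i (Finset.univ.filter fun i => Fin.castAdd r i ∈ s)) -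
      tS G.rc id ((Finset.univ.filter fun i => Fin.castAdd r i ∈ s).erase i) := by
  rw [map_sub, jr_t h, jr_t h]
  refine congrArg₂ (fun a b => tS G.rc id a - tS G.rc id b) (Finset.ext fun k => ?_)
    (Finset.ext fun k => ?_)
  · simp only [Finset.mem_filter, Finset.mem_univ, true_and, Finset.mem_insert,
      Fin.castAdd_inj]
  · simp only [Finset.mem_filter, Finset.mem_univ, true_and, Finset.mem_erase, ne_eq,
      Fin.castAdd_inj]

theorem jr_tr (i : Fin n) : jr (trS (G.rcr r) Sum.inl (Fin.castAdd r i)) = trS G.rc id i := by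
  rw [trS, jr_t h]
  refine congrArg (tS G.rc id) (Finset.ext fun k => ?_)
  simp only [Finset.mem_filter, Finset.mem_univ, true_and, Finset.mem_singleton, Fin.castAdd_inj]

theorem jr_tr2 (i k : Fin n) :
    jr (tr2 (G.rcr r) Sum.inl (Fin.castAdd r i) (Fin.castAdd r k)) = tr2 G.rc id i k := by
  rw [tr2, jr_t h]
  refine congrArg (tS G.rc id) (Finset.ext fun k => ?_)
  simp only [Finset.mem_filter, Finset.mem_univ, true_and, Finset.mem_singleton, Finset.mem_insert,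
    Fin.castAdd_inj]

theorem tau_up (i : Fin n) {Z : Ideal (PS O (Sy n))} (hz : tauP G.rc id i ⊆ Z) :
    tauP (G.rcr r) (Sum.inl : _ → Sy (n + r) ⊕ Fin r) (Fin.castAdd r i) ⊆
      ((Z.comap jr : Ideal (PP O n r)) : Set (PP O n r)) := by
  rintro u (rfl | ⟨s, rfl⟩) <;> change jr _ ∈ Z
  · rw [map_sub, map_one, jr_d h]; exact hz (Or.inl rfl)
  · rw [jr_ins h]; exact hz (Or.inr ⟨_, rfl⟩)

theorem tau_dn (i : Fin n) {u : PS O (Sy n)} (hu : u ∈ tauP G.rc id i) :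
    ∃ v ∈ tauP (G.rcr r) (Sum.inl : _ → Sy (n + r) ⊕ Fin r) (Fin.castAdd r i), jr v = u := by
  rcases hu with rfl | ⟨s, rfl⟩
  · exact ⟨_, Or.inl rfl, by rw [map_sub, map_one, jr_d h]⟩
  · refine ⟨_, Or.inr ⟨s.map (Fin.castAddEmb r), rfl⟩, (jr_ins h _ _).trans ?_⟩
    have e : (Finset.univ.filter fun i => Fin.castAdd r i ∈ s.map (Fin.castAddEmb r)) = s :=
      Finset.ext fun k => (Finset.mem_filter.trans (and_iff_right (Finset.mem_univ _))).trans
        (Finset.mem_map' (Fin.castAddEmb r))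
    rw [e]

theorem ip_iff (J : Finset L.C) (p : Ideal (PS O (Sy n))) :
    IPt (G.rcr r) Sum.inl (fun l => Fin.castAdd r (G.iτ l)) (fun l => Fin.castAdd r (G.iφ l)) J ≤
      p.comap jr ↔ IPt G.rc id G.iτ G.iφ J ≤ p := by
  constructor
  · intro k
    refine Ideal.span_le.2 ?_
    rintro u (⟨l, hl, rfl | rfl | rfl⟩ | ⟨l, hl, hu⟩)
    · rw [← jr_tr h]; exact k (Ideal.subset_span (Or.inl ⟨l, hl, Or.inl rfl⟩))
    · rw [← jr_tr h]; exact k (Ideal.subset_span (Or.inl ⟨l, hl, Or.inr (Or.inl rfl)⟩))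
    · rw [← jr_tr2 h]; exact k (Ideal.subset_span (Or.inl ⟨l, hl, Or.inr (Or.inr rfl)⟩))
    · obtain ⟨v, a, rfl⟩ := tau_dn h _ hu
      exact k (Ideal.subset_span (Or.inr ⟨l, hl, a⟩))
  · intro k
    refine Ideal.span_le.2 ?_
    rintro u (⟨l, hl, rfl | rfl | rfl⟩ | ⟨l, hl, hu⟩)
    · change jr _ ∈ p
      rw [jr_tr h]; exact k (Ideal.subset_span (Or.inl ⟨l, hl, Or.inl rfl⟩))
    · change jr _ ∈ p
      rw [jr_tr h]; exact k (Ideal.subset_span (Or.inl ⟨l, hl, Or.inr (Or.inl rfl)⟩))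
    · change jr _ ∈ p
      rw [jr_tr2 h]; exact k (Ideal.subset_span (Or.inl ⟨l, hl, Or.inr (Or.inr rfl)⟩))
    · exact tau_up h _ (fun v hv => k (Ideal.subset_span (Or.inr ⟨l, hl, hv⟩))) hu

theorem jx1 (s : Finset (Fin (n + r))) : jr (X (Sum.inl (Sum.inl s))) =
    X (Sum.inl (Finset.univ.filter fun i => Fin.castAdd r i ∈ s)) := by
  rw [h.x]
  change tS _ _ _ - C (wm (G.rcr r) s).trace = _
  rw [wm_rcr, tS, add_sub_cancel_left]
  rfl

theorem jx2 (i : Fin n) : jr (X (Sum.inl (Sum.inr (Fin.castAdd r i)))) = X (Sum.inr i) := by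
  rw [h.x]
  change Fin.append (dS G.rc id) (fun _ : Fin r => 1) (Fin.castAdd r i) -
    C (Fin.append G.rc (fun _ : Fin r => 1) (Fin.castAdd r i)).det = _
  rw [Fin.append_left, Fin.append_left, dS, add_sub_cancel_left]
  rfl

theorem jx3 (i : Fin r) : jr (X (Sum.inl (Sum.inr (Fin.natAdd n i)))) = 0 := by
  rw [h.x]
  change Fin.append (dS G.rc id) (fun _ : Fin r => 1) (Fin.natAdd n i) -
    C (Fin.append G.rc (fun _ : Fin r => 1) (Fin.natAdd n i)).det = _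
  rw [Fin.append_right, Fin.append_right, Matrix.det_one, map_one, sub_self]

end jr

section mul
variable {O : Type} [CommRing O] {L : Pl O} {β : Type} {τ ι' : β → Type}

theorem mX_eq (K : Kx O β τ ι' L.C) (X : Finset ℕ) (J : Finset L.C) :
    mX K X J = P022E.As.mul2 (fun l => K.a (P022G.Fin.inc L X l))
      (fun l => K.a' (P022G.Fin.inc L X l)) (resJ X J) := by
  classical
  unfold mX Vale.Agent.P022D.As.mul2
  symm
  refine Finset.prod_bij (fun l _ => P022G.Fin.inc L X l) (fun l _ => ?_) (fun a _ b _ e => ?_)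
    (fun l hl => ?_) fun l _ => ?_
  · exact Finset.mem_filter.2 ⟨Finset.mem_univ _, (Finset.mem_sdiff.1 l.2).2⟩
  · exact Subtype.ext (congrArg (fun x : L.C => (x : ℕ)) e)
  · exact ⟨⟨l.1, Finset.mem_sdiff.2 ⟨l.2, (Finset.mem_filter.1 hl).2⟩⟩, Finset.mem_univ _, rfl⟩
  · by_cases c : l ∈ resJ X J
    · rw [if_pos c, if_pos (P022G.Fin.mem_res.1 c)]
    · rw [if_neg c, if_neg fun k => c (P022G.Fin.mem_res.2 k)]

end mul

variable {O F : Type} [CommRing O] [IsDomain O] [IsDiscreteValuationRing O] [Coef O] [Field F]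
  [CharP F 2] {ϖ : O} {S : Dat O F} {L : Pl O} {X : Finset ℕ} {as : ℕ}

theorem ax (hC : Cx S L X as) : Ax L X := fun l hl =>
  have hm : l ∈ L.W ∪ L.C := Finset.mem_union_right _ (hC.sub hl)
  ⟨(hC.ok.pr l hm).1, (hC.ok.hP l hm).1, (hC.ok.hP l hm).2, (hC.ok.tm l hm).tau,
    hC.unr l (hC.ok.pr l hm).1 (Or.inr hl) _ (hC.ok.hP l hm).1 (hC.ok.hP l hm).2 _
      (hC.ok.tm l hm).tau⟩

theorem xT (hC : Cx S L X as) : X ⊆ S.T := fun l hl => by
  rw [hC.ok.hT]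
  exact Finset.mem_insert_of_mem (Finset.mem_insert_of_mem
    (Finset.mem_union_right _ (hC.sub hl)))

/-- the two rows on pseudo objects -/
structure Fc (ϖ : O) (S : Dat O F) (L : Pl O) : Prop where
  fs : Fs ϖ L S.T
  gpw : ∀ (Q : Finset ℕ) (r : ℕ) (a : Ideal (Tg O)), a ≠ ⊤ → Mod.Gs ϖ L S.T Q r a → Gp S L Q r a
  ker : ∀ (B : Type) [CommRing B] (Z : PO S B) (u : Tg O →+* B), Z.Std u → Z.Cl L ∅ →
    (∀ i, u (yy i) = 0) → Mod.Gs ϖ L S.T ∅ 0 (RingHom.ker u)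

section lev0
variable (H : Fc ϖ S L) {κ : Type} {gk : κ → GQ} {n : ℕ} (G : Gs S L gk n)
include H

theorem Fc.kr : Kr (GS ϖ L S.T ∅ 0) (Ph (vT G.rc G.γ)) ≤ G.aP := by
  rintro x hx B _ j v ψ ⟨Z, hZ, rfl, rfl⟩ h
  obtain ⟨u, a1, a2⟩ := X65.ex_std Z
  have a3 := H.ker B Z u a1 hZ a2
  rw [X65.br G H.fs Z a1 a3 h, RingHom.comp_apply, mem_Kr.1 hx _ a3, map_zero]

theorem Fc.tu {tu : GQ → PS O (Sy n)} (hu : G.Tu tu) {lam : Tg O →+* PS O (Sy n)}
    (l : Lm (GS ϖ L S.T ∅ 0) (Ph (vT G.rc G.γ)) lam) (g : GQ) : lam (tt g) - tu g ∈ G.aP := by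
  rintro B _ j v ψ ⟨Z, hZ, rfl, rfl⟩ h
  obtain ⟨u, a1, a2⟩ := X65.ex_std Z
  have a3 := H.ker B Z u a1 hZ a2
  rw [map_sub, hu B Z ψ hZ h, X65.br G H.fs Z a1 a3 h, RingHom.comp_apply, l _ a3,
    RingHom.kerLift_mk, a1.t, sub_self]

theorem Fc.an {N : Type} [AddCommGroup N] [Module (Tg O) N] (g : Gd (GS ϖ L S.T ∅ 0) N) :
    A0 (vT G.rc G.γ) N = G.An N := by
  refine le_antisymm ?_ fun f hf => mem_A0.2 fun w => ?_
  · rintro f hf B _ j v ψ ⟨w, Z, u, a1, a2, rfl, rfl⟩ h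
    have a3 : RingHom.ker u ∈ GS ϖ L S.T ∅ 0 := a2 ▸ g w
    have a4 : Ph (vT G.rc G.γ) (RingHom.ker u) f = 0 := a2 ▸ mem_A0.1 hf w
    rw [X65.br G H.fs Z a1 a3 h, RingHom.comp_apply, a4, map_zero]
  · by_cases e : Ideal.torsionOf (Tg O) N w = ⊤
    · haveI := Ideal.Quotient.subsingleton_iff.2 e
      exact Subsingleton.elim _ _
    obtain ⟨Z, a1, -⟩ := H.gpw ∅ 0 _ e (g w)
    exact hf _ _ _ _ ⟨w, Z, _, a1, Ideal.mk_ker, rfl, rfl⟩ (Sd.hz G H.fs (g w) Z a1)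

end lev0

end Vale.Agent.P022S.H79
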