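import Vale.Agent.P022S.Rw.LowerH72
import Vale.Agent.P022S.Rw.RdH56
import Vale.Agent.P022S.Mod.Pkg
import Vale.Agent.P022S.Rows2

/-!
# P022S: the row `FINAL2`
-/

set_option linter.all false

noncomputable section

namespace Vale.Agent.P022S.H72

open IsLocalRing MvPowerSeries
open Vale.Agent.P022 Vale.Agent.P022S.R Vale.Agent.P022S.Loc
open Vale.Agent.P022D.Core (PS io y1 Coef)
open Vale.Agent.P022D.PA (lim)
open Vale.Agent.P022E.Loc (Pl)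
open Vale.Agent.P022E.As (Tg mul2)
open Vale.Agent.P022G (Hm subL resJ)
open Vale.Agent.P022G.Chain (Pd)
open Vale.Agent.P022G.Fin (inc mem_res)
open Vale.Agent.P022S.Mod (gd_of gm_sub Ax)
open Vale.Agent.P022S.Mp (fc_of ex_la)

theorem mX_eq {O : Type} [CommRing O] {L : Pl O} {β : Type} {τ ι' : β → Type}
    (K : Kx O β τ ι' L.C) (X : Finset ℕ) (J : Finset L.C) :
    mX K X J = mul2 (fun l => K.a (inc L X l)) (fun l => K.a' (inc L X l)) (resJ X J) := by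
  classical
  unfold mX mul2
  symm
  refine Finset.prod_bij (fun l _ => inc L X l) (fun l _ => ?_) (fun a _ b _ e => ?_)
    (fun l hl => ?_) fun l _ => ?_
  · exact Finset.mem_filter.2 ⟨Finset.mem_univ _, (Finset.mem_sdiff.1 l.2).2⟩
  · exact Subtype.ext (congrArg (fun x : L.C => (x : ℕ)) e)
  · exact ⟨⟨l.1, Finset.mem_sdiff.2 ⟨l.2, (Finset.mem_filter.1 hl).2⟩⟩, Finset.mem_univ _, rfl⟩
  · by_cases c : l ∈ resJ X J
    · rw [if_pos c, if_pos (mem_res.1 c)]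
    · rw [if_neg c, if_neg fun k => c (mem_res.2 k)]

/-- a finite family of surfaces -/
theorem fam {A κ : Type} [CommRing A] [Finite κ] {Q : Ideal A → Prop} {C0 : Ideal A} (h0 : Q C0)
    {c : κ → Prop} {R : κ → Ideal A → Prop} (h : ∀ J, c J → ∃ E, Q E ∧ R J E) :
    ∃ σ : Finset (Ideal A), C0 ∈ σ ∧ (∀ E ∈ σ, Q E) ∧ ∀ J, c J → ∃ E ∈ σ, R J E := by
  choose f f1 f2 using h
  have hf : (insert C0 (Set.range fun J : {J // c J} => f J.1 J.2)).Finite :=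
    (Set.finite_range _).insert _
  refine ⟨hf.toFinset, hf.mem_toFinset.2 (Or.inl rfl), fun E hE => ?_, fun J hJ =>
    ⟨_, hf.mem_toFinset.2 (Or.inr ⟨⟨J, hJ⟩, rfl⟩), f2 J hJ⟩⟩
  rcases hf.mem_toFinset.1 hE with rfl | ⟨J, rfl⟩
  · exact h0
  · exact f1 _ _

theorem final2C (hW : GPW) (hO : GPO) (hP : CPK) (hG : RGAL) (hV : RCOV) (hR : ROK) (h0 : RGAL0)
    (hF : RFIN) : FINAL2 := by
  intro O F _ _ _ _ _ _ _ ϖ S L X as β τ ι' _ _ _ K n G hϖ hC hK hK' Sf I Y0 W0 _ _ _ _ ses ig ib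
    iJ e1 hD Z C0 p z1 z2 z3 z4 z5 z6 z7 hp hf hE
  have e3 : Sf.T ⊆ S.T := e1 ▸ Finset.sdiff_subset
  have hI := z6.2.1.trans z7
  have hπ : C ϖ ∈ p := hI (Ideal.mem_sup_right (Ideal.mem_span_singleton_self _))
  obtain ⟨σ, s1, s2, s3⟩ := fam (Q := fun E => Pd (G.aP ⊔ Ideal.span {C ϖ}) 2 E ∧ E ≤ p) ⟨z6, z7⟩
    (c := fun J : Finset L.C => (∀ a ∈ J, (a : ℕ) ∉ X) ∧ G.IT ϖ J ≤ p)
    (R := fun J E => Pd (G.IT ϖ J) 2 E ∧ G.An (Y0 (iJ (resJ X J))) ≤ E) fun J hJ => by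
      obtain ⟨E, k1, k2, k3⟩ := hE J hJ.1 hJ.2
      exact ⟨E, ⟨⟨k1.1, le_sup_left.trans k1.2.1, k1.2.2⟩, k2⟩, k1, k3⟩
  obtain ⟨r, s, V, _, _, _, _, _, _, Y, a1, rfl, a3, rfl, b, c, φ, Yb, Wc, Pb, _, _, _, _, _, _,
    W, d1, d2, -, tu, e, hu, hφ⟩ := hP O F ϖ S L X as β τ ι' K n G hϖ hC hK hK' False (subL L X) Sf
      I Y0 W0 ses ig ib iJ e3 hD p σ hp (le_sup_left.trans hI) hπ hf s2
  haveI := P022D.As.base O (Sy (n + r) ⊕ Fin r)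
  haveI := P022D.As.base O (Sy n)
  haveI := P022D.As.base O (V0 τ L n S.T r)
  haveI := P022D.As.base O (V0 τ L n S.T r ⊕ Fin r)
  letI : Algebra (S0 O τ L n S.T r) (S1 O τ L n S.T r) := (io O _ r).toAlgebra
  have H := fc_of hW hO O F ϖ S L X as β τ ι' K n Y.G' hϖ hC hK hK'
  obtain ⟨lam, A⟩ := ex_la H a3
  obtain ⟨d, hd⟩ := lim _ Y.U (P022G.Mod.DD lam Y.q φ c)
  have dp : ∀ E ∈ σ, Y.jr d ∉ E := fun E k =>
    A.dp hu (s2 E k).1.1 (s2 E k).1.2.1 (fun m i => hφ m i E k) hd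
  have hX : Ax L X := fun l hl => by
    have hm : l ∈ L.W ∪ L.C := Finset.mem_union_right _ (hC.sub hl)
    have q := hC.ok.hP l hm
    exact ⟨(hC.ok.pr l hm).1, q.1, q.2, (hC.ok.tm l hm).tau,
      hC.unr l (hC.ok.pr l hm).1 (Or.inr hl) _ q.1 q.2 _ (hC.ok.tm l hm).tau⟩
  have hXT : X ⊆ S.T := fun l hl => by
    rw [hC.ok.hT]
    exact Finset.mem_insert_of_mem (Finset.mem_insert_of_mem
      (Finset.mem_union_right _ (hC.sub hl)))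
  obtain ⟨-, -, -, c1, c2, -⟩ := hV O F ϖ S L X as β τ ι' K n _ hϖ hC hK hK' r s V Y a1 rfl a3
  obtain ⟨f1, f2⟩ := hF O F ϖ S L X as β τ ι' K n _ hϖ hC hK hK' r s V Y a1 rfl a3
  have an : ∀ {N : Type} [AddCommGroup N] [Module (Tg O) N],
      P022E.As.Gm ϖ (subL L X) Sf.T ∅ 0 N → Mod.Dm O Sf.T ∅ N →
      Y.G'.An N = Mod.A0 (Mp.vA Y.G') N := fun g1 g2 => H.an_eq Y.G' (gd_of (gm_sub hX
        (fun _ _ => Finset.notMem_empty _) (e1 ▸ g1) (e1 ▸ g2)) (g2.up e3))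
  rw [an hD.gmW hD.dmW]
  refine H78.final A.la (H56.pc_rd hG hϖ hC hK hK' a1 a3 A.la.lv) hX hXT e1 hD W d1 d2 hd
    (lz a3.jr c1 c2) (hR O F ϖ S L X as β τ ι' K n _ hϖ hC hK hK' r s V Y a1 rfl a3)
    (m := mX K X) (fun l => (hK.ok Unit).odd (inc L X l)) (fun l => (hK.ok Unit).odd' (inc L X l))
    (mX_eq K X) f1 f2 z1 (z5.trans z7) z2 ?_ (fun k => dp _ s1 (z5 k))
    ((h0 O F ϖ S L X as β τ ι' K n _ hϖ hC hK hK' r s V Y a1 rfl a3).2 _ (Ideal.comap_mono z2)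
      fun l hl => tau_le a3.jr _ (z3 l hl)) fun J j1 j2 => ?_
  · change Y.jr (C ϖ) ∉ Z
    rwa [a3.jr.c]
  · obtain ⟨E, k0, k1, k2⟩ := s3 J ⟨j1, sup_le hI j2⟩
    exact ⟨E, gp a3.jr k1 (s2 E k0).2 (dp E k0), k1.2.2, le_sup_right.trans k1.2.1,
      an (hD.gm0 _) (hD.dm0 _) ▸ k2⟩

end Vale.Agent.P022S.H72
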