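import Vale.Agent.P022S.Rw.GpoH94
import Vale.Agent.P022S.Mod.Lv
import Vale.Agent.P022S.Pt.Fin

/-!
# P022S: the variables and the rings at a curve
-/

set_option linter.all false

open IsLocalRing Filter MvPowerSeries NumberField

noncomputable section

namespace Vale.Agent.P022S.H3

open Vale.Agent.P022 Vale.Agent.P022S.R Vale.Agent.P022S.Loc Vale.Agent.P022S.Mod
open Vale.Agent.P022G (Hm subL)
open Vale.Agent.P022G.Mod (Fm Gd Ph Kr mem_Kr Hq)
open Vale.Agent.P022G.Word (wd)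
open Vale.Agent.P022E.As (Tg cc tt dd yy mT ev0)
open Vale.Agent.P027M.S (Inert)
open Vale.Agent.P022D.Core (PS io y1 Coef)
open Vale.Agent.P022D.PA (Base Cv)
open Vale.Agent.P022D.As.EA (cv_map)
open Vale.Agent.P022E.Loc (Pl)

theorem wd_split {G : Type} [Group G] {m : ℕ} (γ : Fin m → G) (i : Fin m) (s : Finset (Fin m)) :
    ∃ A B : G, wd γ (insert i s) = A * γ i * B ∧ wd γ (s.erase i) = A * B := by
  have e : ((insert i s).erase i).sort (· ≤ ·) =
      ((insert i s).sort (· ≤ ·)).filter fun a => a ≠ i := by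
    refine Eq.trans ?_ ((List.toFinset_sort (· ≤ ·) ((Finset.sort_nodup _ _).filter _)).2
      ((Finset.pairwise_sort _ _).filter _))
    refine congrArg (fun u : Finset (Fin m) => u.sort (· ≤ ·)) (Finset.ext fun j => ?_)
    simp only [List.mem_toFinset, List.mem_filter, Finset.mem_sort, Finset.mem_erase,
      decide_eq_true_eq, and_comm]
  rw [Finset.erase_insert_eq_erase] at e
  obtain ⟨a, b, h⟩ := List.append_of_mem
    ((Finset.mem_sort (· ≤ ·)).2 (Finset.mem_insert_self i s))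
  have n := Finset.sort_nodup (insert i s) (· ≤ ·)
  rw [h, List.nodup_middle, List.nodup_cons] at n
  refine ⟨(a.map γ).prod, (b.map γ).prod, by rw [wd, h]; simp [mul_assoc], ?_⟩
  have f : ∀ c : List (Fin m), i ∉ c → (c.filter fun a => a ≠ i) = c := fun c hc =>
    List.filter_eq_self.2 fun x hx => decide_eq_true fun k => hc (k ▸ hx)
  rw [wd, e, h, List.filter_append, List.filter_cons_of_neg (by simp),
    f a fun k => n.1 (List.mem_append_left _ k), f b fun k => n.1 (List.mem_append_right _ k),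
    List.map_append, List.prod_append]

variable {O F : Type} [CommRing O] [IsDomain O] [IsDiscreteValuationRing O] [Coef O] [Field F]
  [CharP F 2] {ϖ : O} {S : Dat O F} {L : Pl O} {X : Finset ℕ} {as : ℕ}

theorem ax (hC : Cx S L X as) : Ax L X := fun l hl =>
  have m : l ∈ L.W ∪ L.C := Finset.mem_union_right _ (hC.sub hl)
  ⟨(hC.ok.pr l m).1, (hC.ok.hP l m).1, (hC.ok.hP l m).2, (hC.ok.tm l m).tau,
    hC.unr l (hC.ok.pr l m).1 (Or.inr hl) _ (hC.ok.hP l m).1 (hC.ok.hP l m).2 _ (hC.ok.tm l m).tau⟩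

theorem xT (hC : Cx S L X as) : X ⊆ S.T := fun l hl => by
  rw [hC.ok.hT]
  exact Finset.mem_insert_of_mem (Finset.mem_insert_of_mem (Finset.mem_union_right _ (hC.sub hl)))

section gs
variable {κ : Type} {gk : κ → GQ} {n : ℕ} (G : Gs S L gk n)

theorem rcr_eq (r : ℕ) : G.rcr r = fun j => L.r (Fin.append G.γ (fun _ : Fin r => 1) j) :=
  funext fun j => by
    induction j using Fin.addCases with
    | left i => rw [Gs.rcr, Fin.append_left, Fin.append_left]; rfl
    | right i => rw [Gs.rcr, Fin.append_right, Fin.append_right, map_one]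

theorem vT_eq {m : ℕ} (c γ : Fin m → GQ) (s : Sy m) :
    vT (fun i => L.r (c i)) γ s = vS L c γ s := by
  rcases s with s | s
  · exact congrArg (fun M : P022D.Sel.M2 O => tt (wd γ s) - cc M.trace) (H94.wm_r L.r c s)
  · rfl

theorem kr_eq (hϖ : Irreducible ϖ) (hC : Cx S L X as) :
    Kr (GS ϖ L S.T ∅ 0) (Ph (vT G.rc G.γ)) = G.aP :=
  Ideal.ext fun f => mem_Kr.trans (H94.mem_aP G hϖ hC f).symm

theorem an_eq (hϖ : Irreducible ϖ) (hC : Cx S L X as) {N : Type} [AddCommGroup N]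
    [Module (Tg O) N] (g : Gd (GS ϖ L S.T ∅ 0) N) : A0 (vT G.rc G.γ) N = G.An N :=
  Ideal.ext fun f => mem_A0.trans (H94.mem_An G hϖ hC g f).symm

end gs

variable {β : Type} {τ ι' : β → Type} [Fintype β] [∀ b, Fintype (τ b)] {K : Kx O β τ ι' L.C}
  {n r s : ℕ} {V : Type} [CommRing V] {Y : Pc (S := S) (n := n) K r s V}
  [Base (PP O n r)] [Base (PS O (Sy n))]

/-- the variables of level `m` -/
abbrev vv (Y : Pc (S := S) (n := n) K r s V) (m : ℕ) : Sy (n + r) ⊕ Fin r → Tg O :=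
  Y.G'.vP (Y.τ' m)

/-- **the variables at a curve** -/
theorem pc_lv (hϖ : Irreducible ϖ) (hC : Cx S L X as) (hY : Y.Ok) :
    Lv ϖ L S.T Y.q (vv Y) (vT Y.G'.rc Y.G'.γ) Y.jr Sum.inr := by
  refine lv_of (H94.fs hϖ hC) Y.G'.γ Y.G'.gen1 (fun m => Y.G'.gen r _ _ (hY.gn m))
    (fun m i => ?_) Sum.inl Sum.inr id (fun z => ?_) (fun z => ⟨z, rfl⟩) (fun m z => ?_)
    (fun _ _ => rfl) (vT_eq _ _) hY.jr.c (fun z => ?_) (fun i => ?_) (fun i => ?_)
    fun i => hY.jr.x _
  · obtain ⟨a, P, b, c⟩ := hY.gn m i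
    exact ⟨_, P, b.1, a, b.2.1, b.2.2, c.1⟩
  · rcases z with z | z
    exacts [Or.inl ⟨z, rfl⟩, Or.inr ⟨z, rfl⟩]
  · rw [← vT_eq, ← rcr_eq]; rfl
  · rw [hY.jr.x]
    change tS _ _ _ - C (wm (Y.G'.rcr r) z).trace = _
    rw [rcr_eq, H94.wm_r, wd_append, tS, ← H94.wm_r]
    exact add_sub_cancel_left _ _
  · rw [hY.jr.x]
    change Fin.append (dS Y.G'.rc id) (fun _ => 1) _ - C (Y.G'.rcr r _).det = _
    rw [Gs.rcr, Fin.append_left, Fin.append_left]
    exact add_sub_cancel_left _ _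
  · rw [hY.jr.x]
    change Fin.append (dS Y.G'.rc id) (fun _ => 1) _ - C (Y.G'.rcr r _).det = _
    rw [Gs.rcr, Fin.append_right, Fin.append_right, Matrix.det_one, map_one, sub_self]

section ent
variable {m : ℕ} {b : Ideal (Tg O)} (h : Hq (vv Y m) b (Ph (vv Y m) b))
include h

theorem ph_t (z : Finset (Fin (n + r))) : Ph (vv Y m) b (tS (Y.G'.rcr r) Sum.inl z) =
    Ideal.Quotient.mk b (tt (wd (Fin.append Y.G'.γ (Y.τ' m)) z)) := by
  rw [tS, map_add, h.c, h.x, RingHom.comp_apply, ← map_add]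
  exact congrArg _ (add_sub_cancel _ _)

theorem ph_d (i : Fin (n + r)) : Ph (vv Y m) b (dS (Y.G'.rcr r) Sum.inl i) =
    Ideal.Quotient.mk b (dd (Fin.append Y.G'.γ (Y.τ' m) i)) := by
  rw [dS, map_add, h.c, h.x, RingHom.comp_apply, ← map_add]
  exact congrArg _ (add_sub_cancel _ _)

end ent

/-- **the rings at a curve** -/
theorem pc_rd [Finite F] [∀ b, Fintype (ι' b)] [IsDomain V] [IsDiscreteValuationRing V] [CharP V 2]
    [IsAdicComplete (maximalIdeal V) V] [Finite (ResidueField V)] (hG : RGAL)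
    (hϖ : Irreducible ϖ) (hC : Cx S L X as) (k1 : K.Ok L S ϖ) (k2 : K.Det L S)
    (ht : Irreducible Y.t) (hY : Y.Ok) :
    letI : Algebra (S0 O τ L n S.T r) (S1 O τ L n S.T r) := (io O _ r).toAlgebra
    H78.Rd ϖ S.T Y.q (vv Y) (vT Y.G'.rc Y.G'.γ) Y.jr Sum.inr Y.τq Y.U (Y.rd ϖ) X
      (fun l => (Y.rd ϖ).E ⊔ Ideal.span {((DD K n S.T r).T l).trace})
      ((Y.rd ϖ).E ⊔ EU K n S.T r X) := by
  letI : Algebra (S0 O τ L n S.T r) (S1 O τ L n S.T r) := (io O _ r).toAlgebra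
  have H := pc_lv hϖ hC hY
  refine ⟨rfl, Ideal.comap_mono (kr_eq _ hϖ hC).le, ?_, fun m i => (hY.gn m i).1, hY.ine, hY.hU,
    fun l t k m => ?_, fun l m b hb => ?_, fun i => MvPowerSeries.rename_X _ _, fun i => ?_,
    fun i => ⟨fun m => io O _ r (Y.tn m i), io O _ r (Y.ta i), fun m b hb => ?_,
      cv_map (io O _ r) (fun z hz h => hz (P022D.As.EB.io_unit h)) (hY.cvt i), ?_⟩,
    fun _ => le_sup_left, le_sup_left, fun l hl => ?_, fun N _ _ W h => ?_⟩
  · have := Finset.card_pos.2 ⟨_, S.hl0⟩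
    change 4 * S.T.card + 2 * r + 1 = 4 * S.T.card - 1 + _
    omega
  · rcases k with rfl | ⟨z, rfl⟩
    · have e := H.fs.det (L.τ l)
      rw [hϖ.maximalIdeal_eq] at e
      obtain ⟨c, hc⟩ := Ideal.mem_span_singleton'.1 e
      refine ⟨1, 0, -cc c, fun b hb => ?_⟩
      rw [map_sub, ph_d (H.hq m hb), Fin.append_left, Y.G'.hτ, map_one, Ideal.Quotient.eq.2
        (hb.gw.cld _ (Or.inr (Or.inr (Or.inl ⟨l, Finset.mem_union_right _ l.2, rfl⟩)))),
        zero_mul, zero_add, neg_mul, show (cc c * cc ϖ : Tg O) = 1 - cc (L.r (L.τ l)).det by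
          rw [← map_one (MvPolynomial.C : O →+* Tg O)]
          exact (map_mul MvPolynomial.C c ϖ).symm.trans
            ((congrArg _ hc).trans (map_sub MvPolynomial.C _ _)), neg_sub, map_sub, map_one]
    · obtain ⟨A, B, e1, e2⟩ :=
        wd_split (Fin.append Y.G'.γ (Y.τ' m)) (Fin.castAdd r (Y.G'.iτ l)) z
      refine ⟨B * A, 1, 0, fun b hb => ?_⟩
      rw [map_sub, ph_t (H.hq m hb), ph_t (H.hq m hb), e1, e2, Fin.append_left, Y.G'.hτ,
        Ideal.Quotient.eq.2 (hb.gw.tc _ B), Ideal.Quotient.eq.2 (hb.gw.tc A B), one_mul, zero_mul,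
        add_zero, map_sub, mul_assoc]
  · refine (ph_t (H.hq m hb) _).trans ?_
    rw [wd_one, Fin.append_left, Y.G'.hφ]
  · change IsUnit (1 + y1 O _ i)
    rw [MvPowerSeries.isUnit_iff_constantCoeff, map_add, map_one, y1,
      MvPowerSeries.constantCoeff_X, add_zero]
    exact isUnit_one
  · have k := H.hq m hb
    by_cases e : b = ⊤
    · haveI := Ideal.Quotient.subsingleton_iff.2 e
      exact Subsingleton.elim _ _
    obtain ⟨Z, a1, a2, -⟩ := H94.gp_of hϖ hC e hb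
    refine ((hY.tn m i _ Z ((Ph (vv Y m) b).comp (io O _ r)) a2 ⟨fun o => ?_, fun z => ?_⟩).1).trans
      (a1.t _).symm
    · exact (congrArg (Ph (vv Y m) b) (MvPowerSeries.rename_C _ o)).trans ((k.c o).trans (a1.c o))
    · exact (congrArg (Ph (vv Y m) b) (MvPowerSeries.rename_X _ z)).trans
        ((k.x _).trans (H94.std_val a1 _ _ z))
  · have e1 : ψ1 S L τ n r (io O _ r (Y.ta i)) = io O _ r (ψ0 S L τ n r (Y.ta i)) :=
      (MvPowerSeries.rename_rename _ _ _).trans (MvPowerSeries.rename_rename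
        (e0 r : Sy (n + r) ↪ V0 τ L n S.T r)
        (Function.Embedding.inl : V0 τ L n S.T r ↪ V0 τ L n S.T r ⊕ Fin r) (Y.ta i)).symm
    change io O _ r (ψ0 S L τ n r (Y.ta i) - 2) = ψ1 S L τ n r (io O _ r (Y.ta i)) - 2
    rw [e1, map_sub, map_ofNat]
  · rintro _ ⟨z, rfl⟩
    exact Ideal.mem_sup_right (Ideal.subset_span ⟨l, hl, z.1, z.2, rfl⟩)
  · refine hG O F ϖ S L X as β τ ι' K n Y.G' hϖ hC k1 k2 r s V Y ht rfl hY N W fun m k => ?_
    obtain ⟨a, a1, a2, a3⟩ := h m k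
    refine ⟨a, H94.gp_of hϖ hC (fun e => ?_) a1, a3⟩
    have c : ev0 L.r 1 ∈ maximalIdeal O := a2 (e ▸ Submodule.mem_top : (1 : Tg O) ∈ a)
    rw [map_one] at c
    exact c isUnit_one

end Vale.Agent.P022S.H3
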