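import Vale.Agent.P022S.Mod.Pkg
import Vale.Agent.P022S.Rw.LvP
import Vale.Agent.P022S.Rw.Jr
import Vale.Agent.P022S.Rows2

/-!
# P022S: the last step
-/

set_option linter.all false

open IsLocalRing Filter MvPowerSeries NumberField

noncomputable section

namespace Vale.Agent.P022S.H77

open Vale.Agent.P022 Vale.Agent.P022S.R Vale.Agent.P022S.Loc Vale.Agent.P022S.Mp
open Vale.Agent.P022S.Mod (gd_of gm_sub)
open Vale.Agent.P022G (subL resJ)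
open Vale.Agent.P022G.Fin (inc mem_res)
open Vale.Agent.P022G.Chain (Pd)
open Vale.Agent.P022E.As (mul2)
open Vale.Agent.P022E.Loc (Pl)
open Vale.Agent.P022D.Core (PS io)
open Vale.Agent.P022D.PA (lim)

theorem mX_eq {O : Type} [CommRing O] {L : Pl O} {β : Type} {τ ι' : β → Type}
    (K : Kx O β τ ι' L.C) (X : Finset ℕ) (J : Finset L.C) :
    mX K X J = mul2 (fun l => K.a (inc L X l)) (fun l => K.a' (inc L X l)) (resJ X J) := by
  classical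
  unfold mX mul2
  symm
  refine Finset.prod_bij (fun l _ => inc L X l) (fun l _ => ?_) (fun a _ b _ e => ?_)
    (fun l hl => ?_) fun l _ => ?_
  · exact Finset.mem_filter.2 ⟨Finset.mem_univ _, (Finset.mem_sdiff.1 l.2).2⟩
  · exact Subtype.ext (congrArg (fun x : L.C => (x : ℕ)) e)
  · exact ⟨⟨l.1, Finset.mem_sdiff.2 ⟨l.2, (Finset.mem_filter.1 hl).2⟩⟩, Finset.mem_univ _, rfl⟩
  · by_cases c : l ∈ resJ X J
    · rw [if_pos c, if_pos (mem_res.1 c)]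
    · rw [if_neg c, if_neg fun k => c (mem_res.2 k)]

/-- **FINAL2** -/
theorem final2C (h2 : GPW) (h3 : GPO) (hC : CPK) (hG : RGAL) (hV : RCOV) (hR : ROK) (h0 : RGAL0)
    (hF : RFIN) : FINAL2 := by
  classical
  intro O F _ _ _ _ _ _ _ ϖ S L X as β τ ι' _ _ _ K n G hϖ hy hK hK' Sf I Y0 W0 _ _ _ _ ses ig ib
    iJ e1 hD Z C0 p z0 z1 z2 z3 z4 z5 z6 hp hf hE
  choose! E hE1 hE2 hE3 using hE
  have e3 : Sf.T ⊆ S.T := e1 ▸ Finset.sdiff_subset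
  have hI := z5.2.1.trans z6
  let σ : Finset (Ideal (PS O (Sy n))) := insert C0 ((Finset.univ.filter fun J : Finset L.C =>
    (∀ a ∈ J, (a : ℕ) ∉ X) ∧ G.IT ϖ J ≤ p).image E)
  have hσ : ∀ E ∈ σ, Pd (G.aP ⊔ Ideal.span {C ϖ}) 2 E ∧ E ≤ p := fun E' h => by
    rcases Finset.mem_insert.1 h with rfl | h
    · exact ⟨z5, z6⟩
    · obtain ⟨J, hJ, rfl⟩ := Finset.mem_image.1 h
      have k := (Finset.mem_filter.1 hJ).2
      exact ⟨Jr.pd (hE1 J k.1 k.2), hE2 J k.1 k.2⟩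
  obtain ⟨r, s, V, _, _, _, _, _, _, Y, a1, rfl, a3, rfl, b, c, φ, Yb, Wc, Pb, _, _, _, _, _, _,
    W, d1, d2, -, tu, e, hu, hφ⟩ := hC O F ϖ S L X as β τ ι' K n G hϖ hy hK hK' False (subL L X) Sf
      I Y0 W0 ses ig ib iJ e3 hD p σ hp (le_sup_left.trans hI)
      (hI (Ideal.mem_sup_right (Ideal.mem_span_singleton_self _))) hf hσ
  haveI := P022D.As.base O (Sy n)
  haveI := P022D.As.base O (Sy (n + r) ⊕ Fin r)
  haveI := P022D.As.base O (V0 τ L n S.T r)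
  haveI := P022D.As.base O (V0 τ L n S.T r ⊕ Fin r)
  letI : Algebra (S0 O τ L n S.T r) (S1 O τ L n S.T r) := (io O _ r).toAlgebra
  have H := fc_of h2 h3 O F ϖ S L X as β τ ι' K n Y.G' hϖ hy hK hK'
  obtain ⟨lam, A⟩ := ex_la H a3
  obtain ⟨d, hd⟩ := lim _ Y.U (P022G.Mod.DD lam Y.q φ c)
  have dp : ∀ E ∈ σ, Y.jr d ∉ E := fun E h =>
    A.dp hu (hσ E h).1.1 (hσ E h).1.2.1 (fun m i => hφ m i E h) hd
  obtain ⟨-, -, -, c1, c2, -⟩ := hV O F ϖ S L X as β τ ι' K n _ hϖ hy hK hK' r s V Y a1 rfl a3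
  obtain ⟨l1, l2⟩ := hF O F ϖ S L X as β τ ι' K n _ hϖ hy hK hK' r s V Y a1 rfl a3
  have hX := H3.ax hy
  have gd := fun (N : Type) [AddCommGroup N] [Module (P022E.As.Tg O) N]
      (k1 : P022E.As.Gm ϖ (subL L X) Sf.T ∅ 0 N) (k2 : Mod.Dm O Sf.T ∅ N) =>
    H.an_eq Y.G' (gd_of (gm_sub hX (fun _ _ => Finset.notMem_empty _) (e1 ▸ k1) (e1 ▸ k2))
      (k2.up e3))
  rw [gd W0 hD.gmW hD.dmW]
  refine H78.final A.la (H3.pc_rd hG hϖ hy hK hK' a1 a3) hX (H3.xT hy) e1 hD W d1 d2 hd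
    (Jr.lz a3.jr c1 c2) (hR O F ϖ S L X as β τ ι' K n _ hϖ hy hK hK' r s V Y a1 rfl a3)
    (fun l => (hK.ok Unit).odd (inc L X l)) (fun l => (hK.ok Unit).odd' (inc L X l))
    (mX_eq K X) l1 l2 z0 (z4.trans z6) z1 ((a3.jr.c ϖ).symm ▸ z3)
    (fun k => dp C0 (Finset.mem_insert_self _ _) (z4 k))
    ((h0 O F ϖ S L X as β τ ι' K n _ hϖ hy hK hK' r s V Y a1 rfl a3).2 _
      (Ideal.comap_mono z1) fun l hl => Jr.tau_le a3.jr _ (z2 l hl)) fun J hJ k => ?_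
  have k' : Y.G'.IT ϖ J ≤ RingHom.ker Y.θA := sup_le hI k
  have m : E J ∈ σ := Finset.mem_insert_of_mem (Finset.mem_image_of_mem E
    (Finset.mem_filter.2 ⟨Finset.mem_univ _, hJ, k'⟩))
  exact ⟨E J, Jr.gp a3.jr (hE1 J hJ k').1 (hσ _ m).1.2.1 (hE2 J hJ k') (dp _ m),
    (hE1 J hJ k').2.2, le_sup_right.trans (hE1 J hJ k').2.1,
    gd _ (hD.gm0 _) (hD.dm0 _) ▸ hE3 J hJ k'⟩

end Vale.Agent.P022S.H77
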