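import Vale.Agent.P022S.Rw.Pkg0
import Vale.Agent.P022S.Pt.Lz
import Vale.Agent.P022D.As.Cov

/-!
# P022S: the rows `PATCH` and `LOWER` from the package at a curve
-/

set_option linter.all false

noncomputable section

namespace Vale.Agent.P022S.H72

open IsLocalRing MvPowerSeries
open Vale.Agent.P022 Vale.Agent.P022S.R Vale.Agent.P022S.Loc
open Vale.Agent.P022D.Core (PS io y1 Coef)
open Vale.Agent.P022E.Loc (Pl)
open Vale.Agent.P022E.As (Tg)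
open Vale.Agent.P022G (Hm)
open Vale.Agent.P022G.Chain (Pd)

variable {O F : Type} [CommRing O] [Field F] {S : Dat O F} {L : Pl O}

/-- the letters of level zero in a word -/
def fl {n : ℕ} (r : ℕ) (s : Finset (Fin (n + r))) : Finset (Fin n) :=
  Finset.univ.filter fun i => Fin.castAdd r i ∈ s

theorem mem_fl {n r : ℕ} {s : Finset (Fin (n + r))} {i : Fin n} :
    i ∈ fl r s ↔ Fin.castAdd r i ∈ s := by
  rw [fl, Finset.mem_filter]
  exact ⟨fun h => h.2, fun h => ⟨Finset.mem_univ _, h⟩⟩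

theorem ca_iff {n r : ℕ} {i k : Fin n} : Fin.castAdd r i = Fin.castAdd r k ↔ i = k :=
  (Fin.castAdd_injective n r).eq_iff

theorem fl_ins {n r : ℕ} (i : Fin n) (s : Finset (Fin (n + r))) :
    fl r (insert (Fin.castAdd r i) s) = insert i (fl r s) := by
  ext k
  rw [mem_fl, Finset.mem_insert, Finset.mem_insert, mem_fl, ca_iff]

theorem fl_er {n r : ℕ} (i : Fin n) (s : Finset (Fin (n + r))) :
    fl r (s.erase (Fin.castAdd r i)) = (fl r s).erase i := by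
  ext k
  rw [mem_fl, Finset.mem_erase, Finset.mem_erase, mem_fl, Ne, Ne, ca_iff]

theorem fl_one {n r : ℕ} (i : Fin n) : fl r {Fin.castAdd r i} = {i} := by
  ext k
  rw [mem_fl, Finset.mem_singleton, Finset.mem_singleton, ca_iff]

theorem fl_map {n : ℕ} (r : ℕ) (s : Finset (Fin n)) : fl r (s.map (Fin.castAddEmb r)) = s := by
  ext k
  rw [mem_fl]
  exact Finset.mem_map' (Fin.castAddEmb r)

section sym
variable {κ : Type} {n : ℕ} {gk : κ → GQ} {G : Gs S L gk n} {r : ℕ}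
  {jr : PP O n r →+* PS O (Sy n)} (h : Hm C (G.jv r) jr)
include h

theorem jr_t (s : Finset (Fin (n + r))) : jr (tS (G.rcr r) Sum.inl s) = tS G.rc id (fl r s) := by
  rw [tS, map_add, h.c, h.x]
  exact add_sub_cancel _ _

theorem jr_d (i : Fin n) : jr (dS (G.rcr r) Sum.inl (Fin.castAdd r i)) = dS G.rc id i := by
  rw [dS, map_add, h.c, h.x]
  exact (add_sub_cancel _ _).trans (Fin.append_left _ _ i)

theorem jr_tr (i : Fin n) : jr (trS (G.rcr r) Sum.inl (Fin.castAdd r i)) = trS G.rc id i := by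
  rw [trS, jr_t h, fl_one, trS]

theorem jr_tr2 (i k : Fin n) :
    jr (tr2 (G.rcr r) Sum.inl (Fin.castAdd r i) (Fin.castAdd r k)) = tr2 G.rc id i k := by
  rw [tr2, jr_t h, fl_ins, fl_one, tr2]

theorem tau_le (i : Fin n) {Z : Ideal (PS O (Sy n))} (hZ : tauP G.rc id i ⊆ Z) :
    tauP (G.rcr r) Sum.inl (Fin.castAdd r i) ⊆
      ((Z.comap jr : Ideal (PP O n r)) : Set (PP O n r)) := by
  rintro u (rfl | ⟨s, rfl⟩)
  · rw [SetLike.mem_coe, Ideal.mem_comap, map_sub, map_one, jr_d h]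
    exact hZ (Or.inl rfl)
  · rw [SetLike.mem_coe, Ideal.mem_comap, map_sub, jr_t h, jr_t h, fl_ins, fl_er]
    exact hZ (Or.inr ⟨_, rfl⟩)

theorem tau_ge (i : Fin n) {Z : Ideal (PS O (Sy n))}
    (hZ : tauP (G.rcr r) Sum.inl (Fin.castAdd r i) ⊆
      ((Z.comap jr : Ideal (PP O n r)) : Set (PP O n r))) : tauP G.rc id i ⊆ Z := by
  rintro u (rfl | ⟨s, rfl⟩)
  · have := hZ (Or.inl rfl)
    rwa [SetLike.mem_coe, Ideal.mem_comap, map_sub, map_one, jr_d h] at this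
  · have := hZ (Or.inr ⟨s.map (Fin.castAddEmb r), rfl⟩)
    rwa [SetLike.mem_coe, Ideal.mem_comap, map_sub, jr_t h, jr_t h, fl_ins, fl_er, fl_map] at this

/-- the equations of a type -/
theorem ip_iff (J : Finset L.C) (Z : Ideal (PS O (Sy n))) :
    IPt (G.rcr r) Sum.inl (fun l => Fin.castAdd r (G.iτ l)) (fun l => Fin.castAdd r (G.iφ l)) J ≤
      Z.comap jr ↔ IPt G.rc id G.iτ G.iφ J ≤ Z := by
  rw [IPt, IPt, Ideal.span_le, Ideal.span_le]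
  constructor
  · rintro H u (⟨l, hl, rfl | rfl | rfl⟩ | ⟨l, hl, hu⟩)
    · rw [← jr_tr h]; exact H (Or.inl ⟨l, hl, Or.inl rfl⟩)
    · rw [← jr_tr h]; exact H (Or.inl ⟨l, hl, Or.inr (Or.inl rfl)⟩)
    · rw [← jr_tr2 h]; exact H (Or.inl ⟨l, hl, Or.inr (Or.inr rfl)⟩)
    · exact tau_ge h _ (fun v hv => H (Or.inr ⟨l, hl, hv⟩)) hu
  · rintro H u (⟨l, hl, rfl | rfl | rfl⟩ | ⟨l, hl, hu⟩)
    · rw [SetLike.mem_coe, Ideal.mem_comap, jr_tr h]; exact H (Or.inl ⟨l, hl, Or.inl rfl⟩)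
    · rw [SetLike.mem_coe, Ideal.mem_comap, jr_tr h]
      exact H (Or.inl ⟨l, hl, Or.inr (Or.inl rfl)⟩)
    · rw [SetLike.mem_coe, Ideal.mem_comap, jr_tr2 h]
      exact H (Or.inl ⟨l, hl, Or.inr (Or.inr rfl)⟩)
    · exact tau_le h _ (fun v hv => H (Or.inr ⟨l, hl, hv⟩)) hu

end sym

section
variable {β : Type} {τ ι' : β → Type} {K : Kx O β τ ι' L.C} {n r s : ℕ} {V : Type} [CommRing V]
  {Y : Pc (S := S) (n := n) K r s V} {ϖ : O}

/-- the projection to level zero at a curve -/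
theorem lz (hj : Hm C (Y.G'.jv r) Y.jr) (hp : (Y.rd ϖ).p0 = (RingHom.ker Y.θA).comap Y.jr)
    (hs : Function.Surjective Y.jr) :
    Pt.Lz (Y.rd ϖ) Y.jr (RingHom.ker Y.θA) Y.G'.aP (IPt Y.G'.rc id Y.G'.iτ Y.G'.iφ) :=
  ⟨hs, hp, le_rfl, fun J Z _ => ip_iff hj J Z⟩

theorem gp (hj : Hm C (Y.G'.jv r) Y.jr) {J : Finset L.C} {E : Ideal (PS O (Sy n))} {d : PP O n r}
    (h1 : Pd (Y.G'.IT ϖ J) 2 E) (h2 : E ≤ RingHom.ker Y.θA) (h3 : Y.jr d ∉ E) :
    Pt.Gp (Y.rd ϖ) Y.jr (RingHom.ker Y.θA) Y.G'.aP d E :=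
  ⟨h1.1, h2, le_sup_left.trans (le_sup_left.trans h1.2.1), by
    change Y.jr (C ϖ) ∈ E
    rw [hj.c]
    exact h1.2.1 (Ideal.mem_sup_left (Ideal.mem_sup_right (Ideal.mem_span_singleton_self _))), h3⟩

end

theorem two {A : Type} [CommRing A] [DecidableEq (Ideal A)] {I J J' p E E' : Ideal A}
    (hE : Pd (I ⊔ J) 2 E) (hE' : Pd (I ⊔ J') 2 E') (h1 : E ≤ p) (h2 : E' ≤ p) :
    ∀ B ∈ ({E, E'} : Finset (Ideal A)), Pd I 2 B ∧ B ≤ p := by
  intro B hB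
  rcases Finset.mem_insert.1 hB with rfl | hB
  · exact ⟨⟨hE.1, le_sup_left.trans hE.2.1, hE.2.2⟩, h1⟩
  · rw [Finset.mem_singleton.1 hB]
    exact ⟨⟨hE'.1, le_sup_left.trans hE'.2.1, hE'.2.2⟩, h2⟩

theorem patchC (hP : PKG) (hV : RCOV) (hR : ROK) : PATCH := by
  intro O F _ _ _ _ _ _ _ ϖ S L X as β τ ι' _ _ _ K n G hϖ hC hK hK' Sf I Y0 W0 _ _ _ _ ses ig ib
    iJ e1 hD J p E E' hp hf hE hE' h1 h2 h3
  letI : DecidableEq (Ideal (PS O (Sy n))) := Classical.decEq _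
  have hI := hE.2.1.trans h1
  obtain ⟨r, s, V, _, _, _, _, _, _, Y, a1, rfl, a3, rfl, a5⟩ := hP O F ϖ S L X as β τ ι' K n G hϖ
    hC hK hK' Sf I Y0 W0 ses ig ib iJ e1 hD p {E, E'} hp (le_sup_left.trans (le_sup_left.trans hI))
    (hI (Ideal.mem_sup_left (Ideal.mem_sup_right (Ideal.mem_span_singleton_self _)))) hf
    (two hE hE' h1 h2)
  haveI := P022D.As.base O (Sy (n + r) ⊕ Fin r)
  haveI := P022D.As.base O (V0 τ L n S.T r)
  letI : Algebra (S0 O τ L n S.T r) (S1 O τ L n S.T r) := (io O _ r).toAlgebra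
  obtain ⟨u, a, D, d, M, Gm, _, _, _, _, W, hd, hA, -⟩ := a5
  have H := hR O F ϖ S L X as β τ ι' K n _ hϖ hC hK hK' r s V Y a1 rfl a3
  obtain ⟨-, -, -, c1, c2, -⟩ := hV O F ϖ S L X as β τ ι' K n _ hϖ hC hK hK' r s V Y a1 rfl a3
  exact (lz a3.jr c1 c2).patch H W (hA _) (gp a3.jr hE h1 (hd _ (Finset.mem_insert_self _ _)))
    (gp a3.jr hE' h2 (hd _ (Finset.mem_insert_of_mem (Finset.mem_singleton_self _)))) hE.2.2
    (le_sup_right.trans hE'.2.1) h3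

theorem lowerC (hP : PKG) (hV : RCOV) (hR : ROK) (hL : RCA) : LOWER := by
  intro O F _ _ _ _ _ _ _ ϖ S L X as β τ ι' _ _ _ K n G hϖ hC hK hK' Sf I Y0 W0 _ _ _ _ ses ig ib
    iJ e1 hD J l hl hJ p E E' hp hf hE hE' h1 h2 h3
  letI : DecidableEq (Ideal (PS O (Sy n))) := Classical.decEq _
  have hI := hE'.2.1.trans h2
  obtain ⟨r, s, V, _, _, _, _, _, _, Y, a1, rfl, a3, rfl, a5⟩ := hP O F ϖ S L X as β τ ι' K n G hϖ
    hC hK hK' Sf I Y0 W0 ses ig ib iJ e1 hD p {E, E'} hp (le_sup_left.trans (le_sup_left.trans hI))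
    (hI (Ideal.mem_sup_left (Ideal.mem_sup_right (Ideal.mem_span_singleton_self _)))) hf
    (two hE hE' h1 h2)
  haveI := P022D.As.base O (Sy (n + r) ⊕ Fin r)
  haveI := P022D.As.base O (V0 τ L n S.T r)
  letI : Algebra (S0 O τ L n S.T r) (S1 O τ L n S.T r) := (io O _ r).toAlgebra
  obtain ⟨u, a, D, d, M, Gm, _, _, _, _, W, hd, hA, hF⟩ := a5
  obtain ⟨Cc, _, _, hF⟩ := hF l hl
  have H := hR O F ϖ S L X as β τ ι' K n _ hϖ hC hK hK' r s V Y a1 rfl a3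
  obtain ⟨-, -, -, c1, c2, -⟩ := hV O F ϖ S L X as β τ ι' K n _ hϖ hC hK hK' r s V Y a1 rfl a3
  exact (lz a3.jr c1 c2).lower H W hF (fun h4 => ⟨hD.low,
      (hL O F ϖ S L X as β τ ι' K n _ hϖ hC hK hK' r s V Y a1 rfl a3).2 J l hl hJ h4⟩)
    (hA _) (hA _) (gp a3.jr hE h1 (hd _ (Finset.mem_insert_self _ _)))
    (gp a3.jr hE' h2 (hd _ (Finset.mem_insert_of_mem (Finset.mem_singleton_self _)))) hE.2.2
    (le_sup_right.trans hE.2.1) (le_sup_right.trans hE'.2.1) h3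

end Vale.Agent.P022S.H72
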