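import Vale.Agent.P022S.Mod.Pkg
import Vale.Agent.P022S.Rw.RdH56
import Vale.Agent.P022S.Rw.LowerH72
import Vale.Agent.P022S.Pt.Fin

/-!
# P022S: the last step
-/

set_option linter.all false

noncomputable section

namespace Vale.Agent.P022S.H80

open IsLocalRing MvPowerSeries
open Vale.Agent.P022 Vale.Agent.P022S.R Vale.Agent.P022S.Loc Vale.Agent.P022S.Mp
open Vale.Agent.P022S.Mod (gd_of gm_sub Ax)
open Vale.Agent.P022G (subL resJ)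
open Vale.Agent.P022G.Chain (Pd)
open Vale.Agent.P022E.As (mul2)
open Vale.Agent.P022D.Core (PS io Coef)
open Vale.Agent.P022D.PA (lim)
open Vale.Agent.P022E.Loc (Pl)

/-- the places outside `X` -/
def inx {O : Type} [CommRing O] (L : Pl O) (X : Finset ℕ) (l : (subL L X).C) : L.C :=
  ⟨l.1, (Finset.mem_sdiff.1 l.2).1⟩

theorem mem_rs {O : Type} [CommRing O] {L : Pl O} {X : Finset ℕ} {J : Finset L.C}
    {l : (subL L X).C} : l ∈ resJ X J ↔ inx L X l ∈ J := by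
  simp [resJ, inx]

theorem mx_eq {O : Type} [CommRing O] {L : Pl O} {β : Type} {τ ι' : β → Type}
    (K : Kx O β τ ι' L.C) (X : Finset ℕ) (J : Finset L.C) :
    mX K X J = mul2 (fun l => K.a (inx L X l)) (fun l => K.a' (inx L X l)) (resJ X J) := by
  classical
  unfold mX mul2
  symm
  refine Finset.prod_bij (fun l _ => inx L X l) (fun l _ => ?_) (fun a _ b _ e => ?_)
    (fun l hl => ?_) fun l _ => ?_
  · exact Finset.mem_filter.2 ⟨Finset.mem_univ _, (Finset.mem_sdiff.1 l.2).2⟩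
  · exact Subtype.ext (congrArg (fun x : L.C => (x : ℕ)) e)
  · exact ⟨⟨l.1, Finset.mem_sdiff.2 ⟨l.2, (Finset.mem_filter.1 hl).2⟩⟩, Finset.mem_univ _, rfl⟩
  · by_cases c : l ∈ resJ X J
    · rw [if_pos c, if_pos (mem_rs.1 c)]
    · rw [if_neg c, if_neg fun k => c (mem_rs.2 k)]

theorem final2C (h2 : GPW) (h3 : GPO) (h4 : CPK) (h5 : RGAL) (h6 : RCOV) (h7 : RGAL0) (h8 : RFIN)
    (h9 : ROK) : FINAL2 := by
  intro O F _ _ _ _ _ _ _ ϖ S L X as β τ ι' _ _ _ K n G hϖ hC hK hK' Sf I Y0 W0 _ _ _ _ ses ig ib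
    iJ e1 hD Z C0 p z1 z2 z3 z4 z5 z6 z7 hp hf hE
  letI : DecidableEq (Ideal (PS O (Sy n))) := Classical.decEq _
  have hp0 : G.aP ⊔ Ideal.span {C ϖ} ≤ p := z6.2.1.trans z7
  have ex : ∀ J : Finset L.C, ∃ E, (Pd (G.aP ⊔ Ideal.span {C ϖ}) 2 E ∧ E ≤ p) ∧
      ((∀ a ∈ J, (a : ℕ) ∉ X) → G.IT ϖ J ≤ p →
        Pd (G.IT ϖ J) 2 E ∧ G.An (Y0 (iJ (resJ X J))) ≤ E) := fun J => by
    by_cases c : (∀ a ∈ J, (a : ℕ) ∉ X) ∧ G.IT ϖ J ≤ p
    · obtain ⟨E, a1, a2, a3⟩ := hE J c.1 c.2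
      exact ⟨E, ⟨⟨a1.1, le_sup_left.trans a1.2.1, a1.2.2⟩, a2⟩, fun _ _ => ⟨a1, a3⟩⟩
    · exact ⟨C0, ⟨z6, z7⟩, fun a b => absurd ⟨a, b⟩ c⟩
  choose E E1 E2 using ex
  have hσ : ∀ B ∈ insert C0 (Finset.univ.image E), Pd (G.aP ⊔ Ideal.span {C ϖ}) 2 B ∧ B ≤ p :=
    fun B hB => by
      rcases Finset.mem_insert.1 hB with rfl | hB
      · exact ⟨z6, z7⟩
      · obtain ⟨J, -, rfl⟩ := Finset.mem_image.1 hB
        exact E1 J
  have e3 : Sf.T ⊆ S.T := e1 ▸ Finset.sdiff_subset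
  obtain ⟨r, s, V, _, _, _, _, _, _, Y, a1, rfl, a3, rfl, b, c, φ, Yb, Wc, Pb, _, _, _, _, _, _,
    W, d1, d2, -, tu, e, hu, hφ⟩ := h4 O F ϖ S L X as β τ ι' K n G hϖ hC hK hK' False (subL L X) Sf
      I Y0 W0 ses ig ib iJ e3 hD p _ hp (le_sup_left.trans hp0)
      (hp0 (Ideal.mem_sup_right (Ideal.mem_span_singleton_self _))) hf hσ
  haveI := P022D.As.base O (Sy n)
  haveI := P022D.As.base O (Sy (n + r) ⊕ Fin r)
  haveI := P022D.As.base O (V0 τ L n S.T r)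
  haveI := P022D.As.base O (V0 τ L n S.T r ⊕ Fin r)
  letI : Algebra (S0 O τ L n S.T r) (S1 O τ L n S.T r) := (io O _ r).toAlgebra
  have H := fc_of h2 h3 O F ϖ S L X as β τ ι' K n Y.G' hϖ hC hK hK'
  obtain ⟨lam, A⟩ := ex_la H a3
  obtain ⟨d, hd⟩ := lim _ Y.U (P022G.Mod.DD lam Y.q φ c)
  have dn : ∀ B ∈ insert C0 (Finset.univ.image E), Y.jr d ∉ B := fun B hB =>
    A.dp hu (hσ B hB).1.1 (hσ B hB).1.2.1 (fun m i => hφ m i B hB) hd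
  have hX : Ax L X := fun l hl => by
    have m : l ∈ L.W ∪ L.C := Finset.mem_union_right _ (hC.sub hl)
    exact ⟨(hC.ok.pr l m).1, (hC.ok.hP l m).1, (hC.ok.hP l m).2, (hC.ok.tm l m).tau,
      hC.unr l (hC.ok.pr l m).1 (Or.inr hl) _ (hC.ok.hP l m).1 (hC.ok.hP l m).2 _
        (hC.ok.tm l m).tau⟩
  have hXT : X ⊆ S.T := fun l hl => by
    rw [hC.ok.hT]
    exact Finset.mem_insert_of_mem (Finset.mem_insert_of_mem
      (Finset.mem_union_right _ (hC.sub hl)))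
  have gd : ∀ {N : Type} [AddCommGroup N] [Module (P022E.As.Tg O) N],
      P022E.As.Gm ϖ (subL L X) Sf.T ∅ 0 N → Mod.Dm O Sf.T ∅ N → Y.G'.An N = Mod.A0 (vA Y.G') N :=
    fun g k => H.an_eq Y.G' (gd_of (gm_sub hX (fun _ _ => Finset.notMem_empty _) (e1 ▸ g) (e1 ▸ k))
      (k.up e3))
  obtain ⟨-, -, -, c1, c2, -⟩ := h6 O F ϖ S L X as β τ ι' K n _ hϖ hC hK hK' r s V Y a1 rfl a3
  obtain ⟨f1, f2⟩ := h8 O F ϖ S L X as β τ ι' K n _ hϖ hC hK hK' r s V Y a1 rfl a3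
  rw [gd hD.gmW hD.dmW]
  refine H78.final A.la (H56.pc_rd h5 hϖ hC hK hK' a1 a3 A.la.lv) hX hXT e1 hD W d1 d2 hd
    (H72.lz a3.jr c1 c2) (h9 O F ϖ S L X as β τ ι' K n _ hϖ hC hK hK' r s V Y a1 rfl a3)
    (fun l => (hK.ok Unit).odd (inx L X l)) (fun l => (hK.ok Unit).odd' (inx L X l))
    (mx_eq K X) f1 f2 z1 (z5.trans z7) z2 (fun k => z4 (a3.jr.c ϖ ▸ k))
    (fun k => dn _ (Finset.mem_insert_self _ _) (z5 k))
    ((h7 O F ϖ S L X as β τ ι' K n _ hϖ hC hK hK' r s V Y a1 rfl a3).2 _ (Ideal.comap_mono z2)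
      fun l hl => H72.tau_le a3.jr _ (z3 l hl)) fun J hJ k => ?_
  obtain ⟨b1, b2⟩ := E2 J hJ (sup_le hp0 k)
  refine ⟨E J, H72.gp a3.jr b1 (E1 J).2 (dn _ (Finset.mem_insert_of_mem
    (Finset.mem_image_of_mem E (Finset.mem_univ J)))), b1.2.2, le_sup_right.trans b1.2.1, ?_⟩
  rw [← gd (hD.gm0 _) (hD.dm0 _)]
  exact b2

end Vale.Agent.P022S.H80
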