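import Vale.Agent.P022S.Rw.LzH89
import Vale.Agent.P022S.Rw.Pkg0
import Vale.Agent.P022S.Rows2

/-!
# P022S: the package at a curve and the last step
-/

set_option linter.all false

open IsLocalRing Filter MvPowerSeries NumberField

noncomputable section

namespace Vale.Agent.P022S.H89

open Vale.Agent.P022 Vale.Agent.P022S.R Vale.Agent.P022S.Loc Vale.Agent.P022G.Mod
open Vale.Agent.P022S.Mod
open Vale.Agent.P022G (Hm subL resJ)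
open Vale.Agent.P022G.Chain (Pd)
open Vale.Agent.P022G.Fin (inc mem_res)
open Vale.Agent.P022E.As (Tg cc tt dd yy mT mul2)
open Vale.Agent.P022D.Core (PS io y1 Coef)
open Vale.Agent.P022D.PA (Base Cv lim)
open Vale.Agent.P022E.Loc (Pl)

theorem mX_eq {O : Type} [CommRing O] {L : Pl O} {β : Type} {τ ι' : β → Type}
    (K : Kx O β τ ι' L.C) (X : Finset ℕ) (J : Finset L.C) :
    mX K X J = mul2 (fun l => K.a (inc L X l)) (fun l => K.a' (inc L X l)) (resJ X J) := by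
  classical
  unfold mX mul2
  symm
  refine Finset.prod_bij (fun l _ => inc L X l) (fun l _ => ?_) (fun a _ b _ e => ?_)
    (fun l hl => ?_) fun l _ => ?_
  · exact Finset.mem_filter.2 ⟨Finset.mem_univ _, (Finset.mem_sdiff.1 l.2).2⟩
  · exact Subtype.ext (congrArg (fun x : L.C => (x : ℕ)) e)
  · exact ⟨⟨l.1, Finset.mem_sdiff.2 ⟨l.2, (Finset.mem_filter.1 hl).2⟩⟩, Finset.mem_univ _, rfl⟩
  · by_cases c : l ∈ resJ X J
    · rw [if_pos c, if_pos (mem_res.1 c)]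
    · rw [if_neg c, if_neg fun k => c (mem_res.2 k)]

theorem pkgC (h4 : CPK) (h5 : RGAL) : PKG := by
  intro O F _ _ _ _ _ _ _ ϖ S L X as β τ ι' _ _ _ K n G hϖ hC hK hK' Sf I Y0 W0 _ _ _ _ ses ig ib
    iJ e1 hD p σ hp a1 a2 a3 a4
  obtain ⟨r, s, V, _, _, _, _, _, _, Y, b1, rfl, b3, b4, b, c, φ, Yb, Wc, Pb, _, _, _, _, _, _,
    W, dY, -, Ps, tu, e, hu, hφ⟩ := h4 O F ϖ S L X as β τ ι' K n G hϖ hC hK hK' True L Sf I Y0 W0 ses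
      ig ib iJ e1.le (hD.hdx True) p σ hp a1 a2 a3 a4
  refine ⟨r, s, V, inferInstance, inferInstance, inferInstance, inferInstance, inferInstance,
    inferInstance, Y, b1, rfl, b3, b4, fun {_} => ?_⟩
  haveI := P022D.As.base O (Sy n)
  letI : Algebra (S0 O τ L n S.T r) (S1 O τ L n S.T r) := (io O _ r).toAlgebra
  obtain ⟨lam, A⟩ := (lv hϖ hC b3).ex
  have R := rd hϖ hC b3 (h5 O F ϖ S L X as β τ ι' K n _ hϖ hC hK hK' r s V Y b1 rfl b3)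
  obtain ⟨d, hd⟩ := lim (PP O n r) Y.U (P022G.Mod.DD lam Y.q φ c)
  obtain ⟨a, M, Gm, i1, i2, i3, i4, k1, k2, k3⟩ := H78.pkg A R e1 (hD.hdx True) W dY hd
  refine ⟨_, a, _, d, M, Gm, i1, i2, i3, i4, k1,
    fun E hE => dp hϖ hC b3 A hd hu (a4 E hE).1.1 (a4 E hE).1.2.1 fun m i => hφ m i E hE,
    fun i => by rw [k2, an_eq hϖ hC _ (e1 ▸ gd_of (hD.gm0 i) (hD.dm0 i))], fun l hl => ?_⟩
  have u1 := (ax hC l hl).2.2.2.2
  exact k3 l (fun m => Pb m l) u1 fun m => Ps trivial m l (by have := hC.one l hl; omega) u1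

theorem final2C (h4 : CPK) (h5 : RGAL) (h6 : RCOV) (h7 : RGAL0) (h8 : RFIN) (h9 : ROK) :
    FINAL2 := by
  classical
  intro O F _ _ _ _ _ _ _ ϖ S L X as β τ ι' _ _ _ K n G hϖ hC hK hK' Sf I Y0 W0 _ _ _ _ ses ig ib
    iJ e1 hD Z C0 p hZ z1 z2 z3 z4 z5 z6 hp hf hJ
  have e3 : Sf.T ⊆ S.T := e1 ▸ Finset.sdiff_subset
  have it : ∀ J, G.aP ⊔ Ideal.span {C ϖ} ≤ G.IT ϖ J := fun J => le_sup_left
  have ex : ∀ J : Finset L.C, ∃ E, (Pd (G.aP ⊔ Ideal.span {C ϖ}) 2 E ∧ E ≤ p) ∧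
      ((∀ a ∈ J, (a : ℕ) ∉ X) → G.IT ϖ J ≤ p →
        G.IT ϖ J ≤ E ∧ G.An (Y0 (iJ (resJ X J))) ≤ E) := fun J => by
    by_cases c : (∀ a ∈ J, (a : ℕ) ∉ X) ∧ G.IT ϖ J ≤ p
    · obtain ⟨E, k1, k2, k3⟩ := hJ J c.1 c.2
      exact ⟨E, ⟨⟨k1.1, (it J).trans k1.2.1, k1.2.2⟩, k2⟩, fun _ _ => ⟨k1.2.1, k3⟩⟩
    · exact ⟨C0, ⟨z5, z6⟩, fun a b => absurd ⟨a, b⟩ c⟩
  choose E E1 E2 using ex
  have zp : G.aP ⊔ Ideal.span {C ϖ} ≤ p := z5.2.1.trans z6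
  obtain ⟨r, s, V, _, _, _, _, _, _, Y, b1, rfl, b3, rfl, b, c, φ, Yb, Wc, Pb, _, _, _, _, _, _,
    W, dY, dW, -, tu, e, hu, hφ⟩ := h4 O F ϖ S L X as β τ ι' K n G hϖ hC hK hK' False (subL L X) Sf I
      Y0 W0 ses ig ib iJ e3 hD p (insert C0 (Finset.univ.image E)) hp (le_sup_left.trans zp)
      (zp (Ideal.mem_sup_right (Ideal.mem_span_singleton_self _))) hf (fun B hB => by
        rcases Finset.mem_insert.1 hB with rfl | hB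
        · exact ⟨z5, z6⟩
        · obtain ⟨J, -, rfl⟩ := Finset.mem_image.1 hB
          exact E1 J)
  haveI := P022D.As.base O (Sy n)
  haveI := P022D.As.base O (Sy (n + r) ⊕ Fin r)
  haveI := P022D.As.base O (V0 τ L n S.T r)
  haveI := P022D.As.base O (V0 τ L n S.T r ⊕ Fin r)
  letI : Algebra (S0 O τ L n S.T r) (S1 O τ L n S.T r) := (io O _ r).toAlgebra
  obtain ⟨lam, A⟩ := (lv hϖ hC b3).ex
  have R := rd hϖ hC b3 (h5 O F ϖ S L X as β τ ι' K n _ hϖ hC hK hK' r s V Y b1 rfl b3)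
  obtain ⟨d, hd⟩ := lim (PP O n r) Y.U (P022G.Mod.DD lam Y.q φ c)
  obtain ⟨-, -, -, c1, c2, -⟩ := h6 O F ϖ S L X as β τ ι' K n _ hϖ hC hK hK' r s V Y b1 rfl b3
  obtain ⟨f1, f2⟩ := h8 O F ϖ S L X as β τ ι' K n _ hϖ hC hK hK' r s V Y b1 rfl b3
  have hXT : X ⊆ S.T := fun l h => by
    rw [hC.ok.hT]
    exact Finset.mem_insert_of_mem (Finset.mem_insert_of_mem (Finset.mem_union_right _ (hC.sub h)))
  have jp : Y.jr (Y.rd ϖ).π = C ϖ := b3.jr.c ϖ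
  rw [← an_eq hϖ hC _ (H94.gd_sub hC (e1 ▸ hD.gmW) (e1 ▸ hD.dmW))]
  refine H78.final A R (ax hC) hXT e1 hD W dY dW hd (e := Y.G'.aP)
    (IA := IPt Y.G'.rc id Y.G'.iτ Y.G'.iφ) ⟨c2, c1, le_rfl, fun J B _ => ip_iff b3.jr J B⟩
    (h9 O F ϖ S L X as β τ ι' K n _ hϖ hC hK hK' r s V Y b1 rfl b3)
    (fun l => (hK.ok Unit).odd (inc L X l)) (fun l => (hK.ok Unit).odd' (inc L X l)) (mX_eq K X)
    f1 f2 hZ (z4.trans z6) z1 (jp ▸ z3)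
    (fun k => dp hϖ hC b3 A hd hu z5.1 z5.2.1 (fun m i => hφ m i _ (Finset.mem_insert_self _ _))
      (z4 k))
    ((h7 O F ϖ S L X as β τ ι' K n _ hϖ hC hK hK' r s V Y b1 rfl b3).2 _ (Ideal.comap_mono z1)
      fun l hl => tau_le b3.jr _ (z2 l hl)) fun J j1 j2 => ?_
  obtain ⟨⟨k1, k2, k3⟩, k4⟩ := E1 J
  obtain ⟨k5, k6⟩ := E2 J j1 (sup_le zp j2)
  refine ⟨E J, ⟨k1, k4, le_sup_left.trans k2,
    jp ▸ k2 (Ideal.mem_sup_right (Ideal.mem_span_singleton_self _)),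
    dp hϖ hC b3 A hd hu k1 k2 fun m i => hφ m i _
      (Finset.mem_insert_of_mem (Finset.mem_image_of_mem _ (Finset.mem_univ J)))⟩, k3,
    le_sup_right.trans k5, ?_⟩
  rwa [an_eq hϖ hC _ (H94.gd_sub hC (e1 ▸ hD.gm0 _) (e1 ▸ hD.dm0 _))]

end Vale.Agent.P022S.H89
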