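import Vale.Agent.P022S.Rw.LvP
import Vale.Agent.P022S.Rw.DenH99
import Vale.Agent.P022S.Rw.Jr

/-!
# P022S: the row `FINAL2`
-/

set_option linter.all false

open IsLocalRing Filter MvPowerSeries NumberField

noncomputable section

namespace Vale.Agent.P022S.F90

open Vale.Agent.P022 Vale.Agent.P022S.R Vale.Agent.P022S.Loc Vale.Agent.P022S.Mod
open Vale.Agent.P022G (Hm subL resJ)
open Vale.Agent.P022G.Fin (inc mem_res)
open Vale.Agent.P022G.Chain (Pd)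
open Vale.Agent.P022E.As (Tg mul2)
open Vale.Agent.P022D.Core (PS io y1 Coef)
open Vale.Agent.P022D.PA (Base Cv lim)
open Vale.Agent.P022E.Loc (Pl)

theorem mX_eq {O : Type} [CommRing O] {L : Pl O} {β : Type} {τ ι' : β → Type}
    (K : Kx O β τ ι' L.C) (X : Finset ℕ) (J : Finset L.C) :
    mX K X J = mul2 (fun l => K.a (inc L X l)) (fun l => K.a' (inc L X l)) (resJ X J) := by
  classical
  unfold mX mul2
  symm
  refine Finset.prod_bij (fun l _ => inc L X l) (fun l _ => ?_) (fun a _ b _ e => ?_)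
    (fun l hl => ?_) fun l _ => ?_
  · exact Finset.mem_filter.2 ⟨Finset.mem_univ _, (Finset.mem_sdiff.1 l.2).2⟩
  · exact Subtype.ext (congrArg (fun x : L.C => (x : ℕ)) e)
  · exact ⟨⟨l.1, Finset.mem_sdiff.2 ⟨l.2, (Finset.mem_filter.1 hl).2⟩⟩, Finset.mem_univ _, rfl⟩
  · by_cases c : l ∈ resJ X J
    · rw [if_pos c, if_pos (mem_res.1 c)]
    · rw [if_neg c, if_neg fun k => c (mem_res.2 k)]

theorem final2C (hK : CPK) (hG : RGAL) (hV : RCOV) (h0 : RGAL0) (hF : RFIN) (hR : ROK) :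
    FINAL2 := by
  classical
  intro O F _ _ _ _ _ _ _ ϖ S L X as β τ ι' _ _ _ K n G hϖ hC k1 k2 Sf I Y0 W0 _ _ _ _ ses ig ib
    iJ e1 hD Z C0 p z1 z2 z3 z4 z5 z6 z7 hp z8 z9
  have ch : ∀ J : Finset L.C, ∃ E, (Pd (G.aP ⊔ Ideal.span {C ϖ}) 2 E ∧ E ≤ p) ∧
      ((∀ a ∈ J, (a : ℕ) ∉ X) → G.IT ϖ J ≤ p →
        Pd (G.IT ϖ J) 2 E ∧ G.An (Y0 (iJ (resJ X J))) ≤ E) := fun J => by
    by_cases c : (∀ a ∈ J, (a : ℕ) ∉ X) ∧ G.IT ϖ J ≤ p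
    · obtain ⟨E, a1, a2, a3⟩ := z9 J c.1 c.2
      exact ⟨E, ⟨Jr.pd a1, a2⟩, fun _ _ => ⟨a1, a3⟩⟩
    · exact ⟨C0, ⟨z6, z7⟩, fun a b => (c ⟨a, b⟩).elim⟩
  choose Ej j1 j2 using ch
  have hI := z6.2.1.trans z7
  have e3 : Sf.T ⊆ S.T := e1 ▸ Finset.sdiff_subset
  have hσ : ∀ E ∈ insert C0 (Finset.univ.image Ej),
      Pd (G.aP ⊔ Ideal.span {C ϖ}) 2 E ∧ E ≤ p := fun E hE => by
    rcases Finset.mem_insert.1 hE with rfl | k
    · exact ⟨z6, z7⟩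
    · obtain ⟨J, -, rfl⟩ := Finset.mem_image.1 k
      exact j1 J
  obtain ⟨r, s, V, _, _, _, _, _, _, Y, ht, rfl, hY, rfl, b, c, φ, Yb, Wc, Pb, _, _, _, _, _, _,
    W, d1, d2, -, tu, e, hu, hφ⟩ := hK O F ϖ S L X as β τ ι' K n G hϖ hC k1 k2 False (subL L X) Sf I
      Y0 W0 ses ig ib iJ e3 hD p _ hp (le_sup_left.trans hI)
      (hI (Ideal.mem_sup_right (Ideal.mem_span_singleton_self _))) z8 hσ
  haveI := P022D.As.base O (Sy (n + r) ⊕ Fin r)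
  haveI := P022D.As.base O (Sy n)
  haveI := P022D.As.base O (V0 τ L n S.T r)
  haveI := P022D.As.base O (V0 τ L n S.T r ⊕ Fin r)
  letI : Algebra (S0 O τ L n S.T r) (S1 O τ L n S.T r) := (io O _ r).toAlgebra
  obtain ⟨lam, A⟩ := (H3.pc_lv hϖ hC hY).ex
  obtain ⟨d, hd⟩ := lim _ Y.U (P022G.Mod.DD lam Y.q φ c)
  obtain ⟨-, -, -, c1, c2, -⟩ := hV O F ϖ S L X as β τ ι' K n _ hϖ hC k1 k2 r s V Y ht rfl hY
  have den : ∀ E ∈ insert C0 (Finset.univ.image Ej), Y.jr d ∉ E := fun E hE =>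
    H99D.den Y.G' hϖ hC A c2 (fun m i => H99D.odd_q hC (hY.gn m i)) hu (hσ E hE).1
      (fun m i => hφ m i E hE) hd
  have f := hF O F ϖ S L X as β τ ι' K n _ hϖ hC k1 k2 r s V Y ht rfl hY
  have hX := H3.ax hC
  rw [← H3.an_eq _ hϖ hC (gd_of (gm_sub hX (fun _ _ => Finset.notMem_empty _) (e1 ▸ hD.gmW)
    (e1 ▸ hD.dmW)) (hD.dmW.up e3))]
  refine H78.final A (H3.pc_rd hG hϖ hC k1 k2 ht hY) hX (H3.xT hC) e1 hD W d1 d2 hd
    (Jr.lz hY.jr c1 c2) (hR O F ϖ S L X as β τ ι' K n _ hϖ hC k1 k2 r s V Y ht rfl hY)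
    (fun l => (k1.ok Empty).odd (inc L X l)) (fun l => (k1.ok Empty).odd' (inc L X l))
    (mX_eq K X) f.1 f.2 z1 (z5.trans z7) z2 (fun k => z4 (hY.jr.c ϖ ▸ k))
    (fun k => den C0 (Finset.mem_insert_self _ _) (z5 k))
    ((h0 O F ϖ S L X as β τ ι' K n _ hϖ hC k1 k2 r s V Y ht rfl hY).2 _ (Ideal.comap_mono z2)
      fun l hl => Jr.tau_le hY.jr _ (z3 l hl)) fun J hJ k => ?_
  obtain ⟨a1, a2⟩ := j2 J hJ (sup_le hI k)
  refine ⟨Ej J, Jr.gp hY.jr a1.1 (j1 J).1.2.1 (j1 J).2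
    (den _ (Finset.mem_insert_of_mem (Finset.mem_image_of_mem _ (Finset.mem_univ J)))), a1.2.2,
    le_sup_right.trans a1.2.1, ?_⟩
  rw [H3.an_eq _ hϖ hC (gd_of (gm_sub hX (fun _ _ => Finset.notMem_empty _) (e1 ▸ hD.gm0 _)
    (e1 ▸ hD.dm0 _)) ((hD.dm0 _).up e3))]
  exact a2

end Vale.Agent.P022S.F90
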