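import Vale.Agent.P022S.Rows
import Vale.Agent.P022S.Pt.Lz

/-!
# P022S: transfer along the projection to level zero
-/

set_option linter.all false

noncomputable section

namespace Vale.Agent.P022S.H62

open IsLocalRing MvPowerSeries
open Vale.Agent.P022 Vale.Agent.P022S.R Vale.Agent.P022S.Loc
open Vale.Agent.P022D.Core (PS io y1 Coef)
open Vale.Agent.P022E.Loc (Pl)
open Vale.Agent.P022G (Hm)
open Vale.Agent.P022G.Chain (Pd)

/-- the letters of level zero -/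
def fl {n : ℕ} (r : ℕ) (s : Finset (Fin (n + r))) : Finset (Fin n) :=
  Finset.univ.filter fun i => Fin.castAdd r i ∈ s

theorem mem_fl {n r : ℕ} (s : Finset (Fin (n + r))) (i : Fin n) :
    i ∈ fl r s ↔ Fin.castAdd r i ∈ s := by
  simp [fl]

theorem ca_inj {n r : ℕ} {i k : Fin n} : Fin.castAdd r i = Fin.castAdd r k ↔ i = k :=
  (Fin.castAdd_injective n r).eq_iff

theorem fl_ins {n r : ℕ} (s : Finset (Fin (n + r))) (i : Fin n) :
    fl r (insert (Fin.castAdd r i) s) = insert i (fl r s) := by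
  ext k
  simp only [mem_fl, Finset.mem_insert, ca_inj]

theorem fl_er {n r : ℕ} (s : Finset (Fin (n + r))) (i : Fin n) :
    fl r (s.erase (Fin.castAdd r i)) = (fl r s).erase i := by
  ext k
  simp only [mem_fl, Finset.mem_erase, ne_eq, ca_inj]

theorem fl_one {n r : ℕ} (i : Fin n) : fl r {Fin.castAdd r i} = {i} := by
  ext k
  simp only [mem_fl, Finset.mem_singleton, ca_inj]

theorem fl_sur {n : ℕ} (r : ℕ) (s : Finset (Fin n)) : ∃ s', fl r s' = s :=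
  ⟨s.image (Fin.castAdd r), by
    ext k
    simp only [mem_fl, Finset.mem_image, ca_inj, exists_eq_right]⟩

variable {O F : Type} [CommRing O] [Field F] {S : Dat O F} {L : Pl O}

section sym
variable {κ : Type} {n : ℕ} {gk : κ → GQ} {G : Gs S L gk n} {r : ℕ}
  {jr : PP O n r →+* PS O (Sy n)} (h : Hm C (G.jv r) jr)
include h

theorem jr_t (s : Finset (Fin (n + r))) :
    jr (tS (G.rcr r) Sum.inl s) = tS G.rc id (fl r s) := by
  rw [tS, map_add, h.c, h.x]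
  exact add_sub_cancel _ _

theorem jr_d (i : Fin n) : jr (dS (G.rcr r) Sum.inl (Fin.castAdd r i)) = dS G.rc id i := by
  rw [dS, map_add, h.c, h.x]
  exact (add_sub_cancel _ _).trans (Fin.append_left _ _ _)

theorem jr_tr (i : Fin n) : jr (trS (G.rcr r) Sum.inl (Fin.castAdd r i)) = trS G.rc id i := by
  rw [trS, jr_t h, fl_one, trS]

theorem jr_tr2 (i k : Fin n) :
    jr (tr2 (G.rcr r) Sum.inl (Fin.castAdd r i) (Fin.castAdd r k)) = tr2 G.rc id i k := by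
  rw [tr2, jr_t h, fl_ins, fl_one, tr2]

theorem jr_tau (i : Fin n) (s : Finset (Fin (n + r))) :
    jr (tS (G.rcr r) Sum.inl (insert (Fin.castAdd r i) s) -
      tS (G.rcr r) Sum.inl (s.erase (Fin.castAdd r i))) =
      tS G.rc id (insert i (fl r s)) - tS G.rc id ((fl r s).erase i) := by
  rw [map_sub, jr_t h, jr_t h, fl_ins, fl_er]

theorem tau_le (i : Fin n) {Z : Ideal (PS O (Sy n))} (hZ : tauP G.rc id i ⊆ Z) :
    tauP (G.rcr r) Sum.inl (Fin.castAdd r i) ⊆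
      ((Z.comap jr : Ideal (PP O n r)) : Set (PP O n r)) := by
  rintro u (rfl | ⟨s, rfl⟩)
  · rw [SetLike.mem_coe, Ideal.mem_comap, map_sub, map_one, jr_d h]
    exact hZ (Or.inl rfl)
  · rw [SetLike.mem_coe, Ideal.mem_comap, jr_tau h]
    exact hZ (Or.inr ⟨_, rfl⟩)

theorem tau_ge (i : Fin n) {Z : Ideal (PS O (Sy n))}
    (hZ : tauP (G.rcr r) Sum.inl (Fin.castAdd r i) ⊆
      ((Z.comap jr : Ideal (PP O n r)) : Set (PP O n r))) : tauP G.rc id i ⊆ Z := by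
  rintro u (rfl | ⟨s, rfl⟩)
  · have := hZ (Or.inl rfl)
    rwa [SetLike.mem_coe, Ideal.mem_comap, map_sub, map_one, jr_d h] at this
  · obtain ⟨s, rfl⟩ := fl_sur r s
    have := hZ (Or.inr ⟨s, rfl⟩)
    rwa [SetLike.mem_coe, Ideal.mem_comap, jr_tau h] at this

/-- the equations of a type -/
theorem ip_iff (J : Finset L.C) (Z : Ideal (PS O (Sy n))) :
    IPt (G.rcr r) Sum.inl (fun l => Fin.castAdd r (G.iτ l)) (fun l => Fin.castAdd r (G.iφ l)) J ≤
      Z.comap jr ↔ IPt G.rc id G.iτ G.iφ J ≤ Z := by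
  rw [IPt, IPt, Ideal.span_le, Ideal.span_le]
  constructor
  · rintro H u (⟨l, hl, rfl | rfl | rfl⟩ | ⟨l, hl, hu⟩)
    · rw [← jr_tr h]; exact H (Or.inl ⟨l, hl, Or.inl rfl⟩)
    · rw [← jr_tr h]; exact H (Or.inl ⟨l, hl, Or.inr (Or.inl rfl)⟩)
    · rw [← jr_tr2 h]; exact H (Or.inl ⟨l, hl, Or.inr (Or.inr rfl)⟩)
    · exact tau_ge h _ (fun v hv => H (Or.inr ⟨l, hl, hv⟩)) hu
  · rintro H u (⟨l, hl, rfl | rfl | rfl⟩ | ⟨l, hl, hu⟩)
    · rw [SetLike.mem_coe, Ideal.mem_comap, jr_tr h]; exact H (Or.inl ⟨l, hl, Or.inl rfl⟩)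
    · rw [SetLike.mem_coe, Ideal.mem_comap, jr_tr h]
      exact H (Or.inl ⟨l, hl, Or.inr (Or.inl rfl)⟩)
    · rw [SetLike.mem_coe, Ideal.mem_comap, jr_tr2 h]
      exact H (Or.inl ⟨l, hl, Or.inr (Or.inr rfl)⟩)
    · exact tau_le h _ (fun v hv => H (Or.inr ⟨l, hl, hv⟩)) hu

end sym

section
variable {β : Type} {τ ι' : β → Type} {K : Kx O β τ ι' L.C} {n r s : ℕ}
  {V : Type} [CommRing V] {Y : Pc (S := S) (n := n) K r s V} {ϖ : O}

/-- the projection to level zero at a curve -/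
theorem lz (hj : Hm C (Y.G'.jv r) Y.jr) (hp : (Y.rd ϖ).p0 = (RingHom.ker Y.θA).comap Y.jr)
    (hs : Function.Surjective Y.jr) :
    Pt.Lz (Y.rd ϖ) Y.jr (RingHom.ker Y.θA) Y.G'.aP (IPt Y.G'.rc id Y.G'.iτ Y.G'.iφ) :=
  ⟨hs, hp, le_rfl, fun J Z _ => ip_iff hj J Z⟩

/-- a prime of a type inside the curve -/
theorem gp (hj : Hm C (Y.G'.jv r) Y.jr) {d : PP O n r} {E : Ideal (PS O (Sy n))}
    (h1 : E.IsPrime) (h2 : E ≤ RingHom.ker Y.θA) (h3 : Y.G'.aP ⊔ Ideal.span {C ϖ} ≤ E)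
    (h4 : Y.jr d ∉ E) : Pt.Gp (Y.rd ϖ) Y.jr (RingHom.ker Y.θA) Y.G'.aP d E :=
  ⟨h1, h2, le_sup_left.trans h3, by
    change Y.jr (C ϖ) ∈ E
    rw [hj.c]
    exact h3 (Ideal.mem_sup_right (Ideal.mem_span_singleton_self _)), h4⟩

end

theorem pd_mono {A : Type} [CommRing A] {I I' E : Ideal A} {k : ℕ} (h : Pd I k E) (hI : I' ≤ I) :
    Pd I' k E := ⟨h.1, hI.trans h.2.1, h.2.2⟩

end Vale.Agent.P022S.H62
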