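import Vale.Agent.P022S.Rw.LvP
import Vale.Agent.P022S.Rw.DenH99
import Vale.Agent.P022S.Rw.JrH62
import Vale.Agent.P022S.Rw.Pkg0

/-!
# P022S: the last step
-/

set_option linter.all false

open IsLocalRing Filter MvPowerSeries NumberField

noncomputable section

namespace Vale.Agent.P022S.H92

open Vale.Agent.P022 Vale.Agent.P022S.R Vale.Agent.P022S.Loc Vale.Agent.P022S.Mod
open Vale.Agent.P022G (Hm subL resJ)
open Vale.Agent.P022G.Chain (Pd)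
open Vale.Agent.P022E.As (Tg mul2)
open Vale.Agent.P022D.Core (PS io y1 Coef)
open Vale.Agent.P022D.PA (Base Cv lim)
open Vale.Agent.P022E.Loc (Pl)

section
variable {O : Type} [CommRing O] {L : Pl O} {β : Type} {τ ι' : β → Type}

def inc (L : Pl O) (X : Finset ℕ) (l : (subL L X).C) : L.C := ⟨l.1, (Finset.mem_sdiff.1 l.2).1⟩

theorem mem_res {X : Finset ℕ} {J : Finset L.C} {l : (subL L X).C} :
    l ∈ resJ X J ↔ inc L X l ∈ J := by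
  simp [resJ, inc]

theorem mX_eq (K : Kx O β τ ι' L.C) (X : Finset ℕ) (J : Finset L.C) :
    mX K X J = mul2 (fun l => K.a (inc L X l)) (fun l => K.a' (inc L X l)) (resJ X J) := by
  classical
  unfold mX mul2
  symm
  refine Finset.prod_bij (fun l _ => inc L X l) (fun l _ => ?_) (fun a _ b _ e => ?_)
    (fun l hl => ?_) fun l _ => ?_
  · exact Finset.mem_filter.2 ⟨Finset.mem_univ _, (Finset.mem_sdiff.1 l.2).2⟩
  · exact Subtype.ext (congrArg (fun x : L.C => (x : ℕ)) e)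
  · exact ⟨⟨l.1, Finset.mem_sdiff.2 ⟨l.2, (Finset.mem_filter.1 hl).2⟩⟩, Finset.mem_univ _, rfl⟩
  · by_cases c : l ∈ resJ X J
    · rw [if_pos c, if_pos (mem_res.1 c)]
    · rw [if_neg c, if_neg fun k => c (mem_res.2 k)]

end

theorem final2C (hK : CPK) (hG : RGAL) (hV : RCOV) (h0 : RGAL0) (hF : RFIN) (hR : ROK) :
    FINAL2 := by
  intro O F _ _ _ _ _ _ _ ϖ S L X as β τ ι' _ _ _ K n G hϖ hC k1 k2 Sf I Y0 W0 _ _ _ _ ses ig ib iJ
    e1 hD Z C0 p z1 z2 z3 z4 z5 z6 z7 hp z8 hE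
  classical
  have hT : Sf.T ⊆ S.T := e1 ▸ Finset.sdiff_subset
  choose E hE using hE
  let σ : Finset (Ideal (PS O (Sy n))) := insert C0 (Finset.univ.image
    fun J : {J : Finset L.C // (∀ a ∈ J, (a : ℕ) ∉ X) ∧ G.IT ϖ J ≤ p} => E J.1 J.2.1 J.2.2)
  have a1 : G.aP ⊔ Ideal.span {C ϖ} ≤ p := z6.2.1.trans z7
  obtain ⟨r, s, V, _, _, _, _, _, _, Y, ht, rfl, hY, rfl, b, c, φ, Yb, Wc, Pb, _, _, _, _, _, _,
    W, dY, dW, -, tu, e, hu, hφ⟩ := hK O F ϖ S L X as β τ ι' K n G hϖ hC k1 k2 False (subL L X) Sf I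
    Y0 W0 ses ig ib iJ hT hD p σ hp (le_sup_left.trans a1)
    (a1 (Ideal.mem_sup_right (Ideal.mem_span_singleton_self _))) z8 (by
      intro B hB
      rcases Finset.mem_insert.1 hB with rfl | hB
      · exact ⟨z6, z7⟩
      · obtain ⟨J, -, rfl⟩ := Finset.mem_image.1 hB
        exact ⟨H62.pd_mono (hE J.1 J.2.1 J.2.2).1 le_sup_left, (hE J.1 J.2.1 J.2.2).2.1⟩)
  haveI : Base (PP O n r) := P022D.As.base O _
  haveI : Base (PS O (Sy n)) := P022D.As.base O _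
  letI : Algebra (S0 O τ L n S.T r) (S1 O τ L n S.T r) := (io O _ r).toAlgebra
  obtain ⟨lam, A⟩ := (H3.pc_lv hϖ hC hY).ex
  obtain ⟨d, hd⟩ := lim (PP O n r) Y.U (P022G.Mod.DD lam Y.q φ c)
  obtain ⟨-, -, -, c1, c2, -⟩ := hV O F ϖ S L X as β τ ι' K n Y.G' hϖ hC k1 k2 r s V Y ht rfl hY
  obtain ⟨f1, f2⟩ := hF O F ϖ S L X as β τ ι' K n Y.G' hϖ hC k1 k2 r s V Y ht rfl hY
  have den : ∀ B ∈ σ, Pd (Y.G'.aP ⊔ Ideal.span {C ϖ}) 2 B → Y.jr d ∉ B := fun B hB h =>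
    H99D.den Y.G' hϖ hC A c2 (fun m i => H99D.odd_q hC (hY.gn m i)) hu h
      (fun m i => hφ m i B hB) hd
  have ax := H3.ax hC
  rw [← H3.an_eq Y.G' hϖ hC (gd_of (gm_sub ax (fun _ _ => Finset.notMem_empty _) (e1 ▸ hD.gmW)
    (e1 ▸ hD.dmW)) (hD.dmW.up hT))]
  refine H78.final A (H3.pc_rd hG hϖ hC k1 k2 ht hY) ax (H3.xT hC) e1 hD W dY dW hd
    (H62.lz hY.jr c1 c2) (hR O F ϖ S L X as β τ ι' K n Y.G' hϖ hC k1 k2 r s V Y ht rfl hY)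
    (fun l => (k1.ok Empty).odd (inc L X l)) (fun l => (k1.ok Empty).odd' (inc L X l))
    (mX_eq K X) f1 f2 z1 (z5.trans z7) z2 (fun h => z4 (hY.jr.c ϖ ▸ h))
    (fun h => den C0 (Finset.mem_insert_self _ _) z6 (z5 h))
    ((h0 O F ϖ S L X as β τ ι' K n Y.G' hϖ hC k1 k2 r s V Y ht rfl hY).2 _ (Ideal.comap_mono z2)
      fun l hl => H62.tau_le hY.jr _ (z3 l hl)) fun J hJ h => ?_
  have h' : Y.G'.IT ϖ J ≤ RingHom.ker Y.θA := sup_le a1 h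
  obtain ⟨g1, g2, g3⟩ := hE J hJ h'
  have g4 := H62.pd_mono g1 (le_sup_left : Y.G'.aP ⊔ Ideal.span {C ϖ} ≤ _)
  refine ⟨_, H62.gp hY.jr g1.1 g2 g4.2.1 (den _ (Finset.mem_insert_of_mem
    (Finset.mem_image.2 ⟨⟨J, hJ, h'⟩, Finset.mem_univ _, rfl⟩)) g4), g1.2.2,
    le_sup_right.trans g1.2.1, ?_⟩
  rwa [H3.an_eq Y.G' hϖ hC (gd_of (gm_sub ax (fun _ _ => Finset.notMem_empty _) (e1 ▸ hD.gm0 _)
    (e1 ▸ hD.dm0 _)) ((hD.dm0 _).up hT))]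

end Vale.Agent.P022S.H92
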