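import Vale.Agent.P022S.Mod.Pkg
import Vale.Agent.P022S.Rw.RdH56
import Vale.Agent.P022S.Rw.Jr

/-!
# P022S: the last step
-/

set_option linter.all false

noncomputable section

namespace Vale.Agent.P022S.H34

open IsLocalRing Filter MvPowerSeries
open Vale.Agent.P022 Vale.Agent.P022S.R Vale.Agent.P022S.Loc Vale.Agent.P022S.Mp
open Vale.Agent.P022S.Mod (gd_of gm_sub Ax)
open Vale.Agent.P022D.PA (Cv Base lim)
open Vale.Agent.P022D.Core (PS io y1 Coef)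
open Vale.Agent.P022E.Loc (Pl)
open Vale.Agent.P022E.As (Tg)
open Vale.Agent.P022G (subL resJ)
open Vale.Agent.P022G.Chain (Pd)

def inc {O : Type} [CommRing O] (L : Pl O) (X : Finset ℕ) (l : (subL L X).C) : L.C :=
  ⟨l.1, (Finset.mem_sdiff.1 l.2).1⟩

theorem mX_eq {O : Type} [CommRing O] {L : Pl O} {β : Type} {τ ι' : β → Type}
    (K : Kx O β τ ι' L.C) (X : Finset ℕ) (J : Finset L.C) :
    mX K X J = P022E.As.mul2 (fun l => K.a (inc L X l)) (fun l => K.a' (inc L X l)) (resJ X J) := by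
  classical
  have mr : ∀ l : (subL L X).C, l ∈ resJ X J ↔ inc L X l ∈ J := fun l => by simp [resJ, inc]
  unfold mX Vale.Agent.P022D.As.mul2
  symm
  refine Finset.prod_bij (fun l _ => inc L X l) (fun l _ => ?_) (fun a _ b _ e => ?_)
    (fun l hl => ?_) fun l _ => ?_
  · exact Finset.mem_filter.2 ⟨Finset.mem_univ _, (Finset.mem_sdiff.1 l.2).2⟩
  · exact Subtype.ext (congrArg (fun x : L.C => (x : ℕ)) e)
  · exact ⟨⟨l.1, Finset.mem_sdiff.2 ⟨l.2, (Finset.mem_filter.1 hl).2⟩⟩, Finset.mem_univ _, rfl⟩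
  · by_cases c : l ∈ resJ X J
    · rw [if_pos c, if_pos ((mr l).1 c)]
    · rw [if_neg c, if_neg fun k => c ((mr l).2 k)]

theorem final2C (h2 : GPW) (h3 : GPO) (hK : CPK) (hV : RCOV) (hR : ROK) (h0 : RGAL0) (hF : RFIN)
    (hG : RGAL) : FINAL2 := by
  intro O F _ _ _ _ _ _ _ ϖ S L X as β τ ι' _ _ _ K n G hϖ hC kK kD Sf I Y0 W0 _ _ _ _ ses ig ib
    iJ e1 hD Z C0 p z1 z2 z3 z4 z5 z6 z7 hp hf hJ
  classical
  have hT : Sf.T ⊆ S.T := e1 ▸ Finset.sdiff_subset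
  have hI := z6.2.1.trans z7
  have ex : ∀ J : Finset L.C, ∃ E, Pd (G.aP ⊔ Ideal.span {C ϖ}) 2 E ∧ E ≤ p ∧
      ((∀ a ∈ J, (a : ℕ) ∉ X) → G.IT ϖ J ≤ p → G.IT ϖ J ≤ E ∧
        G.An (Y0 (iJ (resJ X J))) ≤ E) := fun J => by
    by_cases c : (∀ a ∈ J, (a : ℕ) ∉ X) ∧ G.IT ϖ J ≤ p
    · obtain ⟨E, a1, a2, a3⟩ := hJ J c.1 c.2
      exact ⟨E, Jr.pd a1, a2, fun _ _ => ⟨a1.2.1, a3⟩⟩
    · exact ⟨C0, z6, z7, fun a b => (c ⟨a, b⟩).elim⟩
  choose EJ E1 E2 E3 using ex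
  have hσ : ∀ E ∈ insert C0 (Finset.univ.image EJ), Pd (G.aP ⊔ Ideal.span {C ϖ}) 2 E ∧ E ≤ p :=
    fun E hE => by
      rcases Finset.mem_insert.1 hE with rfl | hE
      · exact ⟨z6, z7⟩
      · obtain ⟨J, -, rfl⟩ := Finset.mem_image.1 hE
        exact ⟨E1 J, E2 J⟩
  have H := fc_of h2 h3 O F ϖ S L X as β τ ι' K n G hϖ hC kK kD
  obtain ⟨r, s, V, _, _, _, _, _, _, Y, ht, rfl, hY, rfl, b, c, φ, Yb, Wc, Pb, _, _, _, _, _, _,
    W, d1, d2, -, tu, e, hu, hφ⟩ := hK O F ϖ S L X as β τ ι' K n G hϖ hC kK kD False (subL L X) Sf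
      I Y0 W0 ses ig ib iJ hT hD p _ hp (le_sup_left.trans hI)
      (hI (Ideal.mem_sup_right (Ideal.mem_span_singleton_self _))) hf hσ
  haveI : Base (PP O n r) := P022D.As.base O _
  haveI := P022D.As.base O (Sy n)
  haveI := P022D.As.base O (V0 τ L n S.T r)
  haveI := P022D.As.base O (V0 τ L n S.T r ⊕ Fin r)
  letI : Algebra (S0 O τ L n S.T r) (S1 O τ L n S.T r) := (io O _ r).toAlgebra
  obtain ⟨lam, A⟩ := ex_la H hY
  obtain ⟨d, hd⟩ := lim _ Y.U (P022G.Mod.DD lam Y.q φ c)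
  have dp := fun E hE => A.dp hu (hσ E hE).1.1 (hσ E hE).1.2.1 (fun m i => hφ m i E hE) hd
  have hX : Ax L X := fun l hl =>
    have hm : l ∈ L.W ∪ L.C := Finset.mem_union_right _ (hC.sub hl)
    ⟨(hC.ok.pr l hm).1, (hC.ok.hP l hm).1, (hC.ok.hP l hm).2, (hC.ok.tm l hm).tau,
      hC.unr l (hC.ok.pr l hm).1 (Or.inr hl) _ (hC.ok.hP l hm).1 (hC.ok.hP l hm).2 _
        (hC.ok.tm l hm).tau⟩
  have xT : X ⊆ S.T := fun l hl => by
    rw [hC.ok.hT]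
    exact Finset.mem_insert_of_mem (Finset.mem_insert_of_mem
      (Finset.mem_union_right _ (hC.sub hl)))
  have v := hV O F ϖ S L X as β τ ι' K n _ hϖ hC kK kD r s V Y ht rfl hY
  have f := hF O F ϖ S L X as β τ ι' K n _ hϖ hC kK kD r s V Y ht rfl hY
  rw [H.an_eq Y.G' (gd_of (gm_sub hX (fun _ _ => Finset.notMem_empty _) (e1 ▸ hD.gmW)
    (e1 ▸ hD.dmW)) (hD.dmW.up hT))]
  refine H78.final A.la (H56.pc_rd hG hϖ hC kK kD ht hY A.la.lv) hX xT e1 hD W d1 d2 hd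
    (Jr.lz hY.jr v.2.2.2.1 v.2.2.2.2.1)
    (hR O F ϖ S L X as β τ ι' K n _ hϖ hC kK kD r s V Y ht rfl hY)
    (fun l => (kK.ok Empty).odd (inc L X l)) (fun l => (kK.ok Empty).odd' (inc L X l))
    (mX_eq K X) f.1 f.2 z1 (z5.trans z7) z2 (fun k => z4 (hY.jr.c ϖ ▸ k))
    (fun k => dp C0 (Finset.mem_insert_self _ _) (z5 k))
    ((h0 O F ϖ S L X as β τ ι' K n _ hϖ hC kK kD r s V Y ht rfl hY).2 _ (Ideal.comap_mono z2)
      fun l hl => Jr.tau_le hY.jr _ (z3 l hl)) fun J j1 j2 => ?_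
  obtain ⟨k1, k2⟩ := E3 J j1 (sup_le hI j2)
  refine ⟨EJ J, Jr.gp hY.jr (E1 J).1 (E1 J).2.1 (E2 J)
    (dp _ (Finset.mem_insert_of_mem (Finset.mem_image_of_mem _ (Finset.mem_univ J)))),
    (E1 J).2.2, le_sup_right.trans k1, ?_⟩
  rwa [← H.an_eq Y.G' (gd_of (gm_sub hX (fun _ _ => Finset.notMem_empty _) (e1 ▸ hD.gm0 _)
    (e1 ▸ hD.dm0 _)) ((hD.dm0 _).up hT))]

end Vale.Agent.P022S.H34
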