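import Vale.Agent.P022S.Mod.Pkg
import Vale.Agent.P022S.Rw.JrH62
import Vale.Agent.P022S.Pt.Fin

/-!
# P022S: the last step
-/

set_option linter.all false

open IsLocalRing Filter MvPowerSeries NumberField

noncomputable section

namespace Vale.Agent.P022S.H42

open Vale.Agent.P022 Vale.Agent.P022S.R Vale.Agent.P022S.Loc Vale.Agent.P022S.Mp
open Vale.Agent.P022S.Mod (gd_of Ax lv_sub dm_op gm0_sub gm_sub gs_unr)
open Vale.Agent.P022G (subL resJ)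
open Vale.Agent.P022G.Fin (inc mem_res)
open Vale.Agent.P022G.Mod (Gd uu ann_pi Op iO_pos sb0_sub)
open Vale.Agent.P022G.Chain (Pd)
open Vale.Agent.P022E.As (Tg cc tt mul2)
open Vale.Agent.P022E.Loc (Pl)
open Vale.Agent.P022D.Core (PS io)
open Vale.Agent.P022D.PA (Base lim)

theorem mX_eq {O : Type} [CommRing O] {L : Pl O} {β : Type} {τ ι' : β → Type} (K : Kx O β τ ι' L.C) (X : Finset ℕ) (J : Finset L.C) :
    mX K X J = mul2 (fun l => K.a (inc L X l)) (fun l => K.a' (inc L X l)) (resJ X J) := by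
  classical
  unfold mX mul2
  symm
  refine Finset.prod_bij (fun l _ => inc L X l) (fun l _ => ?_) (fun a _ b _ e => ?_)
    (fun l hl => ?_) fun l _ => ?_
  · exact Finset.mem_filter.2 ⟨Finset.mem_univ _, (Finset.mem_sdiff.1 l.2).2⟩
  · exact Subtype.ext (congrArg (fun x : L.C => (x : ℕ)) e)
  · exact ⟨⟨l.1, Finset.mem_sdiff.2 ⟨l.2, (Finset.mem_filter.1 hl).2⟩⟩, Finset.mem_univ _, rfl⟩
  · by_cases c : l ∈ resJ X J
    · rw [if_pos c, if_pos (mem_res.1 c)]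
    · rw [if_neg c, if_neg fun k => c (mem_res.2 k)]

theorem final2C (h2 : GPW) (h3 : GPO) (h4 : CPK) (h5 : RGAL) (h6 : RCOV) (h7 : ROK) (h8 : RGAL0)
    (h9 : RFIN) : FINAL2 := by
  intro O F _ _ _ _ _ _ _ ϖ S L X as β τ ι' _ _ _ K n G hϖ hC hK hK' Sf I Y0 W0 _ _ _ _ ses ig ib
    iJ e1 hD Z C0 p hZ z1 z2 z3 z4 z5 z6 hp hf hE
  classical
  have e3 : Sf.T ⊆ S.T := e1 ▸ Finset.sdiff_subset
  have k0 : ∀ J : Finset L.C, ∃ E, Pd (G.aP ⊔ Ideal.span {C ϖ}) 2 E ∧ E ≤ p ∧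
      ((∀ a ∈ J, (a : ℕ) ∉ X) → G.IT ϖ J ≤ p →
        G.IT ϖ J ≤ E ∧ G.An (Y0 (iJ (resJ X J))) ≤ E) := fun J => by
    by_cases c : (∀ a ∈ J, (a : ℕ) ∉ X) ∧ G.IT ϖ J ≤ p
    · obtain ⟨E, a1, a2, a3⟩ := hE J c.1 c.2
      exact ⟨E, H62.pd_mono a1 le_sup_left, a2, fun _ _ => ⟨a1.2.1, a3⟩⟩
    · exact ⟨C0, z5, z6, fun a b => absurd ⟨a, b⟩ c⟩
  choose EJ j1 j2 j3 using k0
  have zp := z5.2.1.trans z6
  obtain ⟨r, s, V, _, _, _, _, _, _, Y, b1, rfl, b3, rfl, b, c, φ, Yb, Wc, Pb, _, _, _, _, _, _,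
    W', dY, dW, -, tu, e, hu, hφ⟩ := h4 O F ϖ S L X as β τ ι' K n G hϖ hC hK hK' False (subL L X)
      Sf I Y0 W0 ses ig ib iJ e3 hD p (insert C0 (Finset.univ.image EJ)) hp (le_sup_left.trans zp)
      (zp (Ideal.mem_sup_right (Ideal.mem_span_singleton_self _))) hf fun E h => by
        rcases Finset.mem_insert.1 h with rfl | h
        · exact ⟨z5, z6⟩
        · obtain ⟨J, -, rfl⟩ := Finset.mem_image.1 h
          exact ⟨j1 J, j2 J⟩
  haveI := P022D.As.base O (Sy (n + r) ⊕ Fin r)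
  haveI := P022D.As.base O (Sy n)
  haveI : Base (S0 O τ L n S.T r) := P022D.As.base O _
  haveI : Base (S1 O τ L n S.T r) := P022D.As.base O _
  letI : Algebra (S0 O τ L n S.T r) (S1 O τ L n S.T r) := (io O _ r).toAlgebra
  obtain ⟨lam, A⟩ := ex_la (fc_of h2 h3 O F ϖ S L X as β τ ι' K n Y.G' hϖ hC hK hK') b3
  have hR : Rg Y ϖ X := fun N _ _ W h =>
    h5 O F ϖ S L X as β τ ι' K n _ hϖ hC hK hK' r s V Y b1 rfl b3 N W h
  obtain ⟨-, -, -, c4, c5, -⟩ := h6 O F ϖ S L X as β τ ι' K n _ hϖ hC hK hK' r s V Y b1 rfl b3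
  have ok := h7 O F ϖ S L X as β τ ι' K n _ hϖ hC hK hK' r s V Y b1 rfl b3
  obtain ⟨-, g0⟩ := h8 O F ϖ S L X as β τ ι' K n _ hϖ hC hK hK' r s V Y b1 rfl b3
  obtain ⟨f1, f2⟩ := h9 O F ϖ S L X as β τ ι' K n _ hϖ hC hK hK' r s V Y b1 rfl b3
  have hX : Ax L X := fun l hl =>
    have hm : l ∈ L.W ∪ L.C := Finset.mem_union_right _ (hC.sub hl)
    ⟨(hC.ok.pr l hm).1, (hC.ok.hP l hm).1, (hC.ok.hP l hm).2, (hC.ok.tm l hm).tau,
      hC.unr l (hC.ok.pr l hm).1 (Or.inr hl) _ (hC.ok.hP l hm).1 (hC.ok.hP l hm).2 _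
        (hC.ok.tm l hm).tau⟩
  have hq : ∀ m i, Y.q m i ∉ X := fun m i h => (b3.gn m i).1 (by
    rw [hC.ok.hT]
    exact Finset.mem_insert_of_mem (Finset.mem_insert_of_mem
      (Finset.mem_union_right _ (hC.sub h))))
  have hQ : ∀ m, ∀ l ∈ X, l ∉ Finset.univ.image (Y.q m) := fun m l hl k => by
    obtain ⟨i, -, rfl⟩ := Finset.mem_image.1 k
    exact hq m i hl
  have W := fun m => lv_sub hX e1 e3 (hq m) (W' m) (dY m) (dW m)
  have g1 : ∀ m i, Gd (gg Y ϖ m) (Op (Yb m) i) := fun m i =>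
    gd_of ((W m).gm i) (dm_op (fun i => (dY m i).up e3) i)
  have g2 : ∀ m, Gd (gg Y ϖ m) (Wc m) := fun m => gd_of (W m).gmC ((dW m).up e3)
  have gz := fun i => gd_of (gm0_sub hX (fun i => e1 ▸ hD.gm0 i)
    (fun i => e1 ▸ hD.dm0 i) i) (dm_op (fun i => (hD.dm0 i).up e3) i)
  choose m1 cY using fun m i => A.mod m (g1 m i)
  choose m2 cW using fun m => A.mod m (g2 m)
  choose m0 c0 an using fun i => A.mod0 (gz i)
  obtain ⟨m3, c3, an3⟩ := A.mod0 (N := W0) (gd_of (gm_sub hX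
    (fun _ _ => Finset.notMem_empty _) (e1 ▸ hD.gmW) (e1 ▸ hD.dmW)) (hD.dmW.up e3))
  choose a ha using fun i => lim _ Y.U fun m => uu lam Y.τq m i
  obtain ⟨d, hd⟩ := lim _ Y.U (P022G.Mod.DD lam Y.q φ c)
  have M := A.md hR W g1 (sb0_sub hD.sb0) cY (fun m i => c0 i m) ha hd
  have d0 : Y.jr d ∉ C0 :=
    A.dp hu z5.1 z5.2.1 (fun m i => hφ m i _ (Finset.mem_insert_self _ _)) hd
  have dJ : ∀ J, Y.jr d ∉ EJ J := fun J => A.dp hu (j1 J).1 (j1 J).2.1 (fun m i => hφ m i _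
    (Finset.mem_insert_of_mem (Finset.mem_image_of_mem _ (Finset.mem_univ J)))) hd
  intro f hf
  obtain ⟨t, rfl⟩ := c5 f
  refine (H62.lz b3.jr c4 c5).final ok (ig := some ig) (Wc := Wc)
    (A.la.tw.dm W (sb0_sub hD.sb0) cY fun m i => c0 i m) (A.la.tw.df W cY cW) M le_sup_left
    (A.gal3 hR cW (fun m => (W m).diaC) g2 fun l hl g m w =>
      (Ideal.mem_torsionOf_iff _ _).1 ((gs_unr hX (hQ m)
        (gd_of (e1 ▸ (W' m).gmC) (e1 ▸ dW m) w) l hl).1 g))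
    (m := mX K X) (fun J => ∀ l ∈ J, (l : ℕ) ∉ X)
    (fun J h l hl k => h l (by
      rintro _ ⟨x, rfl⟩
      exact Ideal.mem_sup_right (Ideal.subset_span ⟨l, k, x.1, x.2, rfl⟩)) hl) (fun N hN J hJ => by
      rw [iO_pos hJ, mX_eq]
      exact hD.comb _ _ (fun l => (hK.ok Unit).odd (inc L X l))
        (fun l => (hK.ok Unit).odd' (inc L X l)) (fun i => N (some i))
        (fun i j k h => hN _ _ _ ⟨i, j, k, h, rfl, rfl, rfl⟩) _)
    ⟨Finset.univ.map Function.Embedding.inr, c, fun m => by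
      rw [Finset.prod_map]
      exact A.la.tw.cyc (q := Y.q) (φ := φ) (Yb := fun m => Op (Yb m)) (W m) (cW m)⟩
    (fun J i 𝔮 hq k1 k2 => ⟨_, A.sep (fun m => cY m _) (fun m => (W m).dia _) ha i 𝔮 hq.pr k1 k2⟩)
    f1 f2 hZ (z4.trans z6) z1 (fun k => z3 ((b3.jr.c ϖ).symm.trans rfl ▸ k)) (fun k => d0 (z4 k))
    (g0 _ (Ideal.comap_mono z1) fun l hl => H62.tau_le b3.jr _ (z2 l hl)) (fun J hJ k => ?_) t
    fun m w w1 w2 => ?_
  · obtain ⟨k1, k2⟩ := j3 J hJ (sup_le zp k)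
    refine ⟨EJ J, H62.gp b3.jr (j1 J).1 (j2 J) (j1 J).2.1 (dJ J), (j1 J).2.2,
      le_sup_right.trans k1, ?_⟩
    rw [ann_pi, an, iO_pos hJ]
    exact Ideal.comap_mono k2
  · obtain ⟨σ, -, k⟩ := (W m).desc m le_rfl w ((A.la.tw.pw (cW m) m w).symm.trans w1)
      ((A.la.tw.fix (cW m)).1 w2)
    obtain ⟨z, z6, z7⟩ := H78.two (A.la.tw.fm m) (cW m) (c3 m) w σ t
    rw [mul_smul, z6, P022G.Mod.DD, A.la.tw.sm (cW m), ← mul_smul]
    exact k z fun v hv => (z7 v hv).symm.trans (Module.mem_annihilator.1 (an3.ge hf) v)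

end Vale.Agent.P022S.H42
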