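import Vale.Agent.P022S.Rw.JrH62
import Vale.Agent.P022S.Rw.RdH56
import Vale.Agent.P022S.Mod.Pkg
import Vale.Agent.P022S.Rows2

/-!
# P022S: the last step
-/

set_option linter.all false

noncomputable section

namespace Vale.Agent.P022S.H62

open IsLocalRing MvPowerSeries
open Vale.Agent.P022 Vale.Agent.P022S.R Vale.Agent.P022S.Loc
open Vale.Agent.P022D.Core (PS io y1 Coef)
open Vale.Agent.P022D.PA (lim)
open Vale.Agent.P022E.Loc (Pl)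
open Vale.Agent.P022E.As (mul2)
open Vale.Agent.P022G (subL resJ)
open Vale.Agent.P022G.Fin (inc mem_res)
open Vale.Agent.P022G.Chain (Pd)
open Vale.Agent.P022S.Mp (fc_of ex_la)

theorem mX_eq {O : Type} [CommRing O] {L : Pl O} {β : Type} {τ ι' : β → Type}
    (K : Kx O β τ ι' L.C) (X : Finset ℕ) (J : Finset L.C) :
    mX K X J = mul2 (fun l => K.a (inc L X l)) (fun l => K.a' (inc L X l)) (resJ X J) := by
  classical
  unfold mX mul2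
  symm
  refine Finset.prod_bij (fun l _ => inc L X l) (fun l _ => ?_) (fun a _ b _ e => ?_)
    (fun l hl => ?_) fun l _ => ?_
  · exact Finset.mem_filter.2 ⟨Finset.mem_univ _, (Finset.mem_sdiff.1 l.2).2⟩
  · exact Subtype.ext (congrArg (fun x : L.C => (x : ℕ)) e)
  · exact ⟨⟨l.1, Finset.mem_sdiff.2 ⟨l.2, (Finset.mem_filter.1 hl).2⟩⟩, Finset.mem_univ _, rfl⟩
  · by_cases c : l ∈ resJ X J
    · rw [if_pos c, if_pos (mem_res.1 c)]
    · rw [if_neg c, if_neg fun k => c (mem_res.2 k)]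

theorem ex_fin {α A : Type} [Finite α] {P : α → Prop} {Q : α → A → Prop}
    (h : ∀ J, P J → ∃ E, Q J E) (C0 : A) : ∃ σ : Finset A, C0 ∈ σ ∧
      (∀ J, P J → ∃ E ∈ σ, Q J E) ∧ ∀ E ∈ σ, E = C0 ∨ ∃ J, Q J E := by
  classical
  choose f hf using h
  haveI := Fintype.ofFinite {J // P J}
  refine ⟨insert C0 (Finset.univ.image fun J : {J // P J} => f J.1 J.2), Finset.mem_insert_self _ _,
    fun J k => ⟨f J k, Finset.mem_insert_of_mem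
      (Finset.mem_image.2 ⟨⟨J, k⟩, Finset.mem_univ _, rfl⟩), hf J k⟩, fun E hE => ?_⟩
  rcases Finset.mem_insert.1 hE with k | k
  · exact Or.inl k
  · obtain ⟨J, -, rfl⟩ := Finset.mem_image.1 k
    exact Or.inr ⟨J.1, hf J.1 J.2⟩

theorem final2C (hW : GPW) (hO : GPO) (hK : CPK) (hG : RGAL) (hV : RCOV) (hR : ROK) (h0 : RGAL0)
    (hF : RFIN) : FINAL2 := by
  intro O F _ _ _ _ _ _ _ ϖ S L X as β τ ι' _ _ _ K n G hϖ hC kK kK' Sf I Y0 W0 _ _ _ _ ses ig ib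
    iJ e1 hD Z C0 p z1 z2 z3 z4 z5 z6 z7 hp z8 hE
  have hT : Sf.T ⊆ S.T := e1 ▸ Finset.sdiff_subset
  obtain ⟨σ, s1, s2, s3⟩ := ex_fin (P := fun J : Finset L.C => (∀ a ∈ J, (a : ℕ) ∉ X) ∧ G.IT ϖ J ≤ p)
    (fun J k => hE J k.1 k.2) C0
  have hI := z6.2.1.trans z7
  have s4 : ∀ E ∈ σ, Pd (G.aP ⊔ Ideal.span {C ϖ}) 2 E ∧ E ≤ p := fun E k => by
    rcases s3 E k with rfl | ⟨J, k1, k2, -⟩
    · exact ⟨z6, z7⟩
    · exact ⟨pd_mono k1 le_sup_left, k2⟩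
  obtain ⟨r, s, V, _, _, _, _, _, _, Y, ht, rfl, hY, rfl, b, c, φ, Yb, Wc, Pb, _, _, _, _, _, _,
    W, dY, dW, -, tu, e, hu, hφ⟩ := hK O F ϖ S L X as β τ ι' K n G hϖ hC kK kK' False (subL L X) Sf I
      Y0 W0 ses ig ib iJ hT hD p σ hp (le_sup_left.trans hI)
      (hI (Ideal.mem_sup_right (Ideal.mem_span_singleton_self _))) z8 s4
  haveI := P022D.As.base O (Sy (n + r) ⊕ Fin r)
  haveI := P022D.As.base O (Sy n)
  haveI := P022D.As.base O (V0 τ L n S.T r)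
  haveI := P022D.As.base O (V0 τ L n S.T r ⊕ Fin r)
  letI : Algebra (S0 O τ L n S.T r) (S1 O τ L n S.T r) := (io O _ r).toAlgebra
  have H := fc_of hW hO O F ϖ S L X as β τ ι' K n Y.G' hϖ hC kK kK'
  obtain ⟨lam, A⟩ := ex_la H hY
  have R := H56.pc_rd hG hϖ hC kK kK' ht hY A.la.lv
  obtain ⟨d, hd⟩ := lim _ Y.U (P022G.Mod.DD lam Y.q φ c)
  have den : ∀ E ∈ σ, Y.jr d ∉ E := fun E k =>
    A.dp hu (s4 E k).1.1 (s4 E k).1.2.1 (fun m i => hφ m i E k) hd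
  obtain ⟨-, -, -, c1, c2, -⟩ := hV O F ϖ S L X as β τ ι' K n _ hϖ hC kK kK' r s V Y ht rfl hY
  obtain ⟨f1, f2⟩ := hF O F ϖ S L X as β τ ι' K n _ hϖ hC kK kK' r s V Y ht rfl hY
  have hX : Mod.Ax L X := fun l hl =>
    have m : l ∈ L.W ∪ L.C := Finset.mem_union_right _ (hC.sub hl)
    ⟨(hC.ok.pr l m).1, (hC.ok.hP l m).1, (hC.ok.hP l m).2, (hC.ok.tm l m).tau,
      hC.unr l (hC.ok.pr l m).1 (Or.inr hl) _ (hC.ok.hP l m).1 (hC.ok.hP l m).2 _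
        (hC.ok.tm l m).tau⟩
  have hXT : X ⊆ S.T := fun l hl => by
    rw [hC.ok.hT]
    exact Finset.mem_insert_of_mem (Finset.mem_insert_of_mem
      (Finset.mem_union_right _ (hC.sub hl)))
  rw [H.an_eq Y.G' (H94.gd_sub hC (e1 ▸ hD.gmW) (e1 ▸ hD.dmW))]
  refine H78.final A.la R hX hXT e1 hD W dY dW hd (lz hY.jr c1 c2)
    (hR O F ϖ S L X as β τ ι' K n _ hϖ hC kK kK' r s V Y ht rfl hY)
    (fun l => (kK.ok Unit).odd (inc L X l)) (fun l => (kK.ok Unit).odd' (inc L X l))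
    (mX_eq K X) f1 f2 z1 (z5.trans z7) z2 (fun k => z4 (hY.jr.c ϖ ▸ k)) (fun k => den _ s1 (z5 k))
    ((h0 O F ϖ S L X as β τ ι' K n _ hϖ hC kK kK' r s V Y ht rfl hY).2 _ (Ideal.comap_mono z2)
      fun l hl => tau_le hY.jr _ (z3 l hl)) fun J hJ k => ?_
  obtain ⟨E, k0, k1, k2, k3⟩ := s2 J ⟨hJ, sup_le hI k⟩
  refine ⟨E, gp hY.jr k1.1 k2 (le_sup_left.trans k1.2.1) (den E k0), k1.2.2,
    le_sup_right.trans k1.2.1, ?_⟩
  rwa [← H.an_eq Y.G' (H94.gd_sub hC (e1 ▸ hD.gm0 _) (e1 ▸ hD.dm0 _))]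

end Vale.Agent.P022S.H62
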