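import Vale.Agent.P022S.Rw.FinAH79
import Vale.Agent.P022S.Rw.LvP
import Vale.Agent.P022S.Rw.DenH99
import Vale.Agent.P022S.Rw.Pkg0
import Vale.Agent.P022S.Rows2

/-!
# P022S: the last step
-/

set_option linter.all false

noncomputable section

namespace Vale.Agent.P022S.H79

open NumberField IsLocalRing MvPowerSeries Filter
open Vale.Agent.P022 Vale.Agent.P022S.R Vale.Agent.P022S.Loc
open Vale.Agent.P022D.Core (PS Coef io y1)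
open Vale.Agent.P022D.PA (Base Cv lim)
open Vale.Agent.P022E.Loc (Pl)
open Vale.Agent.P022E.As (Tg cc tt dd yy mT)
open Vale.Agent.P022G (Hm subL resJ)
open Vale.Agent.P022G.Chain (Pd)
open Vale.Agent.P022G.Mod (Gd)
open Vale.Agent.P022S.Mod (GS gd_of gm_sub Dm.up)

theorem final2C (hK : CPK) (hG : RGAL) (hV : RCOV) (h0 : RGAL0) (hF : RFIN) (hR : ROK) :
    FINAL2 := by
  intro O F _ _ _ _ _ _ _ ϖ S L X as β τ ι' _ _ _ K n G hϖ hC k1 k2 Sf I Y0 W0 _ _ _ _ ses ig ib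
    iJ e1 hD Z C0 p z1 z2 z3 z4 z5 c1 c2 hp z6 hE
  classical
  have hT : Sf.T ⊆ S.T := e1 ▸ Finset.sdiff_subset
  choose EJ hEJ using hE
  let f : Finset L.C → Ideal (PS O (Sy n)) := fun J =>
    if h : (∀ a ∈ J, (a : ℕ) ∉ X) ∧ G.IT ϖ J ≤ p then EJ J h.1 h.2 else C0
  have hf : ∀ J, Pd (G.aP ⊔ Ideal.span {C ϖ}) 2 (f J) ∧ f J ≤ p := fun J => by
    by_cases h : (∀ a ∈ J, (a : ℕ) ∉ X) ∧ G.IT ϖ J ≤ p
    · have e : f J = EJ J h.1 h.2 := dif_pos h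
      obtain ⟨a, b, -⟩ := hEJ J h.1 h.2
      rw [e]
      exact ⟨⟨a.1, le_sup_left.trans a.2.1, a.2.2⟩, b⟩
    · have e : f J = C0 := dif_neg h
      rw [e]
      exact ⟨c1, c2⟩
  have p0 : G.aP ⊔ Ideal.span {C ϖ} ≤ p := c1.2.1.trans c2
  obtain ⟨r, s, V, _, _, _, _, _, _, Y, ht, rfl, hY, rfl, b, c, φ, Yb, Wc, Pb, _, _, _, _, _, _,
    V0, d1, d2, -, tu, e, hu, hφ⟩ := hK O F ϖ S L X as β τ ι' K n G hϖ hC k1 k2 False (subL L X) Sf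
    I Y0 W0 ses ig ib iJ hT hD p (insert C0 (Finset.univ.image f)) hp (le_sup_left.trans p0)
    (p0 (Ideal.mem_sup_right (Ideal.mem_span_singleton_self _))) z6 fun E hE => by
      rcases Finset.mem_insert.1 hE with rfl | hE
      · exact ⟨c1, c2⟩
      · obtain ⟨J, -, rfl⟩ := Finset.mem_image.1 hE
        exact hf J
  haveI : Base (PP O n r) := P022D.As.base O _
  haveI : Base (PS O (Sy n)) := P022D.As.base O _
  haveI : Base (S0 O τ L n S.T r) := P022D.As.base O _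
  haveI : Base (S1 O τ L n S.T r) := P022D.As.base O _
  letI : Algebra (S0 O τ L n S.T r) (S1 O τ L n S.T r) := (io O _ r).toAlgebra
  obtain ⟨lam, A⟩ := (H3.pc_lv hϖ hC hY).ex
  obtain ⟨d, hd⟩ := lim (PP O n r) Y.U (P022G.Mod.DD lam Y.q φ c)
  obtain ⟨-, -, -, c4, c5, -⟩ := hV O F ϖ S L X as β τ ι' K n _ hϖ hC k1 k2 r s V Y ht rfl hY
  obtain ⟨-, g0⟩ := h0 O F ϖ S L X as β τ ι' K n _ hϖ hC k1 k2 r s V Y ht rfl hY
  obtain ⟨f1, f2⟩ := hF O F ϖ S L X as β τ ι' K n _ hϖ hC k1 k2 r s V Y ht rfl hY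
  have ok := hR O F ϖ S L X as β τ ι' K n _ hϖ hC k1 k2 r s V Y ht rfl hY
  have dn : ∀ E, Pd (Y.G'.aP ⊔ Ideal.span {C ϖ}) 2 E → E ∈ insert C0 (Finset.univ.image f) →
      Y.jr d ∉ E := fun E h1 h2 => H99D.den Y.G' hϖ hC A c5
    (fun m i => H99D.odd_q hC (hY.gn m i)) hu h1 (fun m i => hφ m i E h2) hd
  have jp : Y.jr (Y.rd ϖ).π = C ϖ := hY.jr.c ϖ
  have an : ∀ (N : Type) [AddCommGroup N] [Module (Tg O) N],
      P022E.As.Gm ϖ (subL L X) Sf.T ∅ 0 N → Mod.Dm O Sf.T ∅ N →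
      Mod.A0 (vT Y.G'.rc Y.G'.γ) N = Y.G'.An N := fun N _ _ a1 a2 =>
    H3.an_eq Y.G' hϖ hC (gd_of (gm_sub (ax hC) (fun _ _ => Finset.notMem_empty _) (e1 ▸ a1)
      (e1 ▸ a2)) (a2.up hT))
  rw [← an W0 hD.gmW hD.dmW]
  refine H78.final A (H3.pc_rd hG hϖ hC k1 k2 ht hY) (ax hC) (xT hC) e1 hD V0 d1 d2 hd
    (p := RingHom.ker Y.θA) (e := Y.G'.aP) (IA := IPt Y.G'.rc id Y.G'.iτ Y.G'.iφ)
    ⟨c5, c4, le_rfl, fun J Z _ => ip_iff hY.jr J Z⟩ ok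
    (fun l => (k1.ok Empty).odd (P022G.Fin.inc L X l))
    (fun l => (k1.ok Empty).odd' (P022G.Fin.inc L X l)) (mX_eq K X) f1 f2 z1 (z5.trans c2) z2
    (jp ▸ z4) (fun k => dn C0 c1 (Finset.mem_insert_self _ _) (z5 k))
    (g0 _ (Ideal.comap_mono z2) fun l hl => tau_up hY.jr _ (z3 l hl)) fun J hJ k => ?_
  have h : Y.G'.IT ϖ J ≤ RingHom.ker Y.θA := sup_le p0 k
  have e2 : f J = EJ J hJ h := dif_pos ⟨hJ, h⟩
  obtain ⟨a1, a2, a3⟩ := hEJ J hJ h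
  refine ⟨EJ J hJ h, ⟨a1.1, a2, le_sup_left.trans (le_sup_left.trans a1.2.1), jp ▸ a1.2.1
    (Ideal.mem_sup_left (Ideal.mem_sup_right (Ideal.mem_span_singleton_self _))),
    dn _ (e2 ▸ (hf J).1) (Finset.mem_insert_of_mem
      (Finset.mem_image.2 ⟨J, Finset.mem_univ _, e2⟩))⟩, a1.2.2, le_sup_right.trans a1.2.1, ?_⟩
  rw [an _ (hD.gm0 _) (hD.dm0 _)]
  exact a3

end Vale.Agent.P022S.H79
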