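import Vale.Agent.P022S.Rows

/-! # P022S, row GPG: the traces are generated by the symbols -/

set_option linter.all false

noncomputable section

namespace Vale.Agent.P022S.H10

open Vale.Agent.P022 Vale.Agent.P022.H346 Vale.Agent.P022S.R
open Vale.Agent.P022G.Word (wd)
open Vale.Agent.P022E.Loc (Pl)
open Vale.Agent.P022D.Sel (M2)
open Vale.Agent.P022S.Mod (Gen2)

variable {O F : Type} [CommRing O] [Field F] [CharP F 2] {S : Dat O F} {B : Type} [CommRing B]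

theorem N_open (Z : PO S B) : IsOpen (Kd.N Z.t Z.d : Set GQ) := by
  obtain ⟨U, hU, h⟩ := Z.opn
  exact Subgroup.isOpen_mono (H₁ := U) (fun u hu => h u hu) hU

theorem pow_N (Z : PO S B) (g : GQ) : ∃ k : ℕ, g ^ 2 ^ k ∈ Kd.N Z.t Z.d := by
  haveI := Z.fin
  obtain ⟨k, hk⟩ := Kd.nil Z.π Z.loc
  refine ⟨k, Kd.pow_mem Z.tf _ hk ?_ (Z.rt g) ?_⟩
  · rw [RingHom.mem_ker, map_ofNat]; exact CharTwo.two_eq_zero
  · rw [RingHom.mem_ker, map_sub, map_one, Z.rd, sub_self]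

/-- the generators generate modulo the kernel of a pseudo object -/
theorem gen_N {L : Pl O} {Q : Finset ℕ} (Z : PO S B) (hZ : Z.Cl L Q) {ι : Type} {γ : ι → GQ}
    (hG : Gen2 S.T Q γ) (g : GQ) :
    ∃ w ∈ Subgroup.closure (Set.range γ), g⁻¹ * w ∈ Kd.N Z.t Z.d := by
  haveI := Kd.N_normal Z.tf
  exact hG.mod _ (N_open Z) (pow_N Z) hZ.unr g

theorem gen {L : Pl O} {Q : Finset ℕ} (Z : PO S B) (hZ : Z.Cl L Q) {m : ℕ} {γ : Fin m → GQ}
    (hG : Gen2 S.T Q γ) (rc : Fin m → M2 O) (R : Subring B) (h1 : ∀ o, Z.ι o ∈ R)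
    (h2 : ∀ s, Z.val rc γ s ∈ R) (g : GQ) : Z.t g ∈ R ∧ (Z.d g : B) ∈ R := by
  haveI := Z.fin
  refine Kd.gen Z.tf γ _ (gen_N Z hZ hG) le_rfl R (fun s => ?_) (fun i => ?_) g
  · have := R.add_mem (h2 (Sum.inl s)) (h1 (wm rc s).trace)
    rwa [PO.val, gv, Sum.elim_inl, sub_add_cancel] at this
  · have := R.add_mem (h2 (Sum.inr i)) (h1 (rc i).det)
    rwa [PO.val, gv, Sum.elim_inr, sub_add_cancel] at this

theorem gpgC : GPG := by
  intro O F _ _ _ _ _ _ _ ϖ S L X as β τ ι' _ _ _ K n G _ _ _ _ r q τ' hq B _ Z hZ R h1 h2 g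
  exact gen Z hZ (G.gen r q τ' hq) _ R h1 h2 g

end Vale.Agent.P022S.H10
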