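import Vale.Agent.P022S.Rows

/-!
# P022S: the traces are generated by the symbols
-/

set_option linter.all false

noncomputable section

namespace Vale.Agent.P022S

open NumberField
open Vale.Agent.P022 Vale.Agent.P022.H346 Vale.Agent.P022S.R
open Vale.Agent.P027M.S (Inert)
open Vale.Agent.P022E.Loc (Pl)
open Vale.Agent.P022G.Word (wd)
open Vale.Agent.P022S.Mod (Gen2)

namespace H99

variable {O F : Type} [CommRing O] [Field F] {S : Dat O F} {B : Type} [CommRing B] (Z : PO S B)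

theorem N_open : IsOpen (Kd.N Z.t Z.d : Set GQ) := by
  obtain ⟨U, hU, h⟩ := Z.opn
  exact Subgroup.isOpen_mono (H₁ := U) (fun u hu => Kd.mem_N.2 (h u hu)) hU

theorem pow_N (g : GQ) : ∃ k : ℕ, g ^ 2 ^ k ∈ Kd.N Z.t Z.d := by
  haveI := Z.fin
  obtain ⟨n, hn⟩ := Kd.nil Z.π Z.loc
  refine ⟨n, Kd.pow_mem Z.tf _ hn ?_ (Z.rt g) ?_⟩
  · rw [← Z.tf.one]; exact Z.rt 1
  · rw [RingHom.mem_ker, map_sub, map_one, Z.rd, sub_self]

/-- generators modulo the kernel of a pseudo object -/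
theorem gen_mod {L : Pl O} {Q : Finset ℕ} (h : Z.Cl L Q) {ι : Type} {γ : ι → GQ}
    (hG : Gen2 S.T Q γ) (g : GQ) :
    ∃ w ∈ Subgroup.closure (Set.range γ), g⁻¹ * w ∈ Kd.N Z.t Z.d := by
  haveI := Kd.N_normal Z.tf
  exact hG.mod _ (N_open Z) (pow_N Z)
    (fun l a1 a2 a3 P a4 a5 s a6 => Kd.mem_N.2 (h.unr l a1 a2 a3 P a4 a5 s a6)) g

/-- the traces and determinants lie in every subring which contains the symbols -/
theorem gen_sub {L : Pl O} {Q : Finset ℕ} (h : Z.Cl L Q) {m : ℕ} {γ : Fin m → GQ}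
    (hG : Gen2 S.T Q γ) (rc : Fin m → P022D.Sel.M2 O) (R : Subring B) (h0 : ∀ o, Z.ι o ∈ R)
    (h1 : ∀ s, Z.val rc γ s ∈ R) (g : GQ) : Z.t g ∈ R ∧ (Z.d g : B) ∈ R := by
  haveI := Z.fin
  refine Kd.gen Z.tf γ _ (gen_mod Z h hG) le_rfl R (fun s => ?_) (fun i => ?_) g
  · have := R.add_mem (h1 (Sum.inl s)) (h0 (wm rc s).trace)
    simpa [PO.val, gv] using this
  · have := R.add_mem (h1 (Sum.inr i)) (h0 (rc i).det)
    simpa [PO.val, gv] using this

end H99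

theorem gpgC : GPG := by
  intro O F _ _ _ _ _ _ _ ϖ S L X as β τ ι' _ _ _ K n G _ _ _ _ r q τ' hq B _ Z hZ R h0 h1 g
  exact H99.gen_sub Z hZ (G.gen r q τ' hq) _ R h0 h1 g

end Vale.Agent.P022S
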