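import Vale.Agent.P022S.Rows
import Vale.Agent.P022G.Kdel

/-! # P022S, row GPO: kernels of points, intersections, the pseudo object of an object -/

set_option linter.all false

noncomputable section

namespace Vale.Agent.P022S.H97

open NumberField IsLocalRing
open Vale.Agent.P022 Vale.Agent.P022.H346 Vale.Agent.P022S.R Vale.Agent.P022S.Loc
open Vale.Agent.P027M.S (Inert mx)
open Vale.Agent.P022D.Sel (M2)
open Vale.Agent.P022E.Loc (Pl)
open Vale.Agent.P022E.As (Tg cc tt dd yy)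

variable {O F : Type} [CommRing O] [Field F] {S : Dat O F} {L : Pl O}

/-- the residue maps of two standard points agree -/
theorem pi_eq {B B' : Type} [CommRing B] [CommRing B'] {Z : PO S B} {Z' : PO S B'}
    {u : Tg O →+* B} {u' : Tg O →+* B'} (h : Z.Std u) (h' : Z'.Std u')
    (hy : ∀ i, Z.π (u (yy i)) = 0) (hy' : ∀ i, Z'.π (u' (yy i)) = 0) (p : Tg O) :
    Z.π (u p) = Z'.π (u' p) := by
  have : Z.π.comp u = Z'.π.comp u' := by
    refine MvPolynomial.ringHom_ext (fun o => ?_) fun s => ?_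
    · change Z.π (u (cc o)) = Z'.π (u' (cc o))
      rw [h.c, h'.c, Z.alg, Z'.alg]
    · rcases s with g | g | i
      · change Z.π (u (tt g)) = Z'.π (u' (tt g))
        rw [h.t, h'.t, Z.rt, Z'.rt]
      · change Z.π (u (dd g)) = Z'.π (u' (dd g))
        rw [h.d, h'.d, Z.rd, Z'.rd]
      · change Z.π (u (yy i)) = Z'.π (u' (yy i))
        rw [hy, hy']
  exact RingHom.congr_fun this p

/-- **pull back** along a jointly injective pair -/
theorem pull {Q : Finset ℕ} {r : ℕ} {B B' : Type}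
    [CommRing B] [CommRing B'] {Z : PO S B} {Z' : PO S B'} {u : Tg O →+* B} {u' : Tg O →+* B'}
    (h : Z.Std u) (h' : Z'.Std u') (c : Z.Cl L Q) (c' : Z'.Cl L Q)
    (hy : ∀ i, Z.π (u (yy i)) = 0) (hy' : ∀ i, Z'.π (u' (yy i)) = 0)
    (hr : ∀ i, r ≤ i → u (yy i) = 0) (hr' : ∀ i, r ≤ i → u' (yy i) = 0) (a : Ideal (Tg O))
    (ha : ∀ p, p ∈ a ↔ u p = 0 ∧ u' p = 0) : Gp S L Q r a := by
  let i : Tg O ⧸ a →+* B := Ideal.Quotient.lift a u fun p hp => ((ha p).1 hp).1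
  let i' : Tg O ⧸ a →+* B' := Ideal.Quotient.lift a u' fun p hp => ((ha p).1 hp).2
  let m := Ideal.Quotient.mk a
  have im : ∀ p, i (m p) = u p := fun p => rfl
  have im' : ∀ p, i' (m p) = u' p := fun p => rfl
  have inj : ∀ v w, i v = i w → i' v = i' w → v = w := fun v w e e' => by
    obtain ⟨p, rfl⟩ := Ideal.Quotient.mk_surjective v
    obtain ⟨p', rfl⟩ := Ideal.Quotient.mk_surjective w
    refine Ideal.Quotient.eq.2 ((ha _).2 ⟨?_, ?_⟩)
    · rw [map_sub]; exact sub_eq_zero.2 e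
    · rw [map_sub]; exact sub_eq_zero.2 e'
  have pp : ∀ v, Z.π (i v) = Z'.π (i' v) := fun v => by
    obtain ⟨p, rfl⟩ := Ideal.Quotient.mk_surjective v
    exact pi_eq h h' hy hy' p
  haveI := Z.fin
  haveI := Z'.fin
  have fin : Finite (Tg O ⧸ a) := Finite.of_injective (fun v => (i v, i' v)) fun v w e =>
    inj v w (congrArg Prod.fst e) (congrArg Prod.snd e)
  have dm : ∀ g k, m (dd (g * k)) = m (dd g) * m (dd k) := fun g k => inj _ _
    (by rw [map_mul, im, im, im, h.d, h.d, h.d, map_mul, Units.val_mul])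
    (by rw [map_mul, im', im', im', h'.d, h'.d, h'.d, map_mul, Units.val_mul])
  have d1 : m (dd 1) = 1 := inj _ _ (by rw [map_one, im, h.d, map_one, Units.val_one])
    (by rw [map_one, im', h'.d, map_one, Units.val_one])
  let d0 : GQ →* Tg O ⧸ a := ⟨⟨fun g => m (dd g), d1⟩, dm⟩
  have dv : ∀ g, ((d0.toHomUnits g : (Tg O ⧸ a)ˣ) : Tg O ⧸ a) = m (dd g) := fun g => rfl
  have d1' : ∀ s, Z.d s = 1 → Z'.d s = 1 → d0.toHomUnits s = 1 := fun s e e' =>
    Units.ext (inj _ _ (by rw [dv, im, h.d, e, Units.val_one, Units.val_one, map_one])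
      (by rw [dv, im', h'.d, e', Units.val_one, Units.val_one, map_one]))
  obtain ⟨U, U1, U2⟩ := Z.opn
  obtain ⟨V, V1, V2⟩ := Z'.opn
  let W : PO S (Tg O ⧸ a) :=
    { ι := m.comp MvPolynomial.C
      π := Z.π.comp i
      t := fun g => m (tt g)
      d := d0.toHomUnits
      fin := fin
      loc := fun v hv => by
        have u1 : IsUnit (i v) := Z.loc _ hv
        have u2 : IsUnit (i' v) := Z'.loc _ (by rw [← pp]; exact hv)
        have hi : Function.Injective fun w => v * w := fun w w' e => inj _ _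
          (u1.mul_left_cancel (by rw [← map_mul, ← map_mul]; exact congrArg i e))
          (u2.mul_left_cancel (by rw [← map_mul, ← map_mul]; exact congrArg i' e))
        obtain ⟨w, hw⟩ := Finite.surjective_of_injective hi 1
        exact IsUnit.of_mul_eq_one w hw
      alg := fun o => by
        change Z.π (u (cc o)) = _
        rw [h.c, Z.alg]
      tf := ⟨inj _ _ (by rw [im, h.t, Z.tf.one, map_ofNat]) (by rw [im', h'.t, Z'.tf.one, map_ofNat]),
        fun g k => inj _ _ (by rw [im, im, h.t, h.t, Z.tf.comm])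
          (by rw [im', im', h'.t, h'.t, Z'.tf.comm]),
        fun g k => inj _ _
          (by simp only [map_mul, map_add, dv, im, h.t, h.d]; exact Z.tf.mul g k)
          (by simp only [map_mul, map_add, dv, im', h'.t, h'.d]; exact Z'.tf.mul g k)⟩
      rt := fun g => by rw [RingHom.comp_apply, im, h.t, Z.rt]
      rd := fun g => by rw [RingHom.comp_apply, dv, im, h.d, Z.rd]
      opn := ⟨U ⊓ V, U1.inter V1, fun s hs => ⟨fun g => inj _ _
        (by rw [im, im, h.t, h.t]; exact (U2 s hs.1).1 g)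
        (by rw [im', im', h'.t, h'.t]; exact (V2 s hs.2).1 g),
        d1' s (U2 s hs.1).2 (V2 s hs.2).2⟩⟩ }
  have wi : ∀ o, i (W.ι o) = Z.ι o := fun o => h.c o
  have wi' : ∀ o, i' (W.ι o) = Z'.ι o := fun o => h'.c o
  have wt : ∀ g, i (W.t g) = Z.t g := fun g => h.t g
  have wt' : ∀ g, i' (W.t g) = Z'.t g := fun g => h'.t g
  have wd : ∀ g, i (W.d g) = Z.d g := fun g => h.d g
  have wd' : ∀ g, i' (W.d g) = Z'.d g := fun g => h'.d g
  refine ⟨W, ⟨fun o => rfl, fun g => rfl, fun g => rfl⟩, ⟨fun g hg => ?_, ?_, fun l hl => ?_,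
    fun l h1 h2 h3 P h4 h5 s h6 => ⟨fun g => ?_, ?_⟩⟩, hy,
    fun k hk => (ha _).2 ⟨hr k hk, hr' k hk⟩⟩
  · exact inj _ _ (by rw [wd, wi, c.d2 g hg]) (by rw [wd', wi', c'.d2 g hg])
  · exact inj _ _ (by rw [wd, map_neg, map_one, c.dc]) (by rw [wd', map_neg, map_one, c'.dc])
  · exact inj _ _ (by rw [wd, wi, c.dl l hl]) (by rw [wd', wi', c'.dl l hl])
  · exact inj _ _ (by rw [wt, wt, (c.unr l h1 h2 h3 P h4 h5 s h6).1])
      (by rw [wt', wt', (c'.unr l h1 h2 h3 P h4 h5 s h6).1])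
  · exact d1' s (c.unr l h1 h2 h3 P h4 h5 s h6).2 (c'.unr l h1 h2 h3 P h4 h5 s h6).2

theorem tr_one [CharP F 2] : (1 : M2 F).trace = 0 := by
  rw [Matrix.trace_fin_two, Matrix.one_apply_eq, Matrix.one_apply_eq]
  exact CharTwo.add_self_eq_zero 1

theorem mx_one (h1 : ∀ g, S.rb g = 1) (g : GQ) : mx S.rb g = 1 := by
  change ((S.rb g : GL (Fin 2) F) : M2 F) = 1
  rw [h1, Units.val_one]

/-- the kernel of a standard point is a good ideal -/
theorem gs_ker [IsLocalRing O] [CharP F 2] {ϖ : O} (hϖ : ϖ ∈ maximalIdeal O) (hL : OkG L S)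
    (h1 : ∀ g, S.rb g = 1) (hW : L.W = ∅) {Q : Finset ℕ} {r : ℕ} {B : Type} [CommRing B]
    {Z : PO S B} {u : Tg O →+* B} (h : Z.Std u) (c : Z.Cl L Q) (hy : ∀ i, Z.π (u (yy i)) = 0)
    (hr : ∀ i, r ≤ i → u (yy i) = 0) : Mod.Gs ϖ L S.T Q r (RingHom.ker u) := by
  haveI := Z.fin
  obtain ⟨n, hn⟩ := Kd.nil Z.π Z.loc
  have nil : ∀ p, Z.π (u p) = 0 → ∃ k : ℕ, p ^ k ∈ RingHom.ker u := fun p hp =>
    ⟨n, by
      rw [RingHom.mem_ker, map_pow]
      exact Ideal.mem_bot.1 (hn ▸ Ideal.pow_mem_pow (RingHom.mem_ker.2 hp) n)⟩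
  have lf : ∀ g, (L.r g).map S.red = 1 := fun g => (hL.lift g).trans (mx_one h1 g)
  have rt : ∀ g, S.red (L.r g).trace = 0 := fun g => by
    rw [← tr_one (F := F), ← lf g, Matrix.trace_fin_two, Matrix.trace_fin_two, map_add]; rfl
  have rd : ∀ g, S.red (L.r g).det = 1 := fun g => by
    rw [RingHom.map_det, RingHom.mapMatrix_apply, lf, Matrix.det_one]
  have sb : ∀ {p q : Tg O}, u p = u q → p - q ∈ RingHom.ker u := fun e => by
    rw [RingHom.mem_ker, map_sub, e, sub_self]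
  obtain ⟨U, U1, U2⟩ := Z.opn
  refine ⟨⟨?_, nil _ (by rw [h.c, Z.alg]; exact (hL.ker _).2 hϖ),
    fun g => nil _ (by rw [map_sub, h.t, h.c, map_sub, Z.rt, Z.alg, rt, sub_self]),
    fun g => nil _ (by rw [map_sub, h.d, h.c, map_sub, Z.rd, Z.alg, rd, sub_self]),
    fun i => nil _ (hy i), sb (by rw [h.t, Z.tf.one, map_ofNat]),
    fun g k => sb (by rw [h.t, h.t, Z.tf.comm]),
    fun g k => sb (by simp only [map_mul, map_add, h.t, h.d]; exact Z.tf.mul g k),
    sb (by rw [h.d, map_one, map_one, Units.val_one]),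
    fun g k => sb (by rw [map_mul, h.d, h.d, h.d, map_mul, Units.val_mul]),
    ⟨U, U1, fun s hs g => sb (by rw [h.t, h.t, (U2 s hs).1])⟩,
    fun l a1 a2 a3 P a4 a5 s a6 g => sb (by rw [h.t, h.t, (c.unr l a1 a2 a3 P a4 a5 s a6).1]),
    fun g hg => ?_, fun g hg => sb ?_, fun i hi => hr i hi⟩,
    ⟨U, U1, fun s hs => sb (by rw [h.d, (U2 s hs).2, map_one, Units.val_one])⟩,
    fun l a1 a2 a3 P a4 a5 s a6 =>
      sb (by rw [h.d, (c.unr l a1 a2 a3 P a4 a5 s a6).2, map_one, Units.val_one])⟩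
  · exact Finite.of_injective _ (RingHom.kerLift_injective u)
  · obtain ⟨l, hl, -⟩ := hg
    rw [hW] at hl
    exact absurd hl (Finset.notMem_empty l)
  · rw [h.d, h.c]
    rcases hg with hg | rfl | ⟨l, hl, rfl⟩ | ⟨l, hl, -⟩
    · exact c.d2 g hg
    · rw [c.dc, hL.odd, map_neg, map_one]
    · exact c.dl l hl
    · rw [hW] at hl
      exact absurd hl (Finset.notMem_empty l)

/-- the pseudo object of an object -/
def ofObj [CharP F 2] (h1 : ∀ g, S.rb g = 1) {B : Type} [CommRing B] (Y : Obj S B) : PO S B where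
  ι := Y.ι
  π := Y.π
  t := fun g => (Y.ρ g).trace
  d := Matrix.GeneralLinearGroup.det.comp Y.ρ.toHomUnits
  fin := Y.fin
  loc := Y.loc
  alg := Y.alg
  tf := _root_.P022G.Kd.tf_rep Y.ρ
  rt := fun g => by
    rw [← tr_one (F := F), ← mx_one h1 g, ← Y.res g, Matrix.trace_fin_two, Matrix.trace_fin_two,
      map_add]; rfl
  rd := fun g => by
    change Y.π (Y.ρ g).det = 1
    rw [RingHom.map_det, RingHom.mapMatrix_apply, Y.res, mx_one h1, Matrix.det_one]
  opn := ⟨Y.ρ.toHomUnits.ker, by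
    have : (Y.ρ.toHomUnits.ker : Set GQ) = {g | Y.ρ g = 1} := Set.ext fun g => Units.ext_iff
    rw [this]; exact Y.opn, fun s hs => ⟨fun g => by
      have : Y.ρ s = 1 := congrArg Units.val hs
      rw [map_mul, this, mul_one], by
      rw [MonoidHom.comp_apply, show Y.ρ.toHomUnits s = 1 from hs, map_one]⟩⟩

theorem ofObj_cl [CharP F 2] (h1 : ∀ g, S.rb g = 1) {B : Type} [CommRing B] {Y : Obj S B}
    {Q : Finset ℕ} (h : Ty (ClG L S) Q B Y) : (ofObj h1 Y).Cl L Q :=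
  ⟨h.1.d2, h.1.dc, h.1.dl, fun l a1 a2 a3 P a4 a5 s a6 => ⟨fun g => by
    change (Y.ρ (g * s)).trace = (Y.ρ g).trace
    rw [map_mul, h.2 l a1 a2 a3 P a4 a5 s a6, mul_one], Units.ext (by
    change (Y.ρ s).det = 1
    rw [h.2 l a1 a2 a3 P a4 a5 s a6, Matrix.det_one])⟩⟩

theorem gpo : GPO := by
  intro O F _ _ _ _ _ _ _ ϖ S L X as β τ ι' _ _ _ K n G h1 h2 h3 h4
  refine ⟨fun Q r B _ Z u a1 a2 a3 a4 => ⟨pull a1 a1 a2 a2 a3 a3 a4 a4 _
    fun p => by rw [RingHom.mem_ker, and_self],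
    gs_ker ((mem_maximalIdeal _).2 h1.not_isUnit) h2.ok h2.rb1 h2.W0 a1 a2 a3 a4⟩,
    fun Q r a b ha hb => ?_,
    fun Q B _ Y hY => ⟨ofObj h2.rb1 Y, ofObj_cl h2.rb1 hY, rfl, rfl, fun g => ⟨rfl, rfl⟩⟩⟩
  obtain ⟨Z, a1, a2, a3, a4⟩ := ha
  obtain ⟨Z', b1, b2, b3, b4⟩ := hb
  exact pull a1 b1 a2 b2 a3 b3
    (fun i hi => Ideal.Quotient.eq_zero_iff_mem.2 (a4 i hi))
    (fun i hi => Ideal.Quotient.eq_zero_iff_mem.2 (b4 i hi)) _ fun p => by
      rw [Ideal.Quotient.eq_zero_iff_mem, Ideal.Quotient.eq_zero_iff_mem, Ideal.mem_inf]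

theorem gpoC : GPO := gpo

end Vale.Agent.P022S.H97
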