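import Vale.Agent.P022S.Rows
import Vale.Agent.P022E.As.Bas

/-!
# P022S, row GPW: good ideals belong to pseudo objects
-/

set_option linter.all false

open IsLocalRing NumberField

noncomputable section

namespace Vale.Agent.P022S.H21

open Vale.Agent.P022 Vale.Agent.P022S.R Vale.Agent.P022S.Loc
open Vale.Agent.P027M.S (Inert mx)
open Vale.Agent.P022E.As (Tg cc tt dd yy ev0 mT Gw)
open Vale.Agent.P022E.Loc (Pl)
open Vale.Agent.P022.H346 (TF)

variable {O F : Type} [CommRing O] [IsLocalRing O] [Field F] [CharP F 2] {S : Dat O F} {L : Pl O}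
  {ϖ : O}

theorem gp (ok : OkG L S) (rb1 : ∀ g, S.rb g = 1) (hϖ : maximalIdeal O = Ideal.span {ϖ})
    {Q : Finset ℕ} {r : ℕ} {a : Ideal (Tg O)} (ha : a ≠ ⊤) (H : Mod.Gs ϖ L S.T Q r a) :
    Gp S L Q r a := by
  have h := H.gw
  have vc : ∀ c : O, ev0 L.r (cc c) = c := fun c => MvPolynomial.eval₂Hom_C _ _ c
  have vt : ∀ g, ev0 L.r (tt g : Tg O) = (L.r g).trace := fun g => MvPolynomial.eval₂Hom_X' _ _ _
  have vd : ∀ g, ev0 L.r (dd g : Tg O) = (L.r g).det := fun g => MvPolynomial.eval₂Hom_X' _ _ _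
  have vy : ∀ i, ev0 L.r (yy i : Tg O) = 0 := fun g => MvPolynomial.eval₂Hom_X' _ _ _
  have rad : ∀ b : Tg O, S.red (ev0 L.r b) = 0 → b ∈ a.radical := fun b hb =>
    P022E.As.Bas.rad h hϖ ((ok.ker _).1 hb)
  have un : ∀ p : Tg O, S.red (ev0 L.r p) ≠ 0 → IsUnit (Ideal.Quotient.mk a p) := fun p hn => by
    have hu : IsUnit (ev0 L.r p) := by
      by_contra hu
      exact hn ((ok.ker _).2 hu)
    obtain ⟨k, hk⟩ := rad (p - cc (ev0 L.r p)) (by rw [map_sub, vc, sub_self, map_zero])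
    have h1 : IsNilpotent (Ideal.Quotient.mk a (p - cc (ev0 L.r p))) :=
      ⟨k, by rw [← map_pow]; exact Ideal.Quotient.eq_zero_iff_mem.2 hk⟩
    have h2 := h1.isUnit_add_right_of_commute
      (hu.map ((Ideal.Quotient.mk a).comp (MvPolynomial.C : O →+* Tg O))) (Commute.all _ _)
    rwa [map_sub, show ((Ideal.Quotient.mk a).comp (MvPolynomial.C : O →+* Tg O)) (ev0 L.r p) =
      Ideal.Quotient.mk a (cc (ev0 L.r p)) from rfl, sub_add_cancel] at h2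
  have hk : ∀ p ∈ a, (S.red.comp (ev0 L.r)) p = 0 := fun p hp => by
    by_contra hn
    have := un p hn
    rw [Ideal.Quotient.eq_zero_iff_mem.2 hp, isUnit_zero_iff] at this
    exact ha ((Ideal.eq_top_iff_one a).2 (Ideal.Quotient.eq_zero_iff_mem.1
      ((map_one _).trans this.symm)))
  have eq : ∀ {x y : Tg O}, x - y ∈ a → Ideal.Quotient.mk a x = Ideal.Quotient.mk a y :=
    fun hx => Ideal.Quotient.eq.2 hx
  obtain ⟨π, hπ⟩ : ∃ π : Tg O ⧸ a →+* F, ∀ p, π (Ideal.Quotient.mk a p) = S.red (ev0 L.r p) :=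
    ⟨Ideal.Quotient.lift a _ hk, fun _ => rfl⟩
  have loc : ∀ u, π u ≠ 0 → IsUnit u := fun u hu => by
    obtain ⟨p, rfl⟩ := Ideal.Quotient.mk_surjective u
    exact un p (hπ p ▸ hu)
  obtain ⟨ι, hι⟩ : ∃ ι : O →+* Tg O ⧸ a, ∀ c, ι c = Ideal.Quotient.mk a (cc c) :=
    ⟨(Ideal.Quotient.mk a).comp MvPolynomial.C, fun _ => rfl⟩
  have pc : ∀ c, π (ι c) = S.red c := fun c => by rw [hι, hπ, vc]
  have m1 : ∀ g, mx S.rb g = 1 := fun g => congrArg Units.val (rb1 g)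
  have pt : ∀ g, π (Mod.tq a g) = 0 := fun g => by
    have e : S.red (L.r g).trace = ((L.r g).map S.red).trace := AddMonoidHom.map_trace S.red (L.r g)
    rw [Mod.tq, hπ, vt, e, ok.lift g, m1, Matrix.trace_one, Fintype.card_fin]
    exact CharP.cast_eq_zero F 2
  have pd : ∀ g, π (Mod.dq h g : Tg O ⧸ a) = 1 := fun g => by
    rw [Mod.dq_val, hπ, vd, S.red.map_det, RingHom.mapMatrix_apply, ok.lift, m1, Matrix.det_one]
  have cd : ∀ g ∈ L.DD, (Mod.dq h g : Tg O ⧸ a) = ι (L.r g).det := fun g hg => by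
    rw [Mod.dq_val, hι, eq (h.cld g hg)]
  refine ⟨⟨ι, π, Mod.tq a, Mod.dq h, h.fin, loc, pc, Mod.gw_tf h, pt, pd,
    ⟨Kd.N (Mod.tq a) (Mod.dq h), H.N_open, fun u hu => hu⟩⟩,
    ⟨fun o => (hι o).symm, fun g => rfl, fun g => rfl⟩,
    ⟨fun g hg => cd g (Or.inl hg), ?_, fun l hl => cd _ (Or.inr (Or.inr (Or.inl ⟨l, hl, rfl⟩))),
      fun l a1 a2 a3 P a4 a5 s a6 => H.N_unr l a1 a2 a3 P a4 a5 s a6⟩, fun i => ?_, h.yz⟩
  · exact (cd _ (Or.inr (Or.inl rfl))).trans (by rw [ok.odd, map_neg, map_one])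
  · show π _ = 0
    rw [hπ, vy, map_zero]

theorem gpwC : GPW := fun O F _ _ _ _ _ _ _ ϖ S L X as β τ ι' _ _ _ K n G hϖ hC _ _ Q r a ha h =>
  gp hC.ok hC.rb1 hϖ.maximalIdeal_eq ha h

end Vale.Agent.P022S.H21
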