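import Vale.Agent.P022S.Rows
import Vale.Agent.P022G.Rw.L2g

/-!
# P022S: the Galois side from the rows
-/

set_option linter.all false

noncomputable section

namespace Vale.Agent.P022S.L2

open NumberField IsLocalRing MvPowerSeries Filter
open Vale.Agent.P022 Vale.Agent.P022S.R Vale.Agent.P022S.Loc
open Vale.Agent.P027M.S (Inert mx)
open Vale.Agent.P022D.Core (PS Coef)
open Vale.Agent.P022E.Loc (Pl)
open Vale.Agent.P022E.As (Tg Out2)
open Vale.Agent.P022G (subL resJ)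
open Vale.Agent.P022G.Chain (Pd Cn Cv exists_cv exists_cv_mem)
open Vale.Agent.P022G.L2 (chain mem_max)
open Vale.Agent.P022D.CA (dimGE_sup dimGE_prime)

/-- **the Galois side** -/
theorem l2s (hLoc : LOCG2) (hGen : GENS) (hCrv : CRV) (hNice : NICE)
    (hTyp : TYP) (hPres : PRESC) (hConn : CONNJ) (hZ : ZED) (hSeed : SEED) (hPatch : PATCH)
    (hLow : LOWER) (hFin : FINAL) (hOut : OUTG) (hTra : TRA) : L2S := by
  classical
  intro O F _ _ _ _ _ _ _ ϖ S L X as hϖ hx S' I Y0 W0 _ _ _ _ ses ig ib iJ hT H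
    S'' I' Y0' W0' _ _ _ _ ses' ig' ib' iJ' hT' H' hTr
  haveI : IsAdicComplete (maximalIdeal O) O := Coef.cpl
  obtain ⟨β, τ, ι', _, _, _, K, hK, hD⟩ := hLoc O F S L ϖ hϖ hx.ok
  obtain ⟨n, ⟨G⟩⟩ := hGen O F S L _ K.g hx.ok hx.W0
  have hm : as ∈ L.C := hx.sub hx.mem
  have itG : ∀ J, G.aP ≤ G.IT ϖ J := fun J => le_sup_left.trans le_sup_left
  have itp : ∀ J, (C ϖ : PS O (Sy n)) ∈ G.IT ϖ J := fun J =>
    Ideal.mem_sup_left (Ideal.mem_sup_right (Ideal.mem_span_singleton_self _))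
  have max : ∀ a : L.C, (a : ℕ) ∈ X → G.fr a ∈ maximalIdeal (PS O (Sy n)) := by
    intro a ha
    refine mem_max ((hx.ok.ker _).1 ?_)
    have h1 := hx.ok.lift (L.φ a)
    rw [mx, hx.rb1, Units.val_one] at h1
    have a0 : S.red (L.r (L.φ a) 0 0) = 1 := by simpa using congrFun (congrFun h1 0) 0
    have a1 : S.red (L.r (L.φ a) 1 1) = 1 := by simpa using congrFun (congrFun h1 1) 1
    simp only [Gs.fr, trS, tS, wm, Finset.sort_singleton, List.map_cons, List.map_nil,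
      List.prod_cons, List.prod_nil, mul_one, Gs.rc, G.hφ, map_add, constantCoeff_C,
      constantCoeff_X, add_zero, Matrix.trace_fin_two, a0, a1]
    exact CharTwo.add_self_eq_zero _
  have irr : ∀ p, Cv p → G.aP ≤ p → C ϖ ∈ p → G.fr ⟨as, hm⟩ ∈ p → G.Irr p := by
    intro p hp h1 h2 h3
    obtain ⟨V, _, _, _, _, _, _, t, j, ρ, θ, ht, hc, rfl⟩ :=
      hCrv O F ϖ S L X as β τ ι' K n G hϖ hx hK hD p hp h1 h2
    exact (hNice O F ϖ S L X as β τ ι' K n G hϖ hx hK hD V t j ρ θ ht hc hp fun _ => h3).2.2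
  have pres : ∀ J p, Cv p → G.IT ϖ J ≤ p → G.fr ⟨as, hm⟩ ∈ p → ∃ E, Pd (G.IT ϖ J) 2 E ∧ E ≤ p :=
    fun J p hp h1 h2 => hPres O F ϖ S L X as β τ ι' K n G hϖ hx hK hD J p hp h1
      (irr p hp ((itG J).trans h1) (h1 (itp J)) h2)
  have key : ∀ (J : Finset L.C) E, Pd (G.IT ϖ J) 2 E → G.An (Y0 (iJ J)) ≤ E := by
    refine chain (I := G.IT ϖ) (X := Finset.univ.filter fun a : L.C => (a : ℕ) ∈ X) (f := G.fr)
      (as := ⟨as, hm⟩) (Md := fun J E => G.An (Y0 (iJ J)) ≤ E) (by simpa using hx.mem)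
      (fun a ha => max a (by simpa using ha)) (fun J h => ?_) (fun J a p hp h1 h2 => ?_) pres
      (fun J h => ?_) (fun J h => ?_) (fun J p hp h E E' => ?_) fun J a ha hJ p hp h E E' => ?_
    · exact Ideal.mem_sup_right (Ideal.subset_span (Or.inl ⟨_, h, Or.inr (Or.inl rfl)⟩))
    · obtain ⟨V, _, _, _, _, _, _, t, j, ρ, θ, ht, hc, rfl⟩ :=
        hCrv O F ϖ S L X as β τ ι' K n G hϖ hx hK hD p hp ((itG J).trans h1) (h1 (itp J))
      obtain ⟨k1, k2⟩ := hTyp O F ϖ S L X as β τ ι' K n G hϖ hx hK hD V t j ρ θ ht hc a h2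
      refine sup_le (le_sup_left.trans h1) (Ideal.span_le.2 ?_)
      rintro u (⟨l, hl, hu⟩ | ⟨l, hl, hu⟩)
      · rcases Finset.mem_insert.1 hl with rfl | hl
        · rcases hu with rfl | rfl | rfl
          · exact k1
          · exact h2
          · exact k2
        · exact h1 (Ideal.mem_sup_right (Ideal.subset_span (Or.inl ⟨l, hl, hu⟩)))
      · exact h1 (Ideal.mem_sup_right (Ideal.subset_span
          (Or.inr ⟨l, fun k => hl (Finset.mem_insert_of_mem k), hu⟩)))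
    · exact hSeed O F ϖ S L X as β τ ι' K n G hϖ hx hK hD S' I Y0 W0 ses ig ib iJ hT H J
        fun a ha => h (by simpa using ha)
    · exact hConn O F ϖ S L X as β τ ι' K n G hϖ hx hK hD J fun a ha => h (by simpa using ha)
    · exact hPatch O F ϖ S L X as β τ ι' K n G hϖ hx hK hD S' I Y0 W0 ses ig ib iJ hT H J
        p E E' hp fun _ => h
    · have := hLow O F ϖ S L X as β τ ι' K n G hϖ hx hK hD S' I Y0 W0 ses ig ib iJ hT H J a
        (by simpa using ha) hJ p E E' hp fun _ => h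
      convert this
  obtain ⟨Z, hZ3, hZt, hZ0⟩ := hZ O F ϖ S L X as β τ ι' K n G hϖ hx hK hD
  have mϖ : (C ϖ : PS O (Sy n)) ∈ maximalIdeal (PS O (Sy n)) :=
    mem_max (by rw [constantCoeff_C]; exact (mem_maximalIdeal _).2 hϖ.not_isUnit)
  obtain ⟨C0, c1, c2, c3⟩ := dimGE_prime (dimGE_sup (k := 2) mϖ hZ3.2.2)
  obtain ⟨p, hp, hle, hf⟩ := exists_cv_mem (max ⟨as, hm⟩ hx.mem) c3
  have := hFin O F ϖ S L X as β τ ι' K n G hϖ hx hK hD S'' I'
    Y0' W0' ses' ig' ib' iJ' hT' H' Z C0 p hZ3.1 hZ3.2.1 hZt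
    (fun h => hϖ.ne_zero (by simpa using hZ0 _ h)) (le_sup_left.trans c2)
    ⟨c1, (sup_le_sup_right hZ3.2.1 _).trans c2, c3⟩ hle hp (fun _ => hf) fun J hJX hJ => by
      obtain ⟨E, hE2, hEp⟩ := pres J p hp hJ hf
      exact ⟨E, hE2, hEp, (hTra O F ϖ S L X as β τ ι' K n G hϖ hx hK hD (Y0 (iJ J))
        (Y0' (iJ' (resJ X J))) (hT ▸ H.gm0 _) (hT ▸ H.dm0 _) (hT' ▸ H'.gm0 _) (hT' ▸ H'.dm0 _)
        (hTr J hJX)).trans (key J E hE2)⟩
  exact hOut O F ϖ S L X as β τ ι' K n G hϖ hx hK hD W0' (hT' ▸ H'.gmW) (hT' ▸ H'.dmW)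
    fun f hf => hZ0 f (this hf)

end Vale.Agent.P022S.L2
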