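import Vale.Agent.P022S.Rows
import Vale.Agent.P022S.Crv.Main

/-!
# P022S, rows LAM and LAM0: universal traces
-/

set_option linter.all false

noncomputable section

namespace Vale.Agent.P022S.H21

open NumberField IsLocalRing MvPowerSeries
open Vale.Agent.P022 Vale.Agent.P022.H346 Vale.Agent.P022S.R Vale.Agent.P022S.Loc
open Vale.Agent.P027M.S (Inert mx)
open Vale.Agent.P022D.Sel (M2)
open Vale.Agent.P022D.Core (PS Coef)
open Vale.Agent.P022E.Loc (Pl)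
open Vale.Agent.P022G (Hm KI)
open Vale.Agent.P022G.Word (wd)

variable {O F : Type} [CommRing O] [Field F] {S : Dat O F} {L : Pl O} {Q : Finset ℕ} {m : ℕ}
  {rc : Fin m → M2 O} {γ : Fin m → GQ}

/-- the class of the points of level `Q` -/
def Qc (S : Dat O F) (L : Pl O) (Q : Finset ℕ) (rc : Fin m → M2 O) (γ : Fin m → GQ) :
    Uni.Cls (PS O (Sy m)) := fun B _ ψ t d =>
  ∃ Z : PO S B, Z.Cl L Q ∧ Hm Z.ι (Z.val rc γ) ψ ∧ t = Z.t ∧ d = Z.d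

/-- the ideal of the class -/
def Kc (S : Dat O F) (L : Pl O) (Q : Finset ℕ) (rc : Fin m → M2 O) (γ : Fin m → GQ) :
    Ideal (PS O (Sy m)) :=
  KI fun B _ j v => ∃ Z : PO S B, Z.Cl L Q ∧ j = Z.ι ∧ v = Z.val rc γ

theorem hm_t {B : Type} [CommRing B] (Z : PO S B) {ψ : PS O (Sy m) →+* B}
    (h : Hm Z.ι (Z.val rc γ) ψ) (s : Finset (Fin m)) : ψ (tS rc id s) = Z.t (wd γ s) := by
  rw [tS, map_add, h.c, h.x]
  exact add_sub_cancel _ _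

theorem hm_d {B : Type} [CommRing B] (Z : PO S B) {ψ : PS O (Sy m) →+* B}
    (h : Hm Z.ι (Z.val rc γ) ψ) (i : Fin m) : ψ (dS rc id i) = Z.d (γ i) := by
  rw [dS, map_add, h.c, h.x]
  exact add_sub_cancel _ _

theorem pf (B : Type) [CommRing B] (ψ : PS O (Sy m) →+* B) (t : GQ → B) (d : GQ →* Bˣ)
    (h : Qc S L Q rc γ B ψ t d) :
    Uni.Pf F γ (tS rc id) (dS rc id) (Crv.In S.T Q) ψ t d := by
  obtain ⟨Z, hZ, hψ, rfl, rfl⟩ := h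
  refine ⟨Z.fin, Z.tf, ⟨Z.π, Z.loc, fun x => ?_, fun g => ⟨Z.rt g, Z.rd g⟩⟩, ?_, ?_,
    hm_t Z hψ, hm_d Z hψ⟩
  · obtain ⟨c, rfl⟩ := S.surj x
    exact ⟨C c, by rw [RingHom.comp_apply, hψ.c, Z.alg]⟩
  · obtain ⟨U, h1, h2⟩ := Z.opn
    exact Subgroup.isOpen_mono (H₁ := U) (fun u hu => h2 u hu) h1
  · rintro s ⟨l, a1, a2, a3, P, a4, a5, a6⟩
    exact hZ.unr l a1 a2 a3 P a4 a5 s a6

theorem kc (f : PS O (Sy m)) (h : ∀ (B : Type) [CommRing B] ψ t d, Qc S L Q rc γ B ψ t d →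
    ψ f = 0) : f ∈ Kc S L Q rc γ := by
  rintro B _ j v ψ ⟨Z, hZ, rfl, rfl⟩ hψ
  exact h B ψ Z.t Z.d ⟨Z, hZ, hψ, rfl, rfl⟩

variable [IsDomain O] [IsDiscreteValuationRing O] [Coef O] [CharP F 2]

/-- **the universal traces of level `Q`** -/
theorem un (hG : Mod.Gen2 S.T Q γ) : ∃ ta da, Uni.Un (Qc S L Q rc γ) (Kc S L Q rc γ) ta da := by
  haveI := Coef.cpl (O := O)
  haveI := Coef.fin (O := O)
  haveI := P022D.CA.Cpl.isAdicCompleteV (σ := Sy m) (V := O) inferInstance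
  haveI : Finite (ResidueField (PS O (Sy m))) := P022D.CA.Cpl.finite_residue
  exact Uni.uni (F := F) (Crv.gn_of hG) pf kc

theorem lam (hG : Mod.Gen2 S.T Q γ) : ∃ tu du : GQ → PS O (Sy m), ∀ (B : Type) [CommRing B]
    (Z : PO S B) (ψ : PS O (Sy m) →+* B), Z.Cl L Q → Hm Z.ι (Z.val rc γ) ψ →
    ∀ g, ψ (tu g) = Z.t g ∧ ψ (du g) = Z.d g := by
  obtain ⟨ta, da, h⟩ := un (L := L) (rc := rc) hG
  exact ⟨ta, da, fun B _ Z ψ hZ hψ => h.ev B ψ Z.t Z.d ⟨Z, hZ, hψ, rfl, rfl⟩⟩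

theorem lamC : LAM := fun O F _ _ _ _ _ _ _ ϖ S L X as β τ ι' _ _ _ K n G _ _ _ _ r q τ' hq =>
  lam (G.gen r q τ' hq)

theorem lam0C : LAM0 := by
  intro O F _ _ _ _ _ _ _ ϖ S L X as β τ ι' _ _ _ K n G _ _ _ _
  obtain ⟨tu, du, h⟩ := lam (L := L) (rc := G.rc) G.gen1
  exact ⟨tu, du, fun B _ Z ψ hZ hψ g => (h B Z ψ hZ hψ g).1,
    fun B _ Z ψ hZ hψ g => (h B Z ψ hZ hψ g).2⟩

end Vale.Agent.P022S.H21
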