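import Vale.Agent.P022S.Rw.GpgH10
import Vale.Agent.P022S.Uni

/-! # P022S, rows LAM and LAM0: universal traces -/

set_option linter.all false

noncomputable section

namespace Vale.Agent.P022S.H36

open NumberField IsLocalRing MvPowerSeries
open Vale.Agent.P027M.S (Inert)
open Vale.Agent.P022 Vale.Agent.P022.H346 Vale.Agent.P022S.R
open Vale.Agent.P022G (Hm)
open Vale.Agent.P022G.Word (wd)
open Vale.Agent.P022E.Loc (Pl)
open Vale.Agent.P022D.Sel (M2)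
open Vale.Agent.P022D.Core (PS Coef)
open Vale.Agent.P022S.Mod (Gen2)

variable {O F : Type} [CommRing O] [Field F] {S : Dat O F} {L : Pl O} {Q : Finset ℕ} {m : ℕ}
  {rc : Fin m → M2 O} {γ : Fin m → GQ}

/-- the points which belong to pseudo objects of level `Q` -/
def cls (S : Dat O F) (L : Pl O) (Q : Finset ℕ) (rc : Fin m → M2 O) (γ : Fin m → GQ) :
    Uni.Cls (PS O (Sy m)) := fun B _ ψ t d =>
  ∃ Z : PO S B, Z.Cl L Q ∧ Hm Z.ι (Z.val rc γ) ψ ∧ t = Z.t ∧ d = Z.d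

/-- the inertia elements outside `T` and `Q` -/
def In (T Q : Finset ℕ) : Set GQ := {s | ∃ l : ℕ, l.Prime ∧ l ∉ T ∧ l ∉ Q ∧
  ∃ P : Ideal (𝓞 Qb), P.IsPrime ∧ (l : 𝓞 Qb) ∈ P ∧ Inert P s}

theorem gn_of {T : Finset ℕ} (h : Gen2 T Q γ) : Uni.Gn γ (In T Q) := fun K _ h1 h2 h3 g =>
  h.mod K h1 h2 (fun l a1 a2 a3 P a4 a5 s a6 => h3 s ⟨l, a1, a2, a3, P, a4, a5, a6⟩) g

theorem hm_t {B : Type} [CommRing B] (Z : PO S B) {ψ : PS O (Sy m) →+* B}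
    (h : Hm Z.ι (Z.val rc γ) ψ) (s : Finset (Fin m)) : ψ (tS rc id s) = Z.t (wd γ s) := by
  rw [tS, map_add, h.c, h.x, id, PO.val, gv, Sum.elim_inl, add_sub_cancel]

theorem hm_d {B : Type} [CommRing B] (Z : PO S B) {ψ : PS O (Sy m) →+* B}
    (h : Hm Z.ι (Z.val rc γ) ψ) (i : Fin m) : ψ (dS rc id i) = Z.d (γ i) := by
  rw [dS, map_add, h.c, h.x, id, PO.val, gv, Sum.elim_inr, add_sub_cancel]

theorem pf [CharP F 2] (B : Type) [CommRing B] (ψ : PS O (Sy m) →+* B) (t : GQ → B)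
    (d : GQ →* Bˣ) (h : cls S L Q rc γ B ψ t d) :
    Uni.Pf F γ (tS rc id) (dS rc id) (In S.T Q) ψ t d := by
  obtain ⟨Z, hZ, hψ, rfl, rfl⟩ := h
  refine ⟨Z.fin, Z.tf, ⟨Z.π, Z.loc, fun c => ?_, fun g => ⟨Z.rt g, Z.rd g⟩⟩, H10.N_open Z,
    fun s ⟨l, a1, a2, a3, P, a4, a5, a6⟩ => hZ.unr l a1 a2 a3 P a4 a5 s a6, hm_t Z hψ, hm_d Z hψ⟩
  obtain ⟨o, rfl⟩ := S.surj c
  exact ⟨C o, by rw [RingHom.comp_apply, hψ.c, Z.alg]⟩

/-- **the universal traces and determinants of level `Q`** -/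
theorem uni [IsDomain O] [IsDiscreteValuationRing O] [Coef O] [CharP F 2] (hG : Gen2 S.T Q γ) :
    ∃ tu du : GQ → PS O (Sy m), ∀ (B : Type) [CommRing B] (Z : PO S B) (ψ : PS O (Sy m) →+* B),
      Z.Cl L Q → Hm Z.ι (Z.val rc γ) ψ → ∀ g, ψ (tu g) = Z.t g ∧ ψ (du g) = Z.d g := by
  haveI := Coef.cpl (O := O)
  haveI := Coef.fin (O := O)
  haveI := P022D.CA.Cpl.isAdicCompleteV (σ := Sy m) (V := O) inferInstance
  haveI : Finite (ResidueField (PS O (Sy m))) := P022D.CA.Cpl.finite_residue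
  choose ta ha using fun g => Uni.ex_univ (𝒬 := cls S L Q rc γ) pf (fun B _ t d => t g)
    fun σ _ B _ ψ t d h => (Uni.ex_fin (gn_of hG) ψ t d (fun e => pf _ _ _ _ (h e)) g).1
  choose da hd using fun g => Uni.ex_univ (𝒬 := cls S L Q rc γ) pf (fun B _ t d => (d g : B))
    fun σ _ B _ ψ t d h => (Uni.ex_fin (gn_of hG) ψ t d (fun e => pf _ _ _ _ (h e)) g).2
  exact ⟨ta, da, fun B _ Z ψ hZ hψ g => ⟨ha g B ψ _ _ ⟨Z, hZ, hψ, rfl, rfl⟩,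
    hd g B ψ _ _ ⟨Z, hZ, hψ, rfl, rfl⟩⟩⟩

theorem lamC : LAM := by
  intro O F _ _ _ _ _ _ _ ϖ S L X as β τ ι' _ _ _ K n G _ _ _ _ r q τ' hq
  exact uni (G.gen r q τ' hq)

theorem lam0C : LAM0 := by
  intro O F _ _ _ _ _ _ _ ϖ S L X as β τ ι' _ _ _ K n G _ _ _ _
  obtain ⟨tu, du, h⟩ := uni (L := L) (rc := G.rc) G.gen1
  exact ⟨tu, du, fun B _ Z ψ hZ hψ g => (h B Z ψ hZ hψ g).1,
    fun B _ Z ψ hZ hψ g => (h B Z ψ hZ hψ g).2⟩

end Vale.Agent.P022S.H36
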