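import Vale.Agent.P022S.Rw.Rcov
import Vale.Agent.P022S.Rw.GpoH94
import Vale.Agent.P022S.Rw.Seed
import Vale.Agent.P022S.Pt.Fin
import Vale.Agent.P022S.Mod.Lv

/-!
# P022S: the symbols at a curve
-/

set_option linter.all false

open IsLocalRing Filter MvPowerSeries NumberField

noncomputable section

namespace Vale.Agent.P022S.H89

open Vale.Agent.P022 Vale.Agent.P022S.R Vale.Agent.P022S.Loc Vale.Agent.P022G.Mod
open Vale.Agent.P022S.Mod Vale.Agent.P022S.Rcov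
open Vale.Agent.P022G (Hm)
open Vale.Agent.P022G.Word (wd)
open Vale.Agent.P022E.As (Tg cc tt dd yy mT)
open Vale.Agent.P022D.Core (PS io y1 Coef)
open Vale.Agent.P022D.PA (Base Cv)
open Vale.Agent.P022E.Loc (Pl)
open Vale.Agent.P022G.Pt (An)

section fil
variable {n : ℕ} (r : ℕ)

/-- the letters of level zero -/
abbrev fl (s : Finset (Fin (n + r))) : Finset (Fin n) :=
  Finset.univ.filter fun i => Fin.castAdd r i ∈ s

theorem fl_ins (i : Fin n) (s : Finset (Fin (n + r))) :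
    fl r (insert (Fin.castAdd r i) s) = insert i (fl r s) := by
  ext j
  simp [Fin.ext_iff]

theorem fl_era (i : Fin n) (s : Finset (Fin (n + r))) :
    fl r (s.erase (Fin.castAdd r i)) = (fl r s).erase i := by
  ext j
  simp [Fin.ext_iff]

theorem fl_one (i : Fin n) : fl r {Fin.castAdd r i} = {i} := by
  ext j
  simp [Fin.ext_iff]

end fil

variable {O F : Type} [CommRing O] [Field F] {S : Dat O F} {L : Pl O}

section sym
variable {κ : Type} {gk : κ → GQ} {n : ℕ} {G : Gs S L gk n} {r : ℕ}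

theorem rcr_eq : G.rcr r = fun i => L.r (Fin.append G.γ (fun _ : Fin r => 1) i) := by
  funext i
  rw [Gs.rcr]
  induction i using Fin.addCases with
  | left i => rw [Fin.append_left, Fin.append_left]; rfl
  | right i => rw [Fin.append_right, Fin.append_right, map_one]

theorem wm_rcr (s : Finset (Fin (n + r))) : wm (G.rcr r) s = wm G.rc (fl r s) := by
  rw [rcr_eq, H94.wm_r, wd_append]
  exact (H94.wm_r L.r G.γ _).symm

variable {jr : PP O n r →+* PS O (Sy n)} (h : Hm C (G.jv r) jr)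
include h

theorem jr_t (s : Finset (Fin (n + r))) : jr (tS (G.rcr r) Sum.inl s) = tS G.rc id (fl r s) :=
  map_tS (t := fun s => tS G.rc id (fl r s)) h (fun _ => rfl) s

theorem jr_d (i : Fin n) : jr (dS (G.rcr r) Sum.inl (Fin.castAdd r i)) = dS G.rc id i :=
  (map_dS h (fun _ => rfl) _).trans (Fin.append_left _ _ _)

theorem jr_tr (i : Fin n) : jr (trS (G.rcr r) Sum.inl (Fin.castAdd r i)) = trS G.rc id i := by
  rw [trS, jr_t h, fl_one, trS]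

theorem jr_tr2 (i k : Fin n) :
    jr (tr2 (G.rcr r) Sum.inl (Fin.castAdd r i) (Fin.castAdd r k)) = tr2 G.rc id i k := by
  rw [tr2, jr_t h, fl_ins, fl_one, tr2]

theorem tau_le (i : Fin n) {Z : Ideal (PS O (Sy n))} (hZ : tauP G.rc id i ⊆ Z) :
    tauP (G.rcr r) Sum.inl (Fin.castAdd r i) ⊆ ((Z.comap jr : Ideal (PP O n r)) : Set (PP O n r)) := by
  rintro u (rfl | ⟨s, rfl⟩) <;> rw [SetLike.mem_coe, Ideal.mem_comap, map_sub]
  · rw [jr_d h, map_one]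
    exact hZ (Or.inl rfl)
  · rw [jr_t h, jr_t h, fl_ins, fl_era]
    exact hZ (Or.inr ⟨_, rfl⟩)

theorem tau_ge (i : Fin n) {Z : Ideal (PS O (Sy n))}
    (hZ : tauP (G.rcr r) Sum.inl (Fin.castAdd r i) ⊆
      ((Z.comap jr : Ideal (PP O n r)) : Set (PP O n r))) : tauP G.rc id i ⊆ Z := by
  rintro u (rfl | ⟨s, rfl⟩)
  · have := hZ (Or.inl rfl)
    rwa [SetLike.mem_coe, Ideal.mem_comap, map_sub, map_one, jr_d h] at this
  · have := hZ (Or.inr ⟨s.map (Fin.castAddEmb r), rfl⟩)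
    rwa [SetLike.mem_coe, Ideal.mem_comap, map_sub, jr_t h, jr_t h, fl_ins, fl_era, fl,
      fil_map] at this

/-- the equations of a type -/
theorem ip_iff (J : Finset L.C) (Z : Ideal (PS O (Sy n))) :
    IPt (G.rcr r) Sum.inl (fun l => Fin.castAdd r (G.iτ l)) (fun l => Fin.castAdd r (G.iφ l)) J ≤
      Z.comap jr ↔ IPt G.rc id G.iτ G.iφ J ≤ Z := by
  rw [IPt, IPt, Ideal.span_le, Ideal.span_le]
  constructor
  · rintro H u (⟨l, hl, rfl | rfl | rfl⟩ | ⟨l, hl, hu⟩)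
    · rw [← jr_tr h]; exact H (Or.inl ⟨l, hl, Or.inl rfl⟩)
    · rw [← jr_tr h]; exact H (Or.inl ⟨l, hl, Or.inr (Or.inl rfl)⟩)
    · rw [← jr_tr2 h]; exact H (Or.inl ⟨l, hl, Or.inr (Or.inr rfl)⟩)
    · exact tau_ge h _ (fun v hv => H (Or.inr ⟨l, hl, hv⟩)) hu
  · rintro H u (⟨l, hl, rfl | rfl | rfl⟩ | ⟨l, hl, hu⟩)
    · rw [SetLike.mem_coe, Ideal.mem_comap, jr_tr h]; exact H (Or.inl ⟨l, hl, Or.inl rfl⟩)
    · rw [SetLike.mem_coe, Ideal.mem_comap, jr_tr h]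
      exact H (Or.inl ⟨l, hl, Or.inr (Or.inl rfl)⟩)
    · rw [SetLike.mem_coe, Ideal.mem_comap, jr_tr2 h]
      exact H (Or.inl ⟨l, hl, Or.inr (Or.inr rfl)⟩)
    · exact tau_le h _ (fun v hv => H (Or.inr ⟨l, hl, hv⟩)) hu

end sym

variable [IsDomain O] [IsDiscreteValuationRing O] [Coef O] [Finite F] [CharP F 2] {ϖ : O}
  {X : Finset ℕ} {as : ℕ} {β : Type} {τ ι' : β → Type} [Fintype β] [∀ b, Fintype (τ b)]
  {K : Kx O β τ ι' L.C} {n r s : ℕ} {V : Type} [CommRing V] {Y : Pc (S := S) (n := n) K r s V}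

theorem ax (hC : Cx S L X as) : Ax L X := fun l hl =>
  have m : l ∈ L.W ∪ L.C := Finset.mem_union_right _ (hC.sub hl)
  ⟨(hC.ok.pr l m).1, (hC.ok.hP l m).1, (hC.ok.hP l m).2, (hC.ok.tm l m).tau,
    hC.unr l (hC.ok.pr l m).1 (Or.inr hl) _ (hC.ok.hP l m).1 (hC.ok.hP l m).2 _
      (hC.ok.tm l m).tau⟩

theorem kr_eq (hϖ : Irreducible ϖ) (hC : Cx S L X as) {κ : Type} {gk : κ → GQ} (G : Gs S L gk n) :
    Kr (GS ϖ L S.T ∅ 0) (Ph (vT G.rc G.γ)) = G.aP :=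
  Ideal.ext fun f => mem_Kr.trans (H94.mem_aP G hϖ hC f).symm

theorem an_eq (hϖ : Irreducible ϖ) (hC : Cx S L X as) {κ : Type} {gk : κ → GQ} (G : Gs S L gk n)
    {N : Type} [AddCommGroup N] [Module (Tg O) N] (g : Gd (GS ϖ L S.T ∅ 0) N) :
    A0 (vT G.rc G.γ) N = G.An N :=
  Ideal.ext fun f => mem_A0.trans (H94.mem_An G hϖ hC g f).symm

/-- universal traces and the lift of level zero -/
theorem tu_lam (hϖ : Irreducible ϖ) (hC : Cx S L X as) {κ : Type} {gk : κ → GQ} {G : Gs S L gk n}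
    {tu : GQ → PS O (Sy n)} (hu : G.Tu tu) {lam : Tg O →+* PS O (Sy n)}
    (l : Lm (GS ϖ L S.T ∅ 0) (Ph (vT G.rc G.γ)) lam) (g : GQ) : tu g - lam (tt g) ∈ G.aP :=
  (H94.mem_aP G hϖ hC _).2 fun a ha => by
    by_cases e : a = ⊤
    · subst e
      exact Subsingleton.elim _ _
    obtain ⟨Z, a1, a2, -⟩ := H94.gp_of hϖ hC e ha
    obtain ⟨m, hm⟩ := (H94.fs hϖ hC).nil ha.gw
    have k := ph_hm hm (H94.vA_mem G)
    rw [map_sub, l a ha, hu _ Z _ a2 ⟨fun o => (k.c o).trans (a1.c o),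
      fun z => (k.x z).trans (H94.std_val a1 _ _ z)⟩, a1.t, sub_self]

variable [Base (PP O n r)] [Base (PS O (Sy n))]

theorem lv (hϖ : Irreducible ϖ) (hC : Cx S L X as) (h : Y.Ok) :
    Lv ϖ L S.T Y.q (fun m => Y.G'.vP (Y.τ' m)) (vT Y.G'.rc Y.G'.γ) Y.jr Sum.inr := by
  refine lv_of (H94.fs hϖ hC) Y.G'.γ Y.G'.gen1 (fun m => Y.G'.gen r _ _ (h.gn m))
    (fun m i => ?_) Sum.inl Sum.inr id (fun z => ?_) (fun z => ⟨z, rfl⟩) (fun m z => ?_)
    (fun _ _ => rfl) (fun z => ?_) h.jr.c (fun w => ?_) (fun i => ?_) (fun i => ?_)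
    fun i => h.jr.x _
  · obtain ⟨a, P, b, c⟩ := h.gn m i
    exact ⟨_, P, b.1, a, b.2.1, b.2.2, c.1⟩
  · rcases z with z | z
    · exact Or.inl ⟨z, rfl⟩
    · exact Or.inr ⟨z, rfl⟩
  · rcases z with w | i
    · show tt _ - cc (wm (Y.G'.rcr r) w).trace = tt _ - cc _
      rw [rcr_eq, H94.wm_r]
    · show dd _ - cc (Y.G'.rcr r i).det = dd _ - cc _
      rw [rcr_eq]
  · rcases z with w | i
    · show tt _ - cc (wm Y.G'.rc w).trace = tt _ - cc _
      rw [show wm Y.G'.rc w = L.r (wd Y.G'.γ w) from H94.wm_r L.r Y.G'.γ w]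
    · rfl
  · rw [h.jr.x]
    show tS _ _ _ - C (wm (Y.G'.rcr r) w).trace = _
    rw [wm_rcr]
    exact add_sub_cancel_left _ _
  · exact (h.jr.x _).trans (jv_em (Sum.inr i))
  · rw [h.jr.x]
    show Fin.append (dS Y.G'.rc id) (fun _ => 1) (Fin.natAdd n i) -
      C (Fin.append Y.G'.rc (fun _ => 1) (Fin.natAdd n i)).det = _
    rw [Fin.append_right, Fin.append_right, Matrix.det_one, map_one, sub_self]

/-- what the rings know about the symbols -/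
theorem rd (hϖ : Irreducible ϖ) (hC : Cx S L X as) (h : Y.Ok) :
    letI : Algebra (S0 O τ L n S.T r) (S1 O τ L n S.T r) := (io O _ r).toAlgebra
    (∀ (N : ℕ → Type) [∀ m, AddCommGroup (N m)]
      [∀ m, Module (PP O n r) (N m)] (W : Ideal (Tg O) → Prop),
      (∀ m k : ℕ, ∃ a : Ideal (Tg O), Gp S L (Finset.univ.image (Y.q m)) r a ∧ W a ∧
        (∀ i, dd (Y.τq m i) - (1 + yy i) * (tt (Y.τq m i) - (1 + yy i)) ∈ a) ∧
        ∀ Ψ : PP O n r →+* Tg O ⧸ a, Hm ((Ideal.Quotient.mk a).comp MvPolynomial.C)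
          (fun z => Ideal.Quotient.mk a (Y.G'.vP (Y.τ' m) z)) Ψ →
          RingHom.ker Ψ ≤ Module.annihilator (PP O n r) (N m) ⊔ maximalIdeal (PP O n r) ^ k) →
      (Y.rd ϖ).Gal (Y.rd ϖ).E (An Y.U N) ∧
      (∀ l : L.C, (∀ a, W a → tt (L.τ l) ∈ a) →
        (Y.rd ϖ).Gal ((Y.rd ϖ).E ⊔ Ideal.span {((DD K n S.T r).T l).trace}) (An Y.U N)) ∧
      ((∀ a, W a → ∀ l ∈ X, ∀ g, tt (g * L.τ l) - tt g ∈ a) →
        (Y.rd ϖ).Gal ((Y.rd ϖ).E ⊔ EU K n S.T r X) (An Y.U N))) →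
    H78.Rd ϖ S.T Y.q (fun m => Y.G'.vP (Y.τ' m)) (vT Y.G'.rc Y.G'.γ) Y.jr Sum.inr Y.τq Y.U (Y.rd ϖ) X
      (fun l => (Y.rd ϖ).E ⊔ Ideal.span {((DD K n S.T r).T l).trace})
      ((Y.rd ϖ).E ⊔ EU K n S.T r X) := by
  letI : Algebra (S0 O τ L n S.T r) (S1 O τ L n S.T r) := (io O _ r).toAlgebra
  intro R
  have H := lv hϖ hC h
  have pt : ∀ m, ∀ b ∈ gq ϖ L S.T Y.q m, ∀ w, Ph (Y.G'.vP (Y.τ' m)) b (tS (Y.G'.rcr r) Sum.inl w) =
      Ideal.Quotient.mk b (tt (wd (Fin.append Y.G'.γ (Y.τ' m)) w)) := fun m b hb w => by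
    rw [tS, map_add, (H.hq m hb).c, (H.hq m hb).x, RingHom.comp_apply, ← map_add]
    exact congrArg _ (add_sub_cancel _ _)
  have pd : ∀ m, ∀ b ∈ gq ϖ L S.T Y.q m, ∀ i, Ph (Y.G'.vP (Y.τ' m)) b (dS (Y.G'.rcr r) Sum.inl i) =
      Ideal.Quotient.mk b (dd (Fin.append Y.G'.γ (Y.τ' m) i)) := fun m b hb w => by
    rw [dS, map_add, (H.hq m hb).c, (H.hq m hb).x, RingHom.comp_apply, ← map_add]
    exact congrArg _ (add_sub_cancel _ _)
  refine ⟨rfl, Ideal.comap_mono (kr_eq hϖ hC Y.G').le, ?_, fun m i => (h.gn m i).1, h.ine, h.hU,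
    fun l t ht m => ?_, fun l m b hb => ?_, fun i => rename_X _ _, fun i => ?_, fun i => ?_,
    fun _ => le_sup_left, le_sup_left, fun l hl u ⟨p, hp⟩ => ?_, fun N _ _ W k => R N W fun m j => ?_⟩
  · have := Finset.card_pos.2 ⟨_, S.hl0⟩
    change 4 * S.T.card + 2 * r + 1 = 4 * S.T.card - 1 + (r + r + 2)
    omega
  · rcases ht with rfl | ⟨w, rfl⟩
    · have e := (H94.fs hϖ hC).det (L.τ l)
      rw [hϖ.maximalIdeal_eq, Ideal.mem_span_singleton'] at e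
      obtain ⟨o, ho⟩ := e
      refine ⟨1, 0, -cc o, fun b hb => ?_⟩
      have k := hb.gw.cld (L.τ l)
        (Or.inr (Or.inr (Or.inl ⟨l, Finset.mem_union_right _ l.2, rfl⟩)))
      have e2 : (cc o * cc ϖ : Tg O) = 1 - cc (L.r (L.τ l)).det := by
        rw [cc, cc, cc, ← map_mul, ho, map_sub, map_one]
      rw [map_sub, pd m b hb, Fin.append_left, Y.G'.hτ, map_one, zero_mul, zero_add, neg_mul, e2,
        Ideal.Quotient.eq.2 k, neg_sub, map_sub, map_one]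
    · obtain ⟨A, B, e1, e2⟩ := Sd.wd_ins (Fin.append Y.G'.γ (Y.τ' m)) (Fin.castAdd r (Y.G'.iτ l)) w
      refine ⟨B * A, 1, 0, fun b hb => ?_⟩
      rw [map_sub, pt m b hb, pt m b hb, e1, e2, Fin.append_left, Y.G'.hτ, one_mul, zero_mul,
        add_zero, map_sub, Ideal.Quotient.eq.2 (hb.gw.tc _ B), Ideal.Quotient.eq.2 (hb.gw.tc A B),
        mul_assoc]
  · exact (pt m b hb _).trans (by rw [wd_one, Fin.append_left, Y.G'.hφ])
  · show IsUnit (1 + y1 O _ i)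
    rw [MvPowerSeries.isUnit_iff_constantCoeff, map_add, map_one, y1, MvPowerSeries.constantCoeff_X,
      add_zero]
    exact isUnit_one
  · refine ⟨fun m => io O _ r (Y.tn m i), io O _ r (Y.ta i), fun m b hb => ?_,
      P022D.As.EA.cv_map (io O _ r) (fun z hz h => hz (P022D.As.EB.io_unit h)) (h.cvt i), ?_⟩
    · by_cases e : b = ⊤
      · subst e
        exact Subsingleton.elim _ _
      obtain ⟨Z, a1, a2, -⟩ := H94.gp_of hϖ hC e hb
      have k := H.hq m hb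
      refine ((h.tn m i _ Z ((Ph (Y.G'.vP (Y.τ' m)) b).comp (io O _ r)) a2
        ⟨fun o => ?_, fun z => ?_⟩).1).trans (a1.t _).symm
      · exact (congrArg (Ph _ b) (rename_C _ o)).trans ((k.c o).trans (a1.c o))
      · exact (congrArg (Ph _ b) (rename_X _ z)).trans ((k.x _).trans (H94.std_val a1 _ _ z))
    · have e1 : ψ1 S L τ n r (io O _ r (Y.ta i)) = io O _ r (ψ0 S L τ n r (Y.ta i)) :=
        (MvPowerSeries.rename_rename _ _ _).trans (MvPowerSeries.rename_rename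
          (e0 r : Sy (n + r) ↪ V0 τ L n S.T r)
          (Function.Embedding.inl : V0 τ L n S.T r ↪ V0 τ L n S.T r ⊕ Fin r) (Y.ta i)).symm
      show io O _ r (ψ0 S L τ n r (Y.ta i) - 2) = ψ1 S L τ n r (io O _ r (Y.ta i)) - 2
      rw [e1, map_sub, map_ofNat]
  · exact Ideal.mem_sup_right (Ideal.subset_span ⟨l, hl, p.1, p.2, hp.symm⟩)
  · obtain ⟨a, a1, a2, a3⟩ := k m j
    exact ⟨a, H94.gp_of hϖ hC (fun e => (Ideal.comap_ne_top _ (maximalIdeal.isMaximal O).ne_top)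
      (top_le_iff.1 (e ▸ a2))) a1, a3⟩

/-- **the denominator** -/
theorem dp (hϖ : Irreducible ϖ) (hC : Cx S L X as) (h : Y.Ok) {lam : ℕ → Tg O →+* PP O n r}
    (A : La ϖ L S.T Y.q (fun m => Y.G'.vP (Y.τ' m)) (vT Y.G'.rc Y.G'.γ) Y.jr Sum.inr lam)
    {φ : ℕ → Fin r → GQ} {c e : ℕ} {d : PP O n r} 
    (hd : Cv (Y.U : Filter ℕ) (P022G.Mod.DD lam Y.q φ c) d)
    {tu : GQ → PS O (Sy n)} (hu : Y.G'.Tu tu) {E : Ideal (PS O (Sy n))} (hE : E.IsPrime)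
    (e1 : Y.G'.aP ⊔ Ideal.span {C ϖ} ≤ E)
    (k : ∀ m i, tu (φ m i) ∉ E ⊔ maximalIdeal (PS O (Sy n)) ^ e) : Y.jr d ∉ E := by
  obtain ⟨lam₀, l, -⟩ := (H94.fs hϖ hC).lam0 A.lv.fm0 (H94.vA_mem Y.G')
  have ap : Y.G'.aP ≤ E := le_sup_left.trans e1
  haveI := IsLocalHom.of_surjective Y.jr (jr_surj h.jr)
  refine dpV (lam := lam₀) (fun z hz => map_nonunit Y.jr z hz) hE ?_
    (fun m t => ap ((kr_eq hϖ hC Y.G').le (A.jrK l m t))) (fun m i => ?_) (e := e)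
    (fun m i c' => k m i ?_) hd
  · have e := Coef.two (O := O)
    rw [hϖ.maximalIdeal_eq, Ideal.mem_span_singleton'] at e
    obtain ⟨o, ho⟩ := e
    rw [← map_ofNat (C : O →+* PS O (Sy n)) 2, ← ho, map_mul]
    exact Ideal.mul_mem_left _ _ (e1 (Ideal.mem_sup_right (Ideal.mem_span_singleton_self _)))
  · obtain ⟨a, P, b, -⟩ := h.gn m i
    exact b.1.odd_of_ne_two fun e => a (by rw [e, hC.ok.hT]; simp)
  · simpa using add_mem (Ideal.mem_sup_left (ap (tu_lam hϖ hC hu l (φ m i)))) c'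

end Vale.Agent.P022S.H89
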