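import Vale.Agent.P022S.Rows
import Vale.Agent.P022G.Rel.ToPt
import Vale.Agent.P022G.Rel.Loc
import Vale.Agent.P022D.As.Cov
import Vale.Agent.P022D.PA.Lim

/-!
# P022S: the rows `RCA` and `RFIN`
-/

set_option linter.all false

noncomputable section

namespace Vale.Agent.P022S.H68

open NumberField IsLocalRing MvPowerSeries Filter
open Vale.Agent.P022 Vale.Agent.P022S.R Vale.Agent.P022S.Loc
open Vale.Agent.P027M.S (Inert mx)
open Vale.Agent.P022D.Sel (M2)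
open Vale.Agent.P022D.Core (PS io y1 Coef)
open Vale.Agent.P022E.Loc (Pl)
open Vale.Agent.P022G (Hm KI)
open Vale.Agent.P022G

theorem j_pi {O V : Type} [CommRing O] [IsDomain O] [IsDiscreteValuationRing O] [h : Coef O]
    [CommRing V] [IsDomain V] [CharP V 2] (j : O →+* V) {ϖ : O} (hϖ : Irreducible ϖ) :
    j ϖ = 0 := by
  obtain ⟨n, u, hu⟩ := IsDiscreteValuationRing.eq_unit_mul_pow_irreducible h.ne hϖ
  have h2 : j 2 = 0 := by
    rw [map_ofNat]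
    exact CharTwo.two_eq_zero
  rw [hu, map_mul, map_pow] at h2
  exact IsNilpotent.eq_zero ⟨n, (mul_eq_zero.1 h2).resolve_left (u.isUnit.map j).ne_zero⟩

theorem sqF (F : Type) [Field F] [Finite F] [CharP F 2] (a : F) : ∃ b, b ^ 2 = a :=
  (frobenius F 2).injective.bijective_of_finite.2 a

section
variable {O F : Type} [CommRing O] [IsDomain O] [IsDiscreteValuationRing O] [Field F]
  {ϖ : O} {S : Dat O F} {L : Pl O} {X : Finset ℕ} {as : ℕ} {β : Type} {τ ι' : β → Type}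
  [Fintype β] [∀ b, Fintype (τ b)] [∀ b, Fintype (ι' b)] {K : Kx O β τ ι' L.C} {n : ℕ}

theorem di_kn (hK : K.Ok L S ϖ) (G : Gs S L K.g n) (r : ℕ) (q : Fin r → ℕ) (τ' : Fin r → GQ) :
    (DD K n S.T r).I ≤ Kn K G r q τ' := by
  rintro f hf B _ j v ψ ⟨Z, hZ, rfl, rfl⟩ h
  exact hK.eqs _ B Z hZ.1 ψ h.c (fun i => h.x _) hf

theorem xi_one (hC : Cx S L X as) (hK : K.Ok L S ϖ) (a : L.C) (ha : (a : ℕ) ∈ X) :
    K.ξ a = 1 := by
  have hm : (a : ℕ) ∈ L.W ∪ L.C := Finset.mem_union_right _ a.2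
  rw [(hK.xi a).1, hC.unr a (hC.ok.pr a hm).1 (Or.inr ha) _ (hC.ok.hP a hm).1 (hC.ok.hP a hm).2 _
    (hC.ok.tm a hm).tau, Matrix.det_one]

end

/-- the ring data come from the blocks -/
def MT : Prop := AllC fun O F _ _ _ _ _ _ _ ϖ S L X β τ ι' _ _ _ K n r s V _ Y =>
  letI : Algebra (S0 O τ L n S.T r) (S1 O τ L n S.T r) := (io O _ r).toAlgebra
  Rel.Mt (Y.rd ϖ) (DD K n S.T r) ϖ Y.k ∧ (Y.rd ϖ).p1.IsPrime ∧ (Y.rd ϖ).E ≤ (Y.rd ϖ).p1 ∧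
    (Y.rd ϖ).π₀ ∈ (Y.rd ϖ).p1 ∧ Rel.mn Y.k Y.col ∉ (Y.rd ϖ).p1 ∧
    ∀ a, Y.col a ∉ Set.range (DD K n S.T r).e

theorem mtC (hC : COBJ) : MT := by
  intro O F _ _ _ _ _ _ _ ϖ S L X as β τ ι' _ _ _ K n G hϖ hy hK hD r s V _ _ _ _ _ _ Y ht hG H
  subst hG
  letI : Algebra (S0 O τ L n S.T r) (S1 O τ L n S.T r) := (io O _ r).toAlgebra
  haveI := P022D.As.base O (V0 τ L n S.T r)
  have e : (Y.rd ϖ).p1 = RingHom.ker (Y.θ.comp (io O _ r)) := rfl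
  have hk := fun m => (hC O F ϖ S L X as β τ ι' K n Y.G' hϖ hy hK hD V Y.t Y.j Y.ρ Y.θA ht H.crv).2.2
    r (Y.q m) (Y.τ' m) (H.gn m) _ H.cf
  have h1 : (Y.rd ϖ).p1.IsPrime := e ▸ RingHom.ker_isPrime _
  have h2 : (Y.rd ϖ).E ≤ (Y.rd ϖ).p1 := by
    rw [e]
    refine sup_le ((di_kn hK Y.G' r _ _).trans (hk 0)) (Ideal.span_le.2 ?_)
    rintro _ ⟨a, rfl⟩
    exact (P022D.PA.limi _ Y.U _ _ _ (H.cvk a)).1
      (Eventually.of_forall fun m => hk m (H.kn m a))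
  have h3 : (Y.rd ϖ).π₀ ∈ (Y.rd ϖ).p1 := by
    rw [e]
    exact (H.cf.c ϖ).trans (j_pi Y.j hϖ)
  have h4 : Rel.mn Y.k Y.col ∉ (Y.rd ϖ).p1 := H.mn
  have h5 : ∀ a, Y.col a ∉ Set.range (DD K n S.T r).e := H.col
  obtain ⟨top, hl⟩ := Rel.locR O F _ _ _ _ _ _ (DD K n S.T r) S.red ϖ (hK.ok _) (sqF F) Y.k Y.col
    h5 _ h1 (sup_le h2 ((Ideal.span_singleton_le_iff_mem _).2 h3)) h4
  have c1 := hl.card
  have c2 := hK.card
  have c3 := H.cnt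
  rw [Fintype.card_sum, Fintype.card_sum, Fintype.card_prod, Fintype.card_fin, Fintype.card_fin,
    Fintype.card_coe] at c1
  obtain rfl : top = 4 * S.T.card + 2 * r + 1 := by omega
  exact ⟨⟨rfl, rfl, rfl, fun _ => rfl, fun _ => rfl, hl⟩, h1, h2, h3, h4, h5⟩

theorem rcaC (hC : COBJ) : RCA := by
  intro O F _ _ _ hO _ _ _ ϖ S L X as β τ ι' _ _ _ K n G hϖ hy hK hD r s V _ _ _ _ _ _ Y ht hG H
  letI : Algebra (S0 O τ L n S.T r) (S1 O τ L n S.T r) := (io O _ r).toAlgebra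
  classical
  obtain ⟨M, h1, h2, h3, h4, h5⟩ := mtC hC O F ϖ S L X as β τ ι' K n G hϖ hy hK hD r s V Y ht hG H
  refine ⟨fun η h => ⟨M.dom η h, M.tyI η h, M.tr η h⟩, fun J a ha hJ hp η h e 𝔮 q1 q2 q3 q4 => ?_⟩
  refine M.low (hK.ok _) hO.ne h5 h1 h4 a (xi_one hy hK a ha) ?_ J hJ hp le_sup_left
    (Ideal.mem_sup_right (Ideal.mem_span_singleton_self _)) η h (by convert e) 𝔮 q1 q2 q3 q4
  have := (hy.one a ha)
  change (a : ℕ) % 4 = 1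
  omega

theorem rfinC (hC : COBJ) : RFIN := by
  intro O F _ _ _ hO _ _ _ ϖ S L X as β τ ι' _ _ _ K n G hϖ hy hK hD r s V _ _ _ _ _ _ Y ht hG H
  letI : Algebra (S0 O τ L n S.T r) (S1 O τ L n S.T r) := (io O _ r).toAlgebra
  classical
  obtain ⟨M, h1, h2, h3, h4, h5⟩ := mtC hC O F ϖ S L X as β τ ι' K n G hϖ hy hK hD r s V Y ht hG H
  let A : Finset L.C := Finset.univ.filter fun l => (l : ℕ) ∈ X
  have hA : ∀ l, l ∈ A ↔ (l : ℕ) ∈ X := fun l => by simp [A]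
  have e1 : (Y.rd ϖ).E ⊔ EU K n S.T r X = Rel.EA (DD K n S.T r) Y.k A := by
    simp only [EU, Rel.EA, hA]
    rfl
  have e2 : ∀ J, mX K X J = Rel.mA (DD K n S.T r) A J := fun J => by
    rw [mX, Rel.mA]
    refine (Finset.prod_subtype (p := fun l => l ∉ A) (F := _) _ (fun l => by simp [hA]) _).trans
      (Finset.prod_congr rfl fun l _ => ?_)
    by_cases c : l.1 ∈ J
    · rw [if_pos c, if_pos c]
      rfl
    · rw [if_neg c, if_neg c]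
      rfl
  have hξ : ∀ γ ∈ A, (DD K n S.T r).ξ γ = 1 := fun γ h => xi_one hy hK γ ((hA γ).1 h)
  have hn : ∀ γ ∈ A, S.red ((DD K n S.T r).n γ) = 0 := fun γ h => (hK.ram γ).2 (by rw [mx, hy.rb1]; rfl)
  rw [e1]
  refine ⟨fun η _ h h' => ?_, M.ch0 (hK.ok _) (fun γ => (hK.xi γ).2) h1 h3 A hξ hn⟩
  rw [e2]
  exact M.len Rel.locR (hK.ok _) (sqF F) h5 h1 h4 A hξ hn η h h'

end Vale.Agent.P022S.H68
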