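import Vale.Agent.P022S.Rows
import Vale.Agent.P022G.Rw.Mt

/-!
# P022S: the rows `RCA` and `RFIN`
-/

set_option linter.all false

noncomputable section

namespace Vale.Agent.P022S.MtH69

open NumberField IsLocalRing MvPowerSeries Filter
open Vale.Agent.P022 Vale.Agent.P022S.R Vale.Agent.P022S.Loc
open Vale.Agent.P027M.S (Inert mx)
open Vale.Agent.P022D.Sel (M2)
open Vale.Agent.P022D.Core (PS io y1 Coef)
open Vale.Agent.P022E.Loc (Pl)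
open Vale.Agent.P022G.Rw (j_pi sqF)

section
variable {O F : Type} [CommRing O] [IsDomain O] [IsDiscreteValuationRing O] [Field F]
  {ϖ : O} {S : Dat O F} {L : Pl O} {X : Finset ℕ} {as : ℕ} {β : Type} {τ ι' : β → Type}
  [Fintype β] [∀ b, Fintype (τ b)] [∀ b, Fintype (ι' b)] {K : Kx O β τ ι' L.C} {n : ℕ}

theorem di_kn (hK : K.Ok L S ϖ) (G : Gs S L K.g n) (r : ℕ) (q : Fin r → ℕ) (τ' : Fin r → GQ) :
    (DD K n S.T r).I ≤ Kn K G r q τ' := by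
  rintro f hf B _ j v ψ ⟨Z, hZ, rfl, rfl⟩ h
  exact hK.eqs _ B Z hZ.1 ψ h.c (fun i => h.x _) hf

theorem xi_one (hC : Cx S L X as) (hK : K.Ok L S ϖ) (a : L.C) (ha : (a : ℕ) ∈ X) :
    K.ξ a = 1 := by
  have hm : (a : ℕ) ∈ L.W ∪ L.C := Finset.mem_union_right _ a.2
  rw [(hK.xi a).1, hC.unr a (hC.ok.pr a hm).1 (Or.inr ha) _ (hC.ok.hP a hm).1 (hC.ok.hP a hm).2 _
    (hC.ok.tm a hm).tau, Matrix.det_one]

end

/-- the ring data come from the blocks -/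
def MT : Prop := AllC fun O F _ _ _ _ _ _ _ ϖ S L X β τ ι' _ _ _ K n r s V _ Y =>
  letI : Algebra (S0 O τ L n S.T r) (S1 O τ L n S.T r) := (io O _ r).toAlgebra
  P022G.Rel.Mt (Y.rd ϖ) (DD K n S.T r) ϖ Y.k ∧ (Y.rd ϖ).p1.IsPrime ∧ (Y.rd ϖ).E ≤ (Y.rd ϖ).p1 ∧
    (Y.rd ϖ).π₀ ∈ (Y.rd ϖ).p1 ∧ P022G.Rel.mn Y.k Y.col ∉ (Y.rd ϖ).p1 ∧
    ∀ a, Y.col a ∉ Set.range (DD K n S.T r).e

theorem mtC (hC : COBJ) : MT := by
  intro O F _ _ _ _ _ _ _ ϖ S L X as β τ ι' _ _ _ K n G hϖ hy hK hD r s V _ _ _ _ _ _ Y ht hG H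
  subst hG
  letI : Algebra (S0 O τ L n S.T r) (S1 O τ L n S.T r) := (io O _ r).toAlgebra
  haveI := P022D.As.base O (V0 τ L n S.T r)
  have e : (Y.rd ϖ).p1 = RingHom.ker (Y.θ.comp (io O _ r)) := rfl
  have hk := fun m => (hC O F ϖ S L X as β τ ι' K n Y.G' hϖ hy hK hD V Y.t Y.j Y.ρ Y.θA ht H.crv).2.2
    r (Y.q m) (Y.τ' m) (H.gn m) _ H.cf
  have h1 : (Y.rd ϖ).p1.IsPrime := e ▸ RingHom.ker_isPrime _
  have h2 : (Y.rd ϖ).E ≤ (Y.rd ϖ).p1 := by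
    rw [e]
    refine sup_le ((di_kn hK Y.G' r _ _).trans (hk 0)) (Ideal.span_le.2 ?_)
    rintro _ ⟨a, rfl⟩
    exact (P022D.PA.limi _ Y.U _ _ _ (H.cvk a)).1
      (Eventually.of_forall fun m => hk m (H.kn m a))
  have h3 : (Y.rd ϖ).π₀ ∈ (Y.rd ϖ).p1 := by
    rw [e]
    exact (H.cf.c ϖ).trans (j_pi Y.j hϖ)
  have h4 : P022G.Rel.mn Y.k Y.col ∉ (Y.rd ϖ).p1 := H.mn
  have h5 : ∀ a, Y.col a ∉ Set.range (DD K n S.T r).e := H.col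
  obtain ⟨top, hl⟩ := P022G.Rel.locR O F _ _ _ _ _ _ (DD K n S.T r) S.red ϖ (hK.ok _) (sqF F) Y.k Y.col
    h5 _ h1 (sup_le h2 ((Ideal.span_singleton_le_iff_mem _).2 h3)) h4
  have c1 := hl.card
  have c2 := hK.card
  have c3 := H.cnt
  rw [Fintype.card_sum, Fintype.card_sum, Fintype.card_prod, Fintype.card_fin, Fintype.card_fin,
    Fintype.card_coe] at c1
  obtain rfl : top = 4 * S.T.card + 2 * r + 1 := by omega
  exact ⟨⟨rfl, rfl, rfl, fun _ => rfl, fun _ => rfl, hl⟩, h1, h2, h3, h4, h5⟩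

theorem rcaC (hC : COBJ) : RCA := by
  intro O F _ _ _ hO _ _ _ ϖ S L X as β τ ι' _ _ _ K n G hϖ hy hK hD r s V _ _ _ _ _ _ Y ht hG H
  letI : Algebra (S0 O τ L n S.T r) (S1 O τ L n S.T r) := (io O _ r).toAlgebra
  classical
  obtain ⟨M, h1, h2, h3, h4, h5⟩ := mtC hC O F ϖ S L X as β τ ι' K n G hϖ hy hK hD r s V Y ht hG H
  refine ⟨fun η h => ⟨M.dom η h, M.tyI η h, M.tr η h⟩, fun J a ha hJ hp η h e 𝔮 q1 q2 q3 q4 => ?_⟩
  refine M.low (hK.ok _) hO.ne h5 h1 h4 a (xi_one hy hK a ha) ?_ J hJ hp le_sup_left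
    (Ideal.mem_sup_right (Ideal.mem_span_singleton_self _)) η h e 𝔮 q1 q2 q3 q4
  have := hy.one a ha
  change (a : ℕ) % 4 = 1
  omega

theorem rfinC (hC : COBJ) : RFIN := by
  intro O F _ _ _ hO _ _ _ ϖ S L X as β τ ι' _ _ _ K n G hϖ hy hK hD r s V _ _ _ _ _ _ Y ht hG H
  letI : Algebra (S0 O τ L n S.T r) (S1 O τ L n S.T r) := (io O _ r).toAlgebra
  classical
  obtain ⟨M, h1, h2, h3, h4, h5⟩ := mtC hC O F ϖ S L X as β τ ι' K n G hϖ hy hK hD r s V Y ht hG H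
  let A : Finset L.C := Finset.univ.filter fun l => (l : ℕ) ∈ X
  have hA : ∀ l, l ∈ A ↔ (l : ℕ) ∈ X := fun l => by simp [A]
  have e1 : (Y.rd ϖ).E ⊔ EU K n S.T r X = P022G.Rel.EA (DD K n S.T r) Y.k A := by
    simp only [EU, P022G.Rel.EA, hA]
    rfl
  have e2 : ∀ J, mX K X J = P022G.Rel.mA (DD K n S.T r) A J := fun J => by
    rw [mX, P022G.Rel.mA]
    refine (Finset.prod_subtype (p := fun l => l ∉ A) (F := _) _ (fun l => by simp [hA]) _).trans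
      (Finset.prod_congr rfl fun l _ => ?_)
    by_cases c : l.1 ∈ J
    · rw [if_pos c, if_pos c]
      rfl
    · rw [if_neg c, if_neg c]
      rfl
  have hξ : ∀ γ ∈ A, (DD K n S.T r).ξ γ = 1 := fun γ h => xi_one hy hK γ ((hA γ).1 h)
  have hn : ∀ γ ∈ A, S.red ((DD K n S.T r).n γ) = 0 := fun γ h => (hK.ram γ).2 (congrArg Units.val (hy.rb1 _))
  rw [e1]
  refine ⟨fun η _ h h' => ?_, M.ch0 (hK.ok _) (fun γ => (hK.xi γ).2) h1 h3 A hξ hn⟩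
  rw [e2]
  exact M.len P022G.Rel.locR (hK.ok _) (sqF F) h5 h1 h4 A hξ hn η h h'

end Vale.Agent.P022S.MtH69
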