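import Vale.Agent.P022S.Rw.TraH22
import Vale.Agent.P022S.Mod.Sub

/-!
# P022S, row OUTG: the point is a limit of systems which occur in the module
-/

set_option linter.all false

open IsLocalRing NumberField MvPowerSeries

noncomputable section

namespace Vale.Agent.P022S.OutH69

open Vale.Agent.P022 Vale.Agent.P022S.R Vale.Agent.P022S.Loc Vale.Agent.P022S.H22
open Vale.Agent.P022D.Core (PS)
open Vale.Agent.P022E.As (Tg cc tt dd yy Gw mT ev0)
open Vale.Agent.P022F.End0 (evc evt evd)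
open Vale.Agent.P022G.Mod (Ph ph_hm Gd)

theorem outgC : OUTG := by
  intro O F _ _ _ _ _ _ _ ϖ S L X0 as β τ ι' _ _ _ K n G hϖ hC hK hD W0 _ _ hW hD' hA
  have H : Mod.Fs ϖ L S.T := ⟨hϖ, fun g => (hC.ok.ker _).1 (red_tr hC g),
    fun g => (hC.ok.ker _).1 (by rw [map_sub, map_one, red_det hC, sub_self]), hC.ok.cont,
    fun l a b => hC.unr l a (Or.inl b)⟩
  have hv : ∀ s, ev0 L.r (vT G.rc G.γ s) = 0 := by
    rintro (s | s)
    · show ev0 L.r (tt _ - cc _) = 0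
      rw [map_sub, evt, evc, ← wm_r]
      exact sub_self _
    · show ev0 L.r (dd _ - cc _) = 0
      rw [map_sub, evd, evc]
      exact sub_self _
  have hm : ∀ s, vT G.rc G.γ s ∈ mT L.r := fun s => by
    change ev0 L.r _ ∈ maximalIdeal O
    rw [hv]
    exact zero_mem _
  have fm := H.fm (Q := ∅) (r := 0) G.gen1 (vT G.rc G.γ) hm (fun s => ⟨Sum.inl s, _, rfl⟩)
    (fun i => ⟨Sum.inr i, _, rfl⟩) fun i hi => absurd hi (Nat.not_lt_zero i)
  have gd : Gd (Mod.GS ϖ L S.T ∅ 0) W0 := fun w => gs_sub hC (Mod.gd_of hW hD' w)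
  refine Mod.out_of fm Mod.gs_top (fun j => H.pt j ∅ 0) hv gd (fun f hf => hA f ?_) rfl
  rintro B _ j v ψ ⟨w, Z, u, hu, hker, rfl, rfl⟩ hψ
  obtain ⟨m, hm'⟩ := H.nil (gd w).gw
  have k := ph_hm hm' hm
  obtain ⟨k1, hk1⟩ := fm.ker _ (gd w)
  obtain ⟨k0, hk0⟩ := hm_nil Z hψ
  obtain ⟨_, ⟨p, rfl⟩, hp⟩ := poly
    (MvPolynomial.eval₂Hom (C : O →+* PS O (Sy n)) X).range
    (fun c => ⟨MvPolynomial.C c, MvPolynomial.eval₂Hom_C _ _ c⟩)
    (fun s => ⟨MvPolynomial.X s, MvPolynomial.eval₂Hom_X' _ _ s⟩) (k0 + k1) f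
  have e1 := hk0 _ (Ideal.pow_le_pow_right (Nat.le_add_right _ _) hp)
  have e2 := hk1 _ (Ideal.pow_le_pow_right (Nat.le_add_left _ _) hp)
  rw [map_sub, sub_eq_zero, hm_poly hu hψ] at e1
  rw [map_sub, hf w, zero_sub, neg_eq_zero] at e2
  have e3 : (Ph (vT G.rc G.γ) (Ideal.torsionOf (Tg O) W0 w)).comp (MvPolynomial.eval₂Hom C X) =
      (Ideal.Quotient.mk _).comp (MvPolynomial.eval₂Hom MvPolynomial.C (vT G.rc G.γ)) := by
    refine MvPolynomial.ringHom_ext (fun o => ?_) fun s => ?_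
    · rw [RingHom.comp_apply, RingHom.comp_apply, MvPolynomial.eval₂Hom_C, MvPolynomial.eval₂Hom_C]
      exact k.c o
    · rw [RingHom.comp_apply, RingHom.comp_apply, MvPolynomial.eval₂Hom_X', MvPolynomial.eval₂Hom_X']
      exact k.x s
  rw [e1, ← RingHom.mem_ker, hker, ← Ideal.Quotient.eq_zero_iff_mem]
  exact (DFunLike.congr_fun e3 p).symm.trans e2

end Vale.Agent.P022S.OutH69
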