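import Vale.Agent.P022S.Rw.TraH22
import Vale.Agent.P022S.Mod.Out

/-! # P022S, row OUTG: the point is a limit of systems which occur in the module -/

set_option linter.all false

open IsLocalRing NumberField MvPowerSeries

noncomputable section

namespace Vale.Agent.P022S.H22

open Vale.Agent.P022 Vale.Agent.P022S.R Vale.Agent.P022S.Loc Vale.Agent.P022G.Mod
open Vale.Agent.P027M.S (Inert mx)
open Vale.Agent.P022D.Core (PS Coef)
open Vale.Agent.P022D.Sel (M2)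
open Vale.Agent.P022E.As (Tg cc tt dd yy Gw mT ev0 pk)
open Vale.Agent.P022E.Loc (Pl)
open Vale.Agent.P022G (Hm KI subL resJ Tr)
open Vale.Agent.P022G.Word (wd)
open Vale.Agent.P022F.End0 (evc evt evd evy)
open Ideal (torsionOf mem_torsionOf_iff)

variable {O F : Type} [CommRing O] [IsDomain O] [IsDiscreteValuationRing O] [Coef O] [Field F]
  [CharP F 2] {S : Dat O F} {L : Pl O} {ϖ : O} {X : Finset ℕ} {as : ℕ} {m : ℕ}

theorem fs_of (hϖ : Irreducible ϖ) (hC : Cx S L X as) : Mod.Fs ϖ L S.T :=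
  ⟨hϖ, fun g => (hC.ok.ker _).1 (red_tr hC g),
    fun g => (hC.ok.ker _).1 (by rw [map_sub, map_one, red_det hC, sub_self]), hC.ok.cont,
    fun l h1 h2 => hC.unr l h1 (Or.inl h2)⟩

theorem ev_vT (γ : Fin m → GQ) (s : Sy m) : ev0 L.r (vT (fun i => L.r (γ i)) γ s) = 0 := by
  rcases s with s | s
  · show ev0 L.r (tt _ - cc _) = 0
    rw [map_sub, evt, evc, wm_r, sub_self]
  · show ev0 L.r (dd _ - cc _) = 0
    rw [map_sub, evd, evc, sub_self]

theorem vT_mem (γ : Fin m → GQ) (s : Sy m) : vT (fun i => L.r (γ i)) γ s ∈ mT L.r := by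
  change ev0 L.r _ ∈ maximalIdeal O
  rw [ev_vT]
  exact zero_mem _

theorem std_val {B : Type} [CommRing B] {Z : PO S B} {u : Tg O →+* B} (hu : Z.Std u)
    (rc : Fin m → M2 O) (γ : Fin m → GQ) (s : Sy m) : u (vT rc γ s) = Z.val rc γ s := by
  rcases s with i | i
  · show u (tt _ - cc _) = Z.t _ - Z.ι _
    rw [map_sub, hu.t, hu.c]
  · show u (dd _ - cc _) = (Z.d _ : B) - Z.ι _
    rw [map_sub, hu.d, hu.c]

/-- an evaluation at a pseudo object factors through the evaluation modulo the kernel -/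
theorem thru {B σ : Type} [CommRing B] [Fintype σ] {u : Tg O →+* B} {v : σ → Tg O}
    {j : O →+* B} {w : σ → B} (hj : ∀ o, u (cc o) = j o) (hw : ∀ s, u (v s) = w s)
    {μ : Ideal (Tg O)} {k : ℕ} (hk : μ ^ k ≤ RingHom.ker u) (hv : ∀ s, v s ∈ μ)
    {ψ : PS O σ →+* B} (h : Hm j w ψ) (f : PS O σ) :
    ψ f = RingHom.kerLift u (Ph v (RingHom.ker u) f) := by
  have p := ph_hm hk hv
  have h' : Hm j w ((RingHom.kerLift u).comp (Ph v (RingHom.ker u))) :=
    ⟨fun o => by rw [RingHom.comp_apply, p.c]; exact (RingHom.kerLift_mk u _).trans (hj o),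
      fun s => by rw [RingHom.comp_apply, p.x]; exact (RingHom.kerLift_mk u _).trans (hw s)⟩
  have e : (μ.map u) ^ k = ⊥ := by
    rw [← Ideal.map_pow, Ideal.map_eq_bot_iff_le_ker]
    exact hk
  rw [hm_ext h h' e fun s => hw s ▸ Ideal.mem_map_of_mem u (hv s)]
  rfl

theorem mem_An {κ : Type} {gk : κ → GQ} {n : ℕ} (G : Gs S L gk n) (H : Mod.Fs ϖ L S.T)
    {Y : Type} [AddCommGroup Y] [Module (Tg O) Y] (gd : Gd (Mod.GS ϖ L S.T ∅ 0) Y)
    {f : PS O (Sy n)} (h : ∀ w : Y, Ph (vT G.rc G.γ) (torsionOf (Tg O) Y w) f = 0) :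
    f ∈ G.An Y := by
  rintro B _ j v ψ ⟨w, Z, u, a1, a2, rfl, rfl⟩ k
  obtain ⟨i, hi⟩ := H.nil (gd w).gw
  have e := h w
  rw [← a2] at hi e
  rw [thru a1.c (std_val a1 G.rc G.γ) hi (vT_mem G.γ) k, e, map_zero]

/-- **OUTG** -/
theorem outgC : OUTG := by
  intro O F _ _ _ _ _ _ _ ϖ S L X as β τ ι' _ _ _ K n G hϖ hC hK hD W0 _ _ hW hW' hA j
  have H := fs_of hϖ hC
  have gd : Gd (Mod.GS ϖ L S.T ∅ 0) W0 := fun w => gs_sub hC (Mod.gd_of hW hW' w)
  have fm := H.fm (r := 0) G.gen1 (vT G.rc G.γ) (vT_mem G.γ) (fun s => ⟨Sum.inl s, _, rfl⟩)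
    (fun i => ⟨Sum.inr i, _, rfl⟩) (fun i hi => absurd hi (Nat.not_lt_zero i))
  exact Mod.out94 fm (Mod.Gs.top ϖ L S.T ∅ 0) (fun j => H.pt j ∅ 0) (ev_vT G.γ) gd
    (fun f hf => hA f (mem_An G H gd hf)) j

end Vale.Agent.P022S.H22
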