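import Vale.Agent.P022S.Rw.JrH62
import Vale.Agent.P022S.Rw.Pkg0
import Vale.Agent.P022D.As.Cov

/-!
# P022S: the rows `PATCH` and `LOWER` from the package at a curve
-/

set_option linter.all false

noncomputable section

namespace Vale.Agent.P022S.H62

open IsLocalRing MvPowerSeries
open Vale.Agent.P022 Vale.Agent.P022S.R Vale.Agent.P022S.Loc
open Vale.Agent.P022D.Core (PS io y1 Coef)
open Vale.Agent.P022E.Loc (Pl)
open Vale.Agent.P022G.Chain (Pd)

open Classical in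
theorem patchC (hP : PKG) (hV : RCOV) (hR : ROK) : PATCH := by
  intro O F _ _ _ _ _ _ _ ϖ S L X as β τ ι' _ _ _ K n G hϖ hC hK hK' Sf I Y0 W0 _ _ _ _ ses ig ib iJ
    e1 hD J p E E' hp hf hE hE' h1 h2 h3
  have hI := hE.2.1.trans h1
  obtain ⟨r, s, V, _, _, _, _, _, _, Y, a1, rfl, a3, rfl, a5⟩ := hP O F ϖ S L X as β τ ι' K n G hϖ
    hC hK hK' Sf I Y0 W0 ses ig ib iJ e1 hD p {E, E'} hp (le_sup_left.trans (le_sup_left.trans hI))
    (hI (Ideal.mem_sup_left (Ideal.mem_sup_right (Ideal.mem_span_singleton_self _)))) hf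
    (fun Z hZ => by
      rcases Finset.mem_insert.1 hZ with rfl | hZ
      · exact ⟨pd_mono hE le_sup_left, h1⟩
      · rw [Finset.mem_singleton.1 hZ]
        exact ⟨pd_mono hE' le_sup_left, h2⟩)
  haveI := P022D.As.base O (Sy (n + r) ⊕ Fin r)
  haveI := P022D.As.base O (V0 τ L n S.T r)
  letI : Algebra (S0 O τ L n S.T r) (S1 O τ L n S.T r) := (io O _ r).toAlgebra
  obtain ⟨u, a, D, d, M, Gm, _, _, _, _, W, hd, hA, -⟩ := a5
  have H := hR O F ϖ S L X as β τ ι' K n _ hϖ hC hK hK' r s V Y a1 rfl a3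
  obtain ⟨-, -, -, c1, c2, -⟩ := hV O F ϖ S L X as β τ ι' K n _ hϖ hC hK hK' r s V Y a1 rfl a3
  exact (lz a3.jr c1 c2).patch H W (hA _)
    (gp a3.jr hE.1 h1 (le_sup_left.trans hE.2.1) (hd _ (Finset.mem_insert_self _ _)))
    (gp a3.jr hE'.1 h2 (le_sup_left.trans hE'.2.1)
      (hd _ (Finset.mem_insert_of_mem (Finset.mem_singleton_self _))))
    hE.2.2 (le_sup_right.trans hE'.2.1) h3

open Classical in
theorem lowerC (hP : PKG) (hV : RCOV) (hR : ROK) (hL : RCA) : LOWER := by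
  intro O F _ _ _ _ _ _ _ ϖ S L X as β τ ι' _ _ _ K n G hϖ hC hK hK' Sf I Y0 W0 _ _ _ _ ses ig ib iJ
    e1 hD J l hl hJ p E E' hp hf hE hE' h1 h2 h3
  have hI := hE'.2.1.trans h2
  obtain ⟨r, s, V, _, _, _, _, _, _, Y, a1, rfl, a3, rfl, a5⟩ := hP O F ϖ S L X as β τ ι' K n G hϖ
    hC hK hK' Sf I Y0 W0 ses ig ib iJ e1 hD p {E, E'} hp (le_sup_left.trans (le_sup_left.trans hI))
    (hI (Ideal.mem_sup_left (Ideal.mem_sup_right (Ideal.mem_span_singleton_self _)))) hf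
    (fun Z hZ => by
      rcases Finset.mem_insert.1 hZ with rfl | hZ
      · exact ⟨pd_mono hE le_sup_left, h1⟩
      · rw [Finset.mem_singleton.1 hZ]
        exact ⟨pd_mono hE' le_sup_left, h2⟩)
  haveI := P022D.As.base O (Sy (n + r) ⊕ Fin r)
  haveI := P022D.As.base O (V0 τ L n S.T r)
  letI : Algebra (S0 O τ L n S.T r) (S1 O τ L n S.T r) := (io O _ r).toAlgebra
  obtain ⟨u, a, D, d, M, Gm, _, _, _, _, W, hd, hA, hF⟩ := a5
  obtain ⟨Cc, _, _, hF⟩ := hF l hl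
  have H := hR O F ϖ S L X as β τ ι' K n _ hϖ hC hK hK' r s V Y a1 rfl a3
  obtain ⟨-, -, -, c1, c2, -⟩ := hV O F ϖ S L X as β τ ι' K n _ hϖ hC hK hK' r s V Y a1 rfl a3
  exact (lz a3.jr c1 c2).lower H W hF (fun h4 => ⟨hD.low,
      (hL O F ϖ S L X as β τ ι' K n _ hϖ hC hK hK' r s V Y a1 rfl a3).2 J l hl hJ h4⟩)
    (hA _) (hA _)
    (gp a3.jr hE.1 h1 (le_sup_left.trans hE.2.1) (hd _ (Finset.mem_insert_self _ _)))
    (gp a3.jr hE'.1 h2 (le_sup_left.trans hE'.2.1)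
      (hd _ (Finset.mem_insert_of_mem (Finset.mem_singleton_self _))))
    hE.2.2 (le_sup_right.trans hE.2.1) (le_sup_right.trans hE'.2.1) h3

end Vale.Agent.P022S.H62
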