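import Vale.Agent.P022S.Rows
import Vale.Agent.P022S.Av.Pc
import Vale.Agent.P022S.Tw.Crv
import Vale.Agent.P022S.Mod.Wd

/-!
# P022S, row PCEX: the data at a nice curve exist
-/

set_option linter.all false

noncomputable section

namespace Vale.Agent.P022S.H65

open NumberField IsLocalRing MvPowerSeries Filter
open Vale.Agent.P022 Vale.Agent.P022S.R Vale.Agent.P022S.Loc
open Vale.Agent.P027M.S (Inert mx)
open Vale.Agent.P022D.Sel (M2 Ginf)
open Vale.Agent.P022D.Core (PS io y1 Coef)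
open Vale.Agent.P022E.Loc (Pl)
open Vale.Agent.P022E.GW (Ov Gn)
open Vale.Agent.P022G (Hm)
open Vale.Agent.P022G.Word (wd)
open _root_.P022G.Sel (tI rd)

theorem wm_map {A B : Type} [CommRing A] [CommRing B] (u : A →+* B) {m : ℕ} (Z : Fin m → M2 A)
    (s : Finset (Fin m)) : (wm Z s).map u = wm (fun i => (Z i).map u) s := by
  have := map_list_prod (u.mapMatrix : M2 A →+* M2 B) ((s.sort (· ≤ ·)).map Z)
  rw [List.map_map] at this
  exact this

theorem wm_wd {A : Type} [CommRing A] (f : GQ →* M2 A) {m : ℕ} (γ : Fin m → GQ)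
    (s : Finset (Fin m)) : wm (fun i => f (γ i)) s = f (wd γ s) := by
  rw [wd, map_list_prod, List.map_map]
  rfl

theorem tr_map {A B : Type} [CommRing A] [CommRing B] (u : A →+* B) (M : M2 A) :
    u M.trace = (M.map u).trace := by
  simp [Matrix.trace_fin_two]

theorem det_map {A B : Type} [CommRing A] [CommRing B] (u : A →+* B) (M : M2 A) :
    u M.det = (M.map u).det := RingHom.map_det u M

theorem sv_res {O A B : Type} [CommRing O] [CommRing A] [CommRing B] {m : ℕ} (rc : Fin m → M2 O)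
    (j : O →+* A) (π : A →+* B) (Z : Fin m → M2 A)
    (h : ∀ i, (Z i).map π = (rc i).map (π.comp j)) (s : Sy m) : π (sv rc j Z s) = 0 := by
  rcases s with s | i
  · refine (map_sub π _ _).trans (sub_eq_zero.2 ?_)
    refine (tr_map π _).trans (Eq.trans ?_ (tr_map (π.comp j) _).symm)
    rw [wm_map, wm_map, funext h]
  · refine (map_sub π _ _).trans (sub_eq_zero.2 ?_)
    refine (det_map π _).trans (Eq.trans ?_ (det_map (π.comp j) _).symm)
    rw [h]

variable {O F : Type} [CommRing O] [IsDomain O] [IsDiscreteValuationRing O] [Coef O] [Field F]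
  {S : Dat O F} {L : Pl O} {β : Type} {τ ι' : β → Type} [Fintype β] [∀ b, Fintype (τ b)]
  [∀ b, Fintype (ι' b)] {K : Kx O β τ ι' L.C} {n : ℕ} (G : Gs S L K.g n)
  {V : Type} [CommRing V] [IsDomain V] [IsDiscreteValuationRing V] [CharP V 2]
  [IsAdicComplete (maximalIdeal V) V] [Finite (ResidueField V)] {t : V} {j : O →+* V}
  {ρ : GQ →* GL (Fin 2) V} {θ : PS O (Sy n) →+* V}

theorem rcr_eq (r : ℕ) : G.rcr r = fun i => L.r (Fin.append G.γ (fun _ : Fin r => 1) i) := by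
  funext i
  induction i using Fin.addCases with
  | left i => rw [Gs.rcr, Fin.append_left, Fin.append_left]; rfl
  | right i => rw [Gs.rcr, Fin.append_right, Fin.append_right, map_one]

theorem v0_mem {ϖ : O} (hL : OkG L S) (hW : L.W = ∅) (hK : K.Ok L S ϖ) (ht : Irreducible t)
    (hc : G.Crv t j ρ θ) (r : ℕ) (s : V0 τ L n S.T r) :
    v0 K G r j (fun g => (ρ g : M2 V)) (fun _ => 1) (fun _ => 1) (fun _ => 1) s ∈
      maximalIdeal V := by
  have e0 : ∀ g a b, (ρ g : M2 V) a b - j (L.r g a b) ∈ maximalIdeal V := fun g a b => by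
    rw [ht.maximalIdeal_eq, Ideal.mem_span_singleton]
    exact hc.res g a b
  rcases s with x | s | s | p
  · have hj : ∀ c, S.red c = 0 → j c = 0 := fun c h => P022G.Tw.j_zero j ((hL.ker c).1 h)
    obtain ⟨A, _, u, ι0, π, H⟩ := P022G.Tw.ex_sb t j 0 S.red hL.ker ht.not_isUnit
      (P022G.Tw.fin_tI ht _)
    obtain ⟨X, h1, h2, h3, h4, h5, h6⟩ := Tw.crv_obj hL hj
      (⟨hc.res, hc.lv, hc.det, fun l hl => absurd (hW ▸ hl) (Finset.notMem_empty l)⟩ :
        Tw.Cd S L t j ρ) H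
    have h7 := hK.loc.res A X h6.1 x
    obtain ⟨o, v, h8⟩ := H.ran (K.crd L S A X x)
    have h9 := H.res _ _ _ h8
    rw [← h2, h7] at h9
    rw [hj o h9.symm, zero_add (t * v), Kx.crd, Tw.val_map] at h8
    have e1 : u.comp X.ι = (Ideal.Quotient.mk (tI t (0 + 1))).comp j :=
      RingHom.ext fun o => by rw [h1]; exact H.cst o
    have e2 : ∀ l g, (lr X l g).map u =
        ((1 : M2 V) * (ρ g : M2 V) * 1).map (Ideal.Quotient.mk (tI t (0 + 1))) := fun l g => by
      rw [one_mul, mul_one, ← h5]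
      show (X.β l * X.ρ g * X.α l).map u = _
      rw [h3, h4, one_mul, mul_one]
    have h10 := Tw.val_map (Ideal.Quotient.mk (tI t (0 + 1))) K j
      (fun z => (1 : M2 V) * (ρ (K.g z) : M2 V) * 1) (fun γ => (1 : M2 V) * (ρ (L.φ γ) : M2 V) * 1)
      (fun γ => (1 : M2 V) * (ρ (L.τ γ) : M2 V) * 1) x
    simp only [e1, e2] at h8
    have h11 := (Ideal.Quotient.mk_eq_mk_iff_sub_mem _ _).1 (h10.trans h8)
    rw [tI, zero_add, pow_one] at h11
    rw [ht.maximalIdeal_eq]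
    have := Ideal.add_mem _ h11 (Ideal.mul_mem_right v _ (Ideal.mem_span_singleton_self t))
    rwa [sub_add_cancel] at this
  · refine (residue_eq_zero_iff _).1 (sv_res _ j (residue V) _ (fun i => ?_) s)
    rw [rcr_eq]
    ext a b
    exact sub_eq_zero.1 ((map_sub _ _ _).symm.trans ((residue_eq_zero_iff _).2 (e0 _ a b)))
  · have := e0 (Fin.append G.γ (fun _ : Fin r => 1) s.1) s.2.1 s.2.2
    rw [← congrFun (rcr_eq G r) s.1] at this
    exact this
  · show ((1 : M2 V) - 1) p.2.1 p.2.2 ∈ _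
    rw [sub_self]
    exact Ideal.zero_mem _

theorem ex_th {ϖ : O} (hL : OkG L S) (hW : L.W = ∅) (hK : K.Ok L S ϖ) (ht : Irreducible t)
    (hc : G.Crv t j ρ θ) (r : ℕ) : ∃ θ1 : S1 O τ L n S.T r →+* V,
      Cf K G r j ρ (θ1.comp (io O _ r)) ∧ ∀ i, θ1 (y1 O _ i) = 0 := by
  obtain ⟨φ, h1, h2⟩ := P022G.Conn.exists_ev (ι := V0 τ L n S.T r ⊕ Fin r) (maximalIdeal V) j
    (Sum.elim (v0 K G r j (fun g => (ρ g : M2 V)) (fun _ => 1) (fun _ => 1) fun _ => 1)
      fun _ => 0) (by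
      rintro (s | i)
      · exact v0_mem G hL hW hK ht hc r s
      · exact Ideal.zero_mem _)
  refine ⟨φ, ⟨fun o => ?_, fun s => ?_⟩, fun i => h2 _⟩
  · exact (congrArg φ (MvPowerSeries.rename_C _ o)).trans (h1 o)
  · exact (congrArg φ (MvPowerSeries.rename_X _ s)).trans (h2 _)

theorem wm_rcr (r : ℕ) (s : Finset (Fin (n + r))) :
    wm (G.rcr r) s = wm G.rc (Finset.univ.filter fun i => Fin.castAdd r i ∈ s) := by
  rw [rcr_eq, wm_wd, Mod.wd_append]
  exact (wm_wd L.r G.γ _).symm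

theorem ex_jr (r : ℕ) : ∃ jr : PP O n r →+* PS O (Sy n), Hm C (G.jv r) jr := by
  have := (P022D.As.base O (Sy n)).cpl
  have hX : ∀ (c : O) (s : Sy n), (C c + X s : PS O (Sy n)) - C c ∈
      maximalIdeal (PS O (Sy n)) := fun c s => by
    rw [add_sub_cancel_left, P022D.CA.Cpl.mem_max_iff, constantCoeff_X]
    exact Ideal.zero_mem _
  obtain ⟨φ, h1, h2⟩ := P022G.Conn.exists_ev (ι := Sy (n + r) ⊕ Fin r)
    (maximalIdeal (PS O (Sy n))) (C : O →+* PS O (Sy n)) (G.jv r) (by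
      rintro ((s | i) | i)
      · show tS G.rc id _ - C (wm (G.rcr r) s).trace ∈ _
        rw [wm_rcr]
        exact hX _ _
      · show Fin.append (dS G.rc id) (fun _ : Fin r => 1) i - C (G.rcr r i).det ∈ _
        induction i using Fin.addCases with
        | left i => rw [Gs.rcr, Fin.append_left, Fin.append_left]; exact hX _ _
        | right i =>
          rw [Gs.rcr, Fin.append_right, Fin.append_right, Matrix.det_one, map_one, sub_self]
          exact Ideal.zero_mem _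
      · exact Ideal.zero_mem _)
  exact ⟨φ, h1, h2⟩

theorem pcexS (hT : TANV) (hL : LAM) : PCEX := by
  intro O F _ _ _ _ _ _ _ ϖ S L X as β τ ι' _ _ _ K n G hϖ hC hK hE V _ _ _ _ _ _ t j ρ θ ht hc
    hN hI
  classical
  obtain ⟨T₁, c, r, sg, U, u0, u1, u2, u3, hb⟩ :=
    _root_.P022S.Sel.H89.sel2 ht (P022G.Tw.fin_tI ht 1) hN
  refine ⟨r, sg, U, T₁, u1, u2, u3, u0, fun q hq τq hτq => ?_⟩
  have hg : ∀ m i, ∃ g, q m i ∉ S.T ∧ ∃ P, Ov (q m i) P ∧ Gn (q m i) P g := fun m i => by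
    obtain ⟨P, hP, -⟩ := hτq m i
    obtain ⟨g, hg⟩ := P022E.GW.Tg.ex_gn' hP
    exact ⟨g, fun h => ((hq m).2 i).2.1 (u0 h), P, hP, hg⟩
  choose τ' hτ' using hg
  obtain ⟨θ1, hcf, hy⟩ := ex_th G hC.ok hC.W0 hK ht hc r
  obtain ⟨jr, hjr⟩ := ex_jr G r
  have hcard : 2 * r + 1 ≤ Fintype.card (Rs (n + r) S.T) := by
    have := Finset.card_pos.2 ⟨_, S.hl0⟩
    simp only [Fintype.card_sum, Fintype.card_prod, Fintype.card_fin, Fintype.card_coe]
    omega
  obtain ⟨s, hsc⟩ : ∃ s, s + (2 * r + 1) = Fintype.card (Rs (n + r) S.T) :=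
    ⟨_, Nat.sub_add_cancel hcard⟩
  let W : Ultrafilter ℕ := Ultrafilter.of atTop
  obtain ⟨kn, k, col, k1, k2, k3, k4⟩ := Av.limJ ht (θ1.comp (io O _ r))
    (fun m => Kn K G r (q m) (τ' m)) c (2 * r + 1) s hsc (fun m => by
      obtain ⟨h1, h2⟩ := hb (q m) (hq m).1 (hq m).2
      exact Av.cnt (hT O F ϖ S L X as β τ ι' K n G hϖ hC hK hE V t j ρ θ ht hc r (q m) (τ' m)
        (hτ' m) _ hcf c h1) h2) W
  choose tu du hu using fun m =>
    hL O F ϖ S L X as β τ ι' K n G hϖ hC hK hE r (q m) (τ' m) (hτ' m)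
  have b1 := P022D.As.base O (Sy (n + r))
  choose ta hta using fun i => P022D.PA.lim (PS O (Sy (n + r))) W fun m => tu m (τq m i)
  choose da hda using fun i => P022D.PA.lim (PS O (Sy (n + r))) W fun m => du m (τq m i)
  exact ⟨s, ⟨t, j, ρ, θ, θ1, jr, W, q, τ', τq, kn, k, col,
    fun m i => tu m (τq m i), fun m i => du m (τq m i), ta, da, G⟩,
    ⟨hc, hI, hcf, hy, hjr, Ultrafilter.of_le _, fun m => (hq m).1, hτ', hτq, k1, k2, k3, k4,
      hsc, fun m i B _ Z ψ h1 h2 => hu m B Z ψ h1 h2 _, hta, hda⟩, rfl, rfl, rfl, rfl, rfl⟩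

end Vale.Agent.P022S.H65
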