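import Vale.Agent.P022S.Rw.LvP
import Vale.Agent.P022S.Rw.LowerH72
import Vale.Agent.P022S.Rw.DenH99
import Vale.Agent.P022S.Rows2

/-! # P022S: rows PKG and FINAL2 -/

set_option linter.all false

open IsLocalRing NumberField MvPowerSeries

noncomputable section

namespace Vale.Agent.P022S.H99F

open Vale.Agent.P022 Vale.Agent.P022S.R Vale.Agent.P022S.Loc
open Vale.Agent.P022D.Core (PS io Coef)
open Vale.Agent.P022D.PA (Base Cv lim)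
open Vale.Agent.P022E.As (Tg mul2)
open Vale.Agent.P022E.Loc (Pl)
open Vale.Agent.P022G (subL resJ)
open Vale.Agent.P022G.Chain (Pd)
open Vale.Agent.P022S.Mod (gd_of)

theorem pkgC (hK : CPK) (hV : RCOV) (hG : RGAL) : PKG := by
  intro O F _ _ _ _ _ _ _ ϖ S L X as β τ ι' _ _ _ K n G hϖ hC k1 k2 Sf I Y0 W0 _ _ _ _ ses ig ib iJ
    e1 hD p σ hp a1 a2 a3 a4
  obtain ⟨r, s, V, _, _, _, _, _, _, Y, ht, rfl, hY, b4, b, c, φ, Yb, Wc, Pb, _, _, _, _, _, _,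
    w1, w2, w3, w4, tu, e, u1, u2⟩ := hK O F ϖ S L X as β τ ι' K n G hϖ hC k1 k2 True L Sf I Y0 W0
    ses ig ib iJ e1.le (hD.hdx True) p σ hp a1 a2 a3 a4
  refine ⟨r, s, V, inferInstance, inferInstance, inferInstance, inferInstance, inferInstance,
    inferInstance, Y, ht, rfl, hY, b4, ?_⟩
  intro _
  haveI := P022D.As.base O (Sy n)
  letI : Algebra (S0 O τ L n S.T r) (S1 O τ L n S.T r) := (io O _ r).toAlgebra
  obtain ⟨lam, A⟩ := (H3.pc_lv hϖ hC hY).ex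
  have R := H3.pc_rd hG hϖ hC k1 k2 ht hY
  obtain ⟨d, hd⟩ := lim (PP O n r) Y.U (P022G.Mod.DD lam Y.q φ c)
  obtain ⟨-, -, -, -, c2, -⟩ := hV O F ϖ S L X as β τ ι' K n _ hϖ hC k1 k2 r s V Y ht rfl hY
  obtain ⟨a, M, Gm, i1, i2, i3, i4, m1, m2, m3⟩ := H78.pkg A R e1 (hD.hdx True) w1 w2 hd
  refine ⟨_, a, _, d, M, Gm, i1, i2, i3, i4, m1, fun E hE => H99D.den Y.G' hϖ hC A c2
    (fun m i => H99D.odd_q hC (hY.gn m i)) u1 (a4 E hE).1 (fun m i => u2 m i E hE) hd,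
    fun i => (m2 i).trans ?_, fun l hl => ?_⟩
  · rw [H3.an_eq Y.G' hϖ hC (gd_of (e1 ▸ hD.gm0 i) (e1 ▸ hD.dm0 i))]
  · have u := (H3.ax hC l hl).2.2.2.2
    exact m3 l (fun m => Pb m l) u fun m => w4 trivial m l (by have := hC.one l hl; omega) u

section mul
variable {O : Type} [CommRing O] {L : Pl O} {β : Type} {τ ι' : β → Type}

def inc (L : Pl O) (X : Finset ℕ) (l : (subL L X).C) : L.C := ⟨l.1, (Finset.mem_sdiff.1 l.2).1⟩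

theorem mem_res {X : Finset ℕ} {J : Finset L.C} {l : (subL L X).C} :
    l ∈ resJ X J ↔ inc L X l ∈ J := by
  classical
  unfold resJ
  simp [inc]

theorem mX_eq (K : Kx O β τ ι' L.C) (X : Finset ℕ) (J : Finset L.C) :
    mX K X J = mul2 (fun l => K.a (inc L X l)) (fun l => K.a' (inc L X l)) (resJ X J) := by
  classical
  unfold mX mul2
  symm
  refine Finset.prod_bij (fun l _ => inc L X l) (fun l _ => ?_) (fun a _ b _ e => ?_)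
    (fun l hl => ?_) fun l _ => ?_
  · exact Finset.mem_filter.2 ⟨Finset.mem_univ _, (Finset.mem_sdiff.1 l.2).2⟩
  · exact Subtype.ext (congrArg (fun x : L.C => (x : ℕ)) e)
  · exact ⟨⟨l.1, Finset.mem_sdiff.2 ⟨l.2, (Finset.mem_filter.1 hl).2⟩⟩, Finset.mem_univ _, rfl⟩
  · by_cases c : l ∈ resJ X J
    · rw [if_pos c, if_pos (mem_res.1 c)]
    · rw [if_neg c, if_neg fun k => c (mem_res.2 k)]

end mul

theorem final2C (hK : CPK) (hV : RCOV) (hR : ROK) (h0 : RGAL0) (hF : RFIN) (hG : RGAL) :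
    FINAL2 := by
  intro O F _ _ _ _ _ _ _ ϖ S L X as β τ ι' _ _ _ K n G hϖ hC k1 k2 Sf I Y0 W0 _ _ _ _ ses ig ib iJ
    e1 hD Z C0 p z1 z2 z3 z4 z5 z6 z7 hp z8 hE
  have hT : Sf.T ⊆ S.T := e1 ▸ Finset.sdiff_subset
  have hI : G.aP ⊔ Ideal.span {C ϖ} ≤ p := z6.2.1.trans z7
  have hE' : ∀ J : Finset L.C, ∃ E, (Pd (G.aP ⊔ Ideal.span {C ϖ}) 2 E ∧ E ≤ p) ∧
      ((∀ a ∈ J, (a : ℕ) ∉ X) → G.IT ϖ J ≤ p →
        Pd (G.IT ϖ J) 2 E ∧ G.An (Y0 (iJ (resJ X J))) ≤ E) := fun J => by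
    by_cases c : (∀ a ∈ J, (a : ℕ) ∉ X) ∧ G.IT ϖ J ≤ p
    · obtain ⟨E, x1, x2, x3⟩ := hE J c.1 c.2
      exact ⟨E, ⟨⟨x1.1, le_sup_left.trans x1.2.1, x1.2.2⟩, x2⟩, fun _ _ => ⟨x1, x3⟩⟩
    · exact ⟨C0, ⟨z6, z7⟩, fun x y => absurd ⟨x, y⟩ c⟩
  choose Ef f1 f2 using hE'
  letI : DecidableEq (Ideal (PS O (Sy n))) := Classical.decEq _
  have a4 : ∀ E ∈ insert C0 (Finset.univ.image Ef), Pd (G.aP ⊔ Ideal.span {C ϖ}) 2 E ∧ E ≤ p := by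
    intro E h
    rcases Finset.mem_insert.1 h with rfl | h
    · exact ⟨z6, z7⟩
    · obtain ⟨J, -, rfl⟩ := Finset.mem_image.1 h
      exact f1 J
  obtain ⟨r, s, V, _, _, _, _, _, _, Y, ht, rfl, hY, rfl, b, c, φ, Yb, Wc, Pb, _, _, _, _, _, _,
    w1, w2, w3, -, tu, e, u1, u2⟩ := hK O F ϖ S L X as β τ ι' K n G hϖ hC k1 k2 False (subL L X) Sf
    I Y0 W0 ses ig ib iJ hT hD p _ hp (le_sup_left.trans hI)
    (hI (Ideal.mem_sup_right (Ideal.mem_span_singleton_self _))) z8 a4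
  haveI := P022D.As.base O (Sy n)
  haveI := P022D.As.base O (Sy (n + r) ⊕ Fin r)
  haveI := P022D.As.base O (V0 τ L n S.T r)
  haveI := P022D.As.base O (V0 τ L n S.T r ⊕ Fin r)
  letI : Algebra (S0 O τ L n S.T r) (S1 O τ L n S.T r) := (io O _ r).toAlgebra
  obtain ⟨lam, A⟩ := (H3.pc_lv hϖ hC hY).ex
  have R := H3.pc_rd hG hϖ hC k1 k2 ht hY
  obtain ⟨d, hd⟩ := lim (PP O n r) Y.U (P022G.Mod.DD lam Y.q φ c)
  obtain ⟨-, -, -, c1, c2, -⟩ := hV O F ϖ S L X as β τ ι' K n _ hϖ hC k1 k2 r s V Y ht rfl hY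
  have H := hR O F ϖ S L X as β τ ι' K n _ hϖ hC k1 k2 r s V Y ht rfl hY
  obtain ⟨l1, l2⟩ := hF O F ϖ S L X as β τ ι' K n _ hϖ hC k1 k2 r s V Y ht rfl hY
  have g0 := (h0 O F ϖ S L X as β τ ι' K n _ hϖ hC k1 k2 r s V Y ht rfl hY).2 (Z.comap Y.jr)
    (Ideal.comap_mono z2) fun l hl => H72.tau_le hY.jr _ (z3 l hl)
  have dn : ∀ E ∈ insert C0 (Finset.univ.image Ef), Y.jr d ∉ E := fun E hE =>
    H99D.den Y.G' hϖ hC A c2 (fun m i => H99D.odd_q hC (hY.gn m i)) u1 (a4 E hE).1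
      (fun m i => u2 m i E hE) hd
  rw [← H3.an_eq Y.G' hϖ hC (H94.gd_sub hC (e1 ▸ hD.gmW) (e1 ▸ hD.dmW))]
  refine H78.final A R (H3.ax hC) (H3.xT hC) e1 hD w1 w2 w3 hd (H72.lz hY.jr c1 c2) H
    (fun l => (k1.ok Empty).odd (inc L X l)) (fun l => (k1.ok Empty).odd' (inc L X l))
    (mX_eq K X) l1 l2 z1 (z5.trans z7) z2 ?_ (fun k => dn C0 (Finset.mem_insert_self _ _) (z5 k)) g0
    fun J hJ k => ?_
  · change Y.jr (C ϖ) ∉ Z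
    rwa [hY.jr.c]
  · obtain ⟨x1, x2⟩ := f2 J hJ (sup_le hI k)
    refine ⟨Ef J, H72.gp hY.jr x1 (f1 J).2 (dn _ (Finset.mem_insert_of_mem
      (Finset.mem_image_of_mem _ (Finset.mem_univ J)))), x1.2.2, le_sup_right.trans x1.2.1, ?_⟩
    rwa [H3.an_eq Y.G' hϖ hC (H94.gd_sub hC (e1 ▸ hD.gm0 _) (e1 ▸ hD.dm0 _))]

end Vale.Agent.P022S.H99F
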