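import Vale.Agent.P022G.Rw.Rcov
import Vale.Agent.P022S.Mod.Gw
import Vale.Agent.P022S.Mod.Wd

/-!
# P022S: tools for the cover and the ring of level zero
-/

set_option linter.all false

noncomputable section

namespace Vale.Agent.P022S.Rcov

open NumberField IsLocalRing MvPowerSeries Filter
open Vale.Agent.P022 Vale.Agent.P022G.Mod
open Vale.Agent.P022G (Hm)
open Vale.Agent.P022G.Word (wd)
open Vale.Agent.P022G.Rcov (hm_ext)
open Vale.Agent.P022D.Sel (M2)
open Vale.Agent.P022D.Core (PS Coef)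
open Vale.Agent.P022E.As (Tg cc tt dd yy mT ev0)
open Vale.Agent.P022F.End0 (evc evt evd evy)

variable {O : Type} [CommRing O]

theorem surj_of [IsLocalRing O] [IsNoetherianRing O] {σ σ₀ : Type} [Fintype σ₀] (em : σ₀ ↪ σ)
    {jv : σ → PS O σ₀} {jr : PS O σ →+* PS O σ₀} (h : Hm C jv jr) (he : ∀ s, jv (em s) = X s) :
    Function.Surjective jr := by
  let e : PS O σ₀ →+* PS O σ := (MvPowerSeries.rename (R := O) em : _ →ₐ[O] _)
  have k : jr.comp e = RingHom.id _ :=
    hm_ext (j := C) (v := fun s => X s)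
      ⟨fun o => by rw [RingHom.comp_apply, show e (C o) = C o from rename_C _ o, h.c],
        fun s => by
          rw [RingHom.comp_apply, show e (X s) = X (em s) from rename_X _ s, h.x, he]⟩
      ⟨fun _ => rfl, fun _ => rfl⟩
      (fun c hc => (P022D.CA.Cpl.mem_max_iff _).2 (by rwa [constantCoeff_C]))
      fun s => (P022D.CA.Cpl.mem_max_iff _).2 (by simp)
  exact fun f => ⟨e f, congrArg (fun φ : PS O σ₀ →+* PS O σ₀ => φ f) k⟩

theorem fil_map {n : ℕ} (m : ℕ) (s : Finset (Fin n)) :
    (Finset.univ.filter fun i => Fin.castAdd m i ∈ s.map (Fin.castAddEmb m)) = s := by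
  ext i
  simp only [Finset.mem_filter, Finset.mem_univ, true_and]
  exact Finset.mem_map' (Fin.castAddEmb m)

/-- the value modulo the maximal ideal is the constant coefficient -/
theorem res_mT [IsLocalRing O] {σ : Type} [Finite σ] {r : GQ →* M2 O} {v : σ → Tg O}
    (hv : ∀ s, v s ∈ mT r) {Ψ : PS O σ →+* Tg O ⧸ mT r} (h : Hq v (mT r) Ψ) {f : PS O σ} {t : Tg O}
    (k : Ψ f = Ideal.Quotient.mk _ t) : constantCoeff f - ev0 r t ∈ maximalIdeal O := by
  have e : mT r ^ 1 ≤ mT r := (pow_one _).le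
  have := ph_res e hv ((ph_eq e hv h) ▸ k)
  rw [sup_idem] at this
  have h2 : ev0 r (t - cc (constantCoeff f)) ∈ maximalIdeal O := this
  rw [map_sub, evc] at h2
  simpa using neg_mem h2

theorem lim_res [IsLocalRing O] {σ : Type} {U : Filter ℕ} [U.NeBot] {z : ℕ → PS O σ} {a : PS O σ}
    {c : O} (hz : P022D.PA.Cv U z a) (hc : ∀ n, constantCoeff (z n) - c ∈ maximalIdeal O) :
    constantCoeff a - c ∈ maximalIdeal O := by
  obtain ⟨n, hn⟩ := (hz 1).exists
  rw [pow_one, P022D.CA.Cpl.mem_max_iff, map_sub] at hn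
  simpa using sub_mem (hc n) hn

theorem prod_map {B B' : Type} [CommRing B] [CommRing B'] (u : B →+* B') {ι : Type} (Z : ι → M2 B)
    (l : List ι) : ((l.map Z).prod).map u = (l.map fun i => (Z i).map u).prod := by
  have := map_list_prod u.mapMatrix (l.map Z)
  rw [List.map_map] at this
  exact this

theorem prod_wd {G M : Type} [Group G] [Monoid M] (ρ : G →* M) {n : ℕ} (γ : Fin n → G)
    (s : Finset (Fin n)) : ((s.sort (· ≤ ·)).map fun i => ρ (γ i)).prod = ρ (wd γ s) := by
  rw [wd, map_list_prod, List.map_map]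
  rfl

end Vale.Agent.P022S.Rcov
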