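import Vale.Agent.P022S.Rows
import Vale.Agent.P022S.Rw.Rcov0
import Vale.Agent.P022S.Tw.Crv

/-!
# P022S, row RCOV: the cover, the curve and the ring of level zero
-/

set_option linter.all false

noncomputable section

namespace Vale.Agent.P022S

open NumberField IsLocalRing MvPowerSeries Filter
open Vale.Agent.P022 Vale.Agent.P022S.R Vale.Agent.P022S.Loc
open Vale.Agent.P027M.S (Inert mx)
open Vale.Agent.P022D.Sel (M2)
open Vale.Agent.P022D.Core (PS io y1 Coef)
open Vale.Agent.P022E.Loc (Pl)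
open Vale.Agent.P022E.GW (Ov Gn)
open Vale.Agent.P022G (Hm)
open Vale.Agent.P022G.Word (wd)
open Vale.Agent.P022G.Rcov (hm_ext j_pi j_max)

namespace Rcov

section alg
variable {O B B' : Type} [CommRing O] [CommRing B] [CommRing B'] {m : ℕ}

theorem wm_map (u : B →+* B') (Z : Fin m → M2 B) (s : Finset (Fin m)) :
    (wm Z s).map u = wm (fun i => (Z i).map u) s := prod_map u Z _

theorem tr_map (u : B →+* B') (W : M2 B) : u W.trace = (W.map u).trace := by
  simp [Matrix.trace_fin_two]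

theorem det_map (u : B →+* B') (W : M2 B) : u W.det = (W.map u).det := RingHom.map_det u W

theorem sv_map (u : B →+* B') (rc : Fin m → M2 O) (j : O →+* B) (Z : Fin m → M2 B) (z : Sy m) :
    u (sv rc j Z z) = sv rc (u.comp j) (fun i => (Z i).map u) z := by
  rcases z with s | i
  · show u (_ - _) = _ - _
    rw [map_sub, tr_map, wm_map]
    rfl
  · show u (_ - _) = _ - _
    rw [map_sub, det_map]
    rfl

theorem sv_zero (rc : Fin m → M2 O) (j : O →+* B) (z : Sy m) :
    sv rc j (fun i => (rc i).map j) z = 0 := by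
  rcases z with s | i
  · show _ - _ = 0
    rw [tr_map, wm_map, sub_self]
  · show _ - _ = 0
    rw [det_map, sub_self]

theorem sv_mem (rc : Fin m → M2 O) (j : O →+* B) (Z : Fin m → M2 B) (I : Ideal B)
    (h : ∀ i a b, Z i a b - j (rc i a b) ∈ I) (z : Sy m) : sv rc j Z z ∈ I := by
  rw [← Ideal.Quotient.eq_zero_iff_mem, sv_map, ← sv_zero rc ((Ideal.Quotient.mk I).comp j) z]
  exact congrArg (fun W => sv rc _ W z)
    (funext fun i => Matrix.ext fun a b => Ideal.Quotient.eq.2 (h i a b))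

theorem wm_left {n : ℕ} (Z : Fin n → M2 B) (Z' : Fin m → M2 B) (s : Finset (Fin n)) :
    wm (Fin.append Z Z') (s.map (Fin.castAddEmb m)) = wm Z s := by
  have e := Finset.map_sort (Fin.castAddEmb m) s (· ≤ ·) (· ≤ ·)
    fun a _ b _ => (Fin.castAddOrderEmb m).le_iff_le.symm
  rw [wm, wm, ← e, List.map_map]
  exact congrArg (fun f => ((s.sort (· ≤ ·)).map f).prod)
    (funext fun i => Fin.append_left _ _ i)

theorem wm_rho (ρ : GQ →* GL (Fin 2) B) (γ : Fin m → GQ) (s : Finset (Fin m)) :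
    wm (fun i => (ρ (γ i) : M2 B)) s = (ρ (wd γ s) : M2 B) :=
  prod_wd ((Units.coeHom _).comp ρ) γ s

theorem map_tS {σ : Type} {rc : Fin m → M2 O} {e : Sy m → σ} {j : O →+* B} {v : σ → B}
    {θ : PS O σ →+* B} (h : Hm j v θ) {t : Finset (Fin m) → B} {d : Fin m → B}
    (k : ∀ z, v (e z) = gv rc j t d z) (s : Finset (Fin m)) : θ (tS rc e s) = t s := by
  rw [tS, map_add, h.c, h.x, k]
  exact add_sub_cancel _ _

theorem map_dS {σ : Type} {rc : Fin m → M2 O} {e : Sy m → σ} {j : O →+* B} {v : σ → B}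
    {θ : PS O σ →+* B} (h : Hm j v θ) {t : Finset (Fin m) → B} {d : Fin m → B}
    (k : ∀ z, v (e z) = gv rc j t d z) (i : Fin m) : θ (dS rc e i) = d i := by
  rw [dS, map_add, h.c, h.x, k]
  exact add_sub_cancel _ _

end alg

variable {O F : Type} [CommRing O] [Field F] {S : Dat O F} {L : Pl O}

/-- the residual pseudo object -/
def Z0 (S : Dat O F) [Finite F] [CharP F 2] : PO S F where
  ι := S.red
  π := RingHom.id F
  t _ := 0
  d := 1
  fin := inferInstance
  loc u hu := isUnit_iff_ne_zero.2 hu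
  alg _ := rfl
  tf := ⟨CharTwo.two_eq_zero.symm, fun _ _ => rfl, fun _ _ => by simp⟩
  rt _ := rfl
  rd _ := rfl
  opn := ⟨⊤, isOpen_univ, fun _ _ => ⟨fun _ => rfl, rfl⟩⟩

theorem r_red [IsLocalRing O] {X : Finset ℕ} {as : ℕ} (h : Cx S L X as) (g : GQ) :
    (L.r g).map S.red = 1 := by
  rw [h.ok.lift, mx, h.rb1, Units.val_one]

theorem Z0_cl [Finite F] [CharP F 2] [IsLocalRing O] {X : Finset ℕ} {as : ℕ} (h : Cx S L X as)
    (Q : Finset ℕ) : (Z0 S).Cl L Q :=
  have e : ∀ g, (1 : F) = S.red (L.r g).det := fun g => by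
    rw [det_map, r_red h, Matrix.det_one]
  ⟨fun g _ => e g, (CharTwo.neg_eq 1).symm, fun l _ => e _,
    fun _ _ _ _ _ _ _ _ _ => ⟨fun _ => rfl, rfl⟩⟩

theorem Z0_val [Finite F] [CharP F 2] {m : ℕ} {rc : Fin m → M2 O} (e : ∀ i, (rc i).map S.red = 1)
    (γ : Fin m → GQ) (z : Sy m) : (Z0 S).val rc γ z = 0 := by
  rcases z with s | i
  · show 0 - S.red (wm rc s).trace = 0
    rw [tr_map, wm_map, funext e, wm, List.map_const', List.prod_replicate, one_pow,
      Matrix.trace_one, Fintype.card_fin, CharP.cast_eq_zero, sub_self]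
  · show 1 - S.red (rc i).det = 0
    rw [det_map, e, Matrix.det_one, sub_self]

variable {β : Type} {τ ι' : β → Type} {K : Kx O β τ ι' L.C} {n : ℕ} {G : Gs S L K.g n} {r : ℕ}

section ev
variable {B : Type} [CommRing B] {j : O →+* B} {ρ : GQ → M2 B} {α α' : ℕ → M2 B}
  {τ' : Fin r → GQ} {θ : PS O (V0 τ L n S.T r) →+* B}

theorem map_Z (h : Hm j (v0 K G r j ρ α α' τ') θ) (i : Fin (n + r)) :
    (ZS K G r i).map θ = ρ (Fin.append G.γ τ' i) := by
  ext a b
  show θ (C _ + X _) = _
  rw [map_add, h.c, h.x]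
  exact add_sub_cancel _ _

theorem map_α (h : Hm j (v0 K G r j ρ α α' τ') θ) (h1 : ∀ l ∉ S.T, α l = 1) (l : ℕ) :
    (αS τ L n S.T r l).map θ = α l := by
  unfold αS
  split_ifs with hl
  · ext a b
    rw [Matrix.map_apply, Matrix.add_apply, map_add, Matrix.of_apply, h.x]
    show θ _ + (α l - 1) a b = _
    rw [Matrix.sub_apply, Matrix.one_apply, Matrix.one_apply]
    split_ifs <;> simp
  · rw [h1 l hl, Matrix.map_one _ (map_zero θ) (map_one θ)]

theorem α_unit (l : ℕ) : IsUnit (αS (O := O) τ L n S.T r l).det := by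
  unfold αS
  split_ifs with hl
  · rw [MvPowerSeries.isUnit_iff_constantCoeff, Matrix.det_fin_two]
    simp
  · simp

theorem map_l (h : Hm j (v0 K G r j ρ α α' τ') θ) (h1 : ∀ l ∉ S.T, α l = 1)
    (h2 : ∀ l, α l * α' l = 1) (l : ℕ) (i : Fin n) :
    (lS K G r l i).map θ = α' l * ρ (G.γ i) * α l := by
  have e : ((αS τ L n S.T r l)⁻¹).map θ = α' l := by
    have := congrArg (fun m => m.map θ) (Matrix.nonsing_inv_mul _ (α_unit (O := O) (S := S)
      (L := L) (τ := τ) (n := n) (r := r) l))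
    simp only [Matrix.map_mul] at this
    rw [map_α h h1, Matrix.map_one _ (map_zero θ) (map_one θ)] at this
    rw [← mul_one (Matrix.map _ θ), ← h2 l, ← mul_assoc, this, one_mul]
  rw [lS, Matrix.map_mul, Matrix.map_mul, e, map_Z h, map_α h h1, Fin.append_left]

/-- the tautological relations hold at every framed point -/
theorem t0_le (h : Hm j (v0 K G r j ρ α α' τ') θ) (h1 : ∀ l ∉ S.T, α l = 1)
    (h2 : ∀ l, α l * α' l = 1) (h4 : α S.l0 = 1) : t0 K G r ≤ RingHom.ker θ := by
  refine Ideal.span_le.2 ?_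
  rintro _ (((⟨s, rfl⟩ | ⟨i, rfl⟩) | ⟨i, rfl⟩) | ⟨p, rfl⟩) <;> refine RingHom.mem_ker.2 ?_
  · rw [map_sub, map_tS h fun _ => rfl, tr_map, wm_map, funext (map_Z h), sub_self]
  · rw [map_sub, map_dS h fun _ => rfl, det_map, map_Z h, sub_self]
  · have e : θ.comp C = j := RingHom.ext h.c
    rw [map_sub, h.x, κS, Tw.val_map θ, e]
    simp only [map_l h h1 h2, G.hK, G.hφ, G.hτ]
    exact sub_self _
  · have w := congrFun (congrFun (map_α h h1 S.l0) p.1) p.2
    rw [Matrix.map_apply, h4] at w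
    show θ (_ - _) = 0
    rw [map_sub, w, Matrix.one_apply, Matrix.one_apply]
    split_ifs <;> simp

end ev

/-- the symbols of level zero inside all symbols -/
def em (n r : ℕ) : Sy n ↪ Sy (n + r) ⊕ Fin r :=
  ((⟨Finset.map (Fin.castAddEmb r), Finset.map_injective _⟩ : Finset (Fin n) ↪ _).sumMap
    (Fin.castAddEmb r)).trans Function.Embedding.inl

theorem jv_em (z : Sy n) : G.jv r (em n r z) = X z := by
  rcases z with s | i
  · show tS G.rc id (Finset.univ.filter fun i => Fin.castAdd r i ∈ s.map (Fin.castAddEmb r)) -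
      C (wm (Fin.append G.rc fun _ => 1) (s.map (Fin.castAddEmb r))).trace = _
    rw [fil_map, wm_left]
    exact add_sub_cancel_left _ _
  · show Fin.append (dS G.rc id) (fun _ => 1) (Fin.castAdd r i) -
      C (Fin.append G.rc (fun _ => 1) (Fin.castAdd r i)).det = _
    rw [Fin.append_left, Fin.append_left]
    exact add_sub_cancel_left _ _

theorem jr_surj [IsLocalRing O] [IsNoetherianRing O] {jr : PP O n r →+* PS O (Sy n)}
    (h : Hm C (G.jv r) jr) : Function.Surjective jr := surj_of (em n r) h jv_em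

/-- the two descriptions of the curve in the ring of symbols -/
theorem comp_eq [IsDomain O] [IsDiscreteValuationRing O] [Coef O] {ϖ : O} (hϖ : Irreducible ϖ)
    [Fintype β] [∀ b, Fintype (τ b)] {s : ℕ} {V : Type} [CommRing V] [IsDomain V]
    [IsDiscreteValuationRing V] [CharP V 2] {Y : Pc (S := S) (n := n) K r s V}
    (ht : Irreducible Y.t) (h : Y.Ok) : Y.θ.comp (ψ1 S L τ n r) = Y.θA.comp Y.jr := by
  have rs : ∀ (i : Fin (n + r)) a b, (Y.ρ (Fin.append Y.G'.γ (fun _ => 1) i) : M2 V) a b -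
      Y.j (Y.G'.rcr r i a b) ∈ maximalIdeal V := fun i a b => by
    rw [ht.maximalIdeal_eq, Ideal.mem_span_singleton, Gs.rcr]
    induction i using Fin.addCases with
    | left i =>
      rw [Fin.append_left, Fin.append_left]
      exact h.crv.res _ a b
    | right i =>
      have := h.crv.res 1 a b
      rwa [Fin.append_right, Fin.append_right, ← map_one L.r]
  refine hm_ext (j := Y.j) (v := Sum.elim (sv (Y.G'.rcr r) Y.j
    fun i => (Y.ρ (Fin.append Y.G'.γ (fun _ => 1) i) : M2 V)) fun _ => 0) ⟨fun o => ?_, fun z => ?_⟩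
    ⟨fun o => by rw [RingHom.comp_apply, h.jr.c, h.crv.hm.c], fun z => ?_⟩
    (fun c hc => by rw [j_max hϖ _ hc]; exact zero_mem _) fun z => ?_
  · rw [← h.cf.c o, RingHom.comp_apply, RingHom.comp_apply,
      show ψ1 S L τ n r (C o) = C o from rename_C _ o, show io O _ r (C o) = C o from rename_C _ o]
  · rcases z with z | i
    · have := h.cf.x (e0 r z)
      rw [RingHom.comp_apply, show io O _ r (X (e0 r z)) = X (Sum.inl (e0 r z)) from
        rename_X _ _] at this
      rw [RingHom.comp_apply, show ψ1 S L τ n r (X (Sum.inl z)) = X (Sum.inl (e0 r z)) from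
        rename_X _ _, this]
      rfl
    · rw [RingHom.comp_apply, show ψ1 S L τ n r (X (Sum.inr i)) = X (Sum.inr i) from
        rename_X _ _]
      exact h.y0 i
  · rw [RingHom.comp_apply, h.jr.x]
    rcases z with (w | i) | i
    · show Y.θA (tS _ _ _ - C _) = (wm _ w).trace - _
      rw [map_sub, map_tS (e := id) h.crv.hm fun _ => rfl, h.crv.hm.c, wm_rho, wm_rho, Mod.wd_append]
    · show Y.θA (Fin.append _ _ i - C _) = (Y.ρ (Fin.append _ _ i) : M2 V).det - _
      rw [map_sub, h.crv.hm.c]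
      congr 1
      induction i using Fin.addCases with
      | left i => rw [Fin.append_left, Fin.append_left, map_dS (e := id) h.crv.hm fun _ => rfl]
      | right i => rw [Fin.append_right, Fin.append_right, map_one, h.crv.det]
    · exact map_zero _
  · rcases z with z | i
    · exact sv_mem _ _ _ _ rs z
    · exact zero_mem _

/-- the traces and determinants of the inertia elements are residually trivial -/
theorem ta_res [IsLocalRing O] [Finite F] [CharP F 2] {X : Finset ℕ} {as : ℕ} (hC : Cx S L X as)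
    [Fintype β] [∀ b, Fintype (τ b)] {s : ℕ} {V : Type} [CommRing V]
    {Y : Pc (S := S) (n := n) K r s V} (h : Y.Ok) (i : Fin r) :
    S.red (constantCoeff (Y.ta i)) = 0 ∧ S.red (constantCoeff (Y.da i)) = 1 := by
  have key : ∀ m, S.red (constantCoeff (Y.tn m i)) = 0 ∧ S.red (constantCoeff (Y.dn m i)) = 1 :=
    fun m => h.tn m i F (Z0 S) (S.red.comp constantCoeff) (Z0_cl hC _)
      ⟨fun o => by rw [RingHom.comp_apply, constantCoeff_C]; rfl, fun z => by
        rw [RingHom.comp_apply, constantCoeff_X, map_zero, Z0_val fun a => ?_]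
        rw [Gs.rcr]
        induction a using Fin.addCases with
        | left a => rw [Fin.append_left]; exact r_red hC _
        | right a => rw [Fin.append_right, Matrix.map_one _ (map_zero _) (map_one _)]⟩
  have lim : ∀ (z : ℕ → PS O (Sy (n + r))) (a : PS O (Sy (n + r))) (c : F),
      P022D.PA.Cv (Y.U : Filter ℕ) z a → (∀ m, S.red (constantCoeff (z m)) = c) →
      S.red (constantCoeff a) = c := fun z a c hz hc => by
    obtain ⟨m, hm⟩ := (hz 1).exists
    rw [pow_one, P022D.CA.Cpl.mem_max_iff, ← hC.ok.ker, map_sub, map_sub, hc, sub_eq_zero] at hm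
    exact hm.symm
  exact ⟨lim _ _ _ (h.cvt i) fun m => (key m).1, lim _ _ _ (h.cvd i) fun m => (key m).2⟩

end Rcov

open Rcov in
/-- **row RCOV** -/
theorem rcovC (hO : COBJ) : RCOV := by
  intro O F _ _ _ _ _ _ _ ϖ S L X as β τ ι' _ _ _ K n G hϖ hC hK hD r s V _ _ _ _ _ _ Y ht hG h
  subst hG
  have e := comp_eq hϖ ht h
  have p0 : (Y.rd ϖ).p0 = (RingHom.ker Y.θA).comap Y.jr := by
    show (RingHom.ker Y.θ).comap (ψ1 S L τ n r) = _
    rw [RingHom.comap_ker, RingHom.comap_ker, e]
  have cc : ∀ f, constantCoeff (ψ0 S L τ n r f) = constantCoeff f := fun f =>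
    constantCoeff_rename _ f
  have nu : ∀ f : S0 O τ L n S.T r, S.red (constantCoeff f) = 0 → ¬ IsUnit f := fun f hf hu =>
    ((hu.map constantCoeff).map S.red).ne_zero hf
  refine ⟨P022D.As.cov O _ r _ _ fun i => ⟨nu _ ?_, nu _ ?_⟩, ?_, ?_, p0, jr_surj h.jr, ?_⟩
  · show S.red (constantCoeff (ψ0 S L τ n r (Y.ta i) - 2)) = 0
    rw [map_sub, map_sub, cc, (ta_res hC h i).1, map_ofNat, map_ofNat, CharTwo.two_eq_zero,
      sub_zero]
  · show S.red (constantCoeff (1 - ψ0 S L τ n r (Y.ta i) + ψ0 S L τ n r (Y.da i))) = 0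
    rw [map_add, map_add, map_sub, map_sub, cc, cc, (ta_res hC h i).1, (ta_res hC h i).2,
      map_one, map_one, sub_zero, CharTwo.add_self_eq_zero]
  · refine Ideal.map_le_iff_le_comap.2 ?_
    show _ ≤ (RingHom.ker Y.θ).comap (io O _ r)
    rw [RingHom.comap_ker]
    exact t0_le h.cf (fun _ _ => rfl) (fun _ => mul_one _) rfl
  · rw [p0]
    exact Ideal.comap_mono
      (hO O F ϖ S L X as β τ ι' K n Y.G' hϖ hC hK hD V Y.t Y.j Y.ρ Y.θA ht h.crv).1
  · rw [← j_pi hϖ Y.j, ← h.cf.c, RingHom.comp_apply,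
      show io O _ r (C ϖ) = C ϖ from rename_C _ ϖ]

end Vale.Agent.P022S
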