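import Vale.Agent.P022S.Rows
import Vale.Agent.P022S.Utr
import Vale.Agent.P022S.Uni
import Vale.Agent.P022S.Mod.Wd
import Vale.Agent.P022S.Rw.Rgal0A
import Vale.Agent.P022G.Crv.Uni

/-!
# P022S: fibre products of pseudo objects, points of level zero
-/

set_option linter.all false

noncomputable section

namespace Vale.Agent.P022S.G0

open NumberField IsLocalRing MvPowerSeries
open Vale.Agent.P022 Vale.Agent.P022.H346 Vale.Agent.P022S.R Vale.Agent.P022S.Loc
open Vale.Agent.P027M.S (Inert mx)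
open Vale.Agent.P022D.Sel (M2)
open Vale.Agent.P022D.Core (PS)
open Vale.Agent.P022E.Loc (Pl)
open Vale.Agent.P022G (Hm KI)
open Vale.Agent.P022G.Word (wd)

theorem wd_upd {G : Type} [Group G] {m : ℕ} (γ : Fin m → G) (i : Fin m) (s : Finset (Fin m)) :
    wd (Function.update γ i 1) s = wd γ (s.erase i) := by
  rw [wd, wd, Mod.prod_filter (· ≠ i) _ (fun a ha => by
    rw [not_not.1 ha, Function.update_self])]
  have e : ((s.sort (· ≤ ·)).filter fun a => a ≠ i) = (s.erase i).sort (· ≤ ·) := by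
    refine ((List.toFinset_sort (· ≤ ·) ((Finset.sort_nodup _ _).filter _)).2
      ((Finset.pairwise_sort _ _).filter _)).symm.trans (congrArg (Finset.sort · (· ≤ ·)) ?_)
    ext j
    simp only [List.mem_toFinset, List.mem_filter, Finset.mem_sort, Finset.mem_erase,
      decide_eq_true_eq, and_comm]
  rw [e]
  exact congrArg List.prod (List.map_congr_left fun a ha => Function.update_of_ne
    (Finset.mem_erase.1 ((Finset.mem_sort _).1 ha)).1 _ _)

/-- the equations `tauP` for matrices -/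
theorem tau_tr {B : Type} [CommRing B] {m : ℕ} (Z : Fin m → M2 B) (hu : ∀ i, IsUnit (Z i))
    (i : Fin m) (hd : (Z i).det = 1)
    (ht : ∀ s, (wm Z (insert i s)).trace = (wm Z (s.erase i)).trace) (w : FreeGroup (Fin m)) :
    (Kd.fr Z hu (w * FreeGroup.of i)).trace = (Kd.fr Z hu w).trace := by
  have h := _root_.P022G.Kd.tr_eq FreeGroup.of (FreeGroup.closure_range_of _)
    (FreeGroup.lift (Function.update FreeGroup.of i 1)) (_root_.P022G.Kd.tf_rep (Kd.fr Z hu))
    (RingHom.id B) (Kd.fr Z hu) (fun s => by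
      rw [RingHom.id_apply, Ut.lift_wd, wd_upd, Kd.fr_wd, Kd.fr_wd]
      by_cases c : i ∈ s
      · have := ht s
        rwa [Finset.insert_eq_of_mem c] at this
      · rw [Finset.erase_eq_of_notMem c]) fun k => by
      change _ = (Kd.fr Z hu _).det
      rw [FreeGroup.lift_apply_of]
      by_cases c : k = i
      · rw [c, Function.update_self, map_one, Matrix.det_one, Kd.fr_of, hd]
      · rw [Function.update_of_ne c]
  rw [h, h w, map_mul, FreeGroup.lift_apply_of, Function.update_self, mul_one]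

theorem wm_one {B : Type} [CommRing B] {m : ℕ} (Z : Fin m → M2 B) (i : Fin m) :
    wm Z {i} = Z i := by simp [wm]

theorem wm_two {B : Type} [CommRing B] {m : ℕ} (Z : Fin m → M2 B) {i k : Fin m} (h : i ≠ k) :
    (wm Z {i, k}).trace = (Z i * Z k).trace := by
  rcases lt_or_gt_of_ne h with c | c
  · rw [wm, Finset.sort_insert _ (by simpa using c.le) (by simpa using h)]
    simp
  · rw [Finset.pair_comm, wm, Finset.sort_insert _ (by simpa using c.le) (by simpa using h.symm),
      Matrix.trace_mul_comm]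
    simp

theorem wm_map {A B : Type} [CommRing A] [CommRing B] (μ : A →+* B) {m : ℕ} (Z : Fin m → M2 A)
    (s : Finset (Fin m)) : (wm Z s).map μ = wm (fun i => (Z i).map μ) s := by
  change μ.mapMatrix _ = _
  rw [wm, wm, map_list_prod, List.map_map]
  rfl

variable {O F : Type} [CommRing O] [Field F] {S : Dat O F}

section pt
variable {B σ : Type} [CommRing B] (Z : PO S B) {v : σ → B} {ψ : PS O σ →+* B}

theorem hm_max [IsLocalRing O] (h : Hm Z.ι v ψ) :
    RingHom.ker (Z.π.comp ψ) = maximalIdeal (PS O σ) :=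
  ker_eq_maximalIdeal _ fun y => by
    obtain ⟨c, rfl⟩ := S.surj y
    exact ⟨C c, by rw [RingHom.comp_apply, h.c, Z.alg]⟩

theorem hm_res [IsLocalRing O] [Fintype σ] (h : Hm Z.ι v ψ) (f : PS O σ) :
    Z.π (ψ f) = S.red (constantCoeff f) := by
  have := P022D.CA.Cpl.residue_surj f
  rw [← hm_max Z h, RingHom.mem_ker, RingHom.comp_apply, map_sub, map_sub, h.c, Z.alg,
    sub_eq_zero] at this
  exact this

theorem hm_nil [IsLocalRing O] (h : Hm Z.ι v ψ) :
    ∃ k : ℕ, ∀ f ∈ maximalIdeal (PS O σ) ^ k, ψ f = 0 := by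
  have := Z.fin
  obtain ⟨k, hk⟩ := P022D.R.ker_nil Z.π Z.loc
  refine ⟨k, fun f hf => ?_⟩
  rw [← hm_max Z h, ← RingHom.comap_ker] at hf
  have := Ideal.le_comap_pow ψ k hf
  rwa [hk, Ideal.mem_comap, Ideal.mem_bot] at this

end pt

section fib
variable {σ : Type} [Finite σ] {B : σ → Type} [∀ e, CommRing (B e)] (Z : ∀ e, PO S (B e))

/-- the fibre product of the rings -/
def FR : Subring (∀ e, B e) where
  carrier := {b | ∀ e e', (Z e).π (b e) = (Z e').π (b e')}
  mul_mem' := fun {a b} ha hb e e' => by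
    simp only [Pi.mul_apply, map_mul, ha e e', hb e e']
  one_mem' := fun e e' => by simp only [Pi.one_apply, map_one]
  add_mem' := fun {a b} ha hb e e' => by
    simp only [Pi.add_apply, map_add, ha e e', hb e e']
  zero_mem' := fun e e' => by simp only [Pi.zero_apply, map_zero]
  neg_mem' := fun {a} ha e e' => by simp only [Pi.neg_apply, map_neg, ha e e']

theorem fr_unit (e0 : σ) (u : FR Z) (hu : (Z e0).π (u.1 e0) ≠ 0) : IsUnit u := by
  have h : ∀ e, ∃ v, u.1 e * v = 1 := fun e =>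
    ((Z e).loc _ (by rw [u.2 e e0]; exact hu)).exists_right_inv
  choose v hv using h
  refine IsUnit.of_mul_eq_one ⟨v, fun e e' => ?_⟩ (Subtype.ext (funext hv))
  have h1 := congrArg (Z e).π (hv e)
  have h2 := congrArg (Z e').π (hv e')
  rw [map_mul, map_one, u.2 _ e0] at h1 h2
  exact mul_left_cancel₀ hu (h1.trans h2.symm)

/-- the determinant -/
def dF : GQ →* (FR Z)ˣ := MonoidHom.toHomUnits
  { toFun := fun g => (⟨fun e => (Z e).d g, fun e e' => by simp only [PO.rd]⟩ : FR Z)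
    map_one' := Subtype.ext (funext fun e => by simp)
    map_mul' := fun g h => Subtype.ext (funext fun e => by simp) }

/-- the fibre product of pseudo objects -/
def pi (e0 : σ) : PO S (FR Z) where
  ι := (Pi.ringHom fun e => (Z e).ι).codRestrict (FR Z) fun c e e' =>
    ((Z e).alg c).trans ((Z e').alg c).symm
  π := (Z e0).π.comp ((Pi.evalRingHom B e0).comp (FR Z).subtype)
  t g := ⟨fun e => (Z e).t g, fun e e' => by simp only [PO.rt]⟩
  d := dF Z
  fin := by
    have := fun e => (Z e).fin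
    infer_instance
  loc u hu := fr_unit Z e0 u hu
  alg c := (Z e0).alg c
  tf := ⟨Subtype.ext (funext fun e => (Z e).tf.one),
    fun g h => Subtype.ext (funext fun e => (Z e).tf.comm g h),
    fun g h => Subtype.ext (funext fun e => (Z e).tf.mul g h)⟩
  rt g := (Z e0).rt g
  rd g := (Z e0).rd g
  opn := by
    choose U h1 h2 using fun e => (Z e).opn
    refine ⟨⨅ e, U e, ?_, fun u hu => ⟨fun g => Subtype.ext (funext fun e =>
      (h2 e u (Subgroup.mem_iInf.1 hu e)).1 g), Units.ext (Subtype.ext (funext fun e =>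
      congrArg Units.val (h2 e u (Subgroup.mem_iInf.1 hu e)).2))⟩⟩
    rw [Subgroup.coe_iInf]
    exact isOpen_iInter_of_finite h1

theorem pi_cl {L : Pl O} {Q : Finset ℕ} (e0 : σ) (h : ∀ e, (Z e).Cl L Q) : (pi Z e0).Cl L Q where
  d2 g hg := Subtype.ext (funext fun e => (h e).d2 g hg)
  dc := Subtype.ext (funext fun e => (h e).dc)
  dl l hl := Subtype.ext (funext fun e => (h e).dl l hl)
  unr l a b c P d e' s hs := ⟨fun g => Subtype.ext (funext fun e =>
    ((h e).unr l a b c P d e' s hs).1 g), Units.ext (Subtype.ext (funext fun e =>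
    congrArg Units.val ((h e).unr l a b c P d e' s hs).2))⟩

end fib

variable {L : Pl O} {κ : Type} {gk : κ → GQ} {n : ℕ} (G : Gs S L gk n)

/-- a point of level zero -/
def Pz {B : Type} [CommRing B] (Z : PO S B) (ψ : PS O (Sy n) →+* B) : Prop :=
  Z.Cl L ∅ ∧ Hm Z.ι (Z.val G.rc G.γ) ψ

theorem mem_aP {f : PS O (Sy n)} : f ∈ G.aP ↔
    ∀ (B : Type) [CommRing B] (Z : PO S B) (ψ : PS O (Sy n) →+* B), Pz G Z ψ → ψ f = 0 :=
  ⟨fun h B _ Z ψ k => h B _ _ ψ ⟨Z, k.1, rfl, rfl⟩ k.2,
    fun h B _ j v ψ ⟨Z, k, e1, e2⟩ k' => h B Z ψ ⟨k, by rw [← e1, ← e2]; exact k'⟩⟩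

variable [IsLocalRing O] [IsNoetherianRing O] [IsAdicComplete (maximalIdeal O) O] [Finite F]

theorem fin_pow (S : Dat O F) (σ : Type) [Fintype σ] (k : ℕ) :
    Finite (PS O σ ⧸ maximalIdeal (PS O σ) ^ k) := by
  have : Finite (ResidueField O) :=
    Finite.of_equiv F ((Ideal.quotEquivOfEq (ker_eq_maximalIdeal S.red S.surj).symm).trans
      (RingHom.quotientKerEquivOfSurjective S.surj)).symm.toEquiv
  have : Finite (PS O σ ⧸ maximalIdeal (PS O σ)) := P022D.CA.Cpl.finite_residue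
  exact Ideal.finite_quotient_pow (IsNoetherian.noetherian _) k

/-- finitely many points see a given power of the maximal ideal -/
theorem chev (N : ℕ) : ∃ (σ : Type) (_ : Finite σ) (B : σ → Type) (_ : ∀ e, CommRing (B e))
    (Z : ∀ e, PO S (B e)) (ψ : ∀ e, PS O (Sy n) →+* B e), (∀ e, Pz G (Z e) (ψ e)) ∧
    ∀ f, (∀ e, ψ e f = 0) → f ∈ G.aP ⊔ maximalIdeal (PS O (Sy n)) ^ N := by
  classical
  have := P022D.CA.Cpl.isAdicCompleteV (σ := Sy n) (V := O) inferInstance
  by_contra hn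
  push Not at hn
  obtain ⟨f, hf⟩ := P022G.Crv.cpt (maximalIdeal (PS O (Sy n))) (fin_pow S _)
    {s | (∃ (B : Type) (_ : CommRing B) (Z : PO S B) (ψ : PS O (Sy n) →+* B), Pz G Z ψ ∧
      s = {f | ψ f = 0}) ∨ s = {f | f ∉ G.aP ⊔ maximalIdeal (PS O (Sy n)) ^ N}} (by
      rintro _ (⟨B, _, Z, ψ, hZ, rfl⟩ | rfl)
      · obtain ⟨k, hk⟩ := hm_nil Z hZ.2
        refine ⟨k, fun f hf f' e => ?_⟩
        have := hk _ e
        rw [map_sub, sub_eq_zero] at this
        exact this.symm.trans hf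
      · refine ⟨N, fun f hf f' e h' => hf ?_⟩
        have := add_mem (Ideal.mem_sup_right (S := G.aP) e) h'
        rwa [sub_add_cancel] at this) (fun T hT => by
      choose B _ Z ψ hZ e using fun s : {s : T // s.1 ≠
        {f | f ∉ G.aP ⊔ maximalIdeal (PS O (Sy n)) ^ N}} => (hT s.1.1 s.1.2).resolve_right s.2
      obtain ⟨f, h1, h2⟩ := hn _ inferInstance B _ Z ψ hZ
      refine ⟨f, fun s hs => ?_⟩
      by_cases h3 : s = {f | f ∉ G.aP ⊔ maximalIdeal (PS O (Sy n)) ^ N}
      · rw [h3]; exact h2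
      · exact (e ⟨⟨s, hs⟩, h3⟩).ge (h1 ⟨⟨s, hs⟩, h3⟩))
  exact hf _ (Or.inr rfl) (Ideal.mem_sup_left ((mem_aP G).2 fun B _ Z ψ hZ =>
    hf _ (Or.inl ⟨B, _, Z, ψ, hZ, rfl⟩)))

/-- one point sees a given power of the maximal ideal -/
theorem one (N : ℕ) : G.aP ⊔ maximalIdeal (PS O (Sy n)) ^ N = ⊤ ∨
    ∃ (B : Type) (_ : CommRing B) (Z : PO S B) (ψ : PS O (Sy n) →+* B), Pz G Z ψ ∧
      RingHom.ker ψ ≤ G.aP ⊔ maximalIdeal (PS O (Sy n)) ^ N := by
  obtain ⟨σ, _, B, _, Z, ψ, hZ, h⟩ := chev G N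
  rcases isEmpty_or_nonempty σ with hσ | ⟨⟨e0⟩⟩
  · exact Or.inl ((Ideal.eq_top_iff_one _).2 (h 1 fun e => hσ.elim e))
  · refine Or.inr ⟨FR Z, inferInstance, pi Z e0, (Pi.ringHom ψ).codRestrict (FR Z) fun f e e' =>
      (hm_res (Z e) (hZ e).2 f).trans (hm_res (Z e') (hZ e').2 f).symm,
      ⟨pi_cl Z e0 fun e => (hZ e).1, fun o => Subtype.ext (funext fun e => (hZ e).2.c o),
        fun s => Subtype.ext (funext fun e => ?_)⟩, fun f hf => h f fun e =>
        congrFun (congrArg Subtype.val hf) e⟩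
    refine ((hZ e).2.x s).trans ?_
    rcases s with i | i <;> rfl

end Vale.Agent.P022S.G0
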