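import Vale.Agent.P022S.Rw.Rgal0B
import Vale.Agent.P022S.Rw.Rloc
import Vale.Agent.P022S.Rw.Kdel
import Vale.Agent.P022G.Pt.Gal
import Vale.Agent.P022G.Limk

/-!
# P022S: row RGAL0
-/

set_option linter.all false

noncomputable section

namespace Vale.Agent.P022S.H21

open IsLocalRing MvPowerSeries Filter
open Vale.Agent.P022 Vale.Agent.P022.H346 Vale.Agent.P022S.R Vale.Agent.P022S.Loc
open Vale.Agent.P027M.S (Inert mx)
open Vale.Agent.P022D.Sel (M2)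
open Vale.Agent.P022D.Core (PS io y1 Coef)
open Vale.Agent.P022E.Loc (Pl)
open Vale.Agent.P022E.GW (Ov Gn)
open Vale.Agent.P022G (Hm KI)
open Vale.Agent.P022G.Word (wd)
open Vale.Agent.P022G
open Vale.Agent.P022S.G0 Vale.Agent.P022S.Wm

variable {O F : Type} [CommRing O] [Field F] {S : Dat O F} {L : Pl O}

section
variable {κ : Type} {n : ℕ} {gk : κ → GQ} {G : Gs S L gk n} {r : ℕ}
  {jr : PP O n r →+* PS O (Sy n)}

theorem jr_x (h : Hm C (G.jv r) jr) {τ' : Fin r → GQ} {B : Type} [CommRing B]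
    {Z : PO S B} {ψ : PS O (Sy n) →+* B} (hZ : Pz G Z ψ) (hτ : ∀ i, τ' i ∈ Kd.N Z.t Z.d)
    (z : Sy (n + r)) :
    ψ (jr (X (Sum.inl z))) = Z.val (G.rcr r) (Fin.append G.γ τ') z := by
  have ht := gv_t (e := id) hZ.2.c hZ.2.x
  have hd := gv_d (e := id) hZ.2.c hZ.2.x
  haveI := Kd.N_normal Z.tf
  rw [h.x]
  rcases z with z | i
  · have e := (Mod.wd_mod (Kd.N Z.t Z.d) (γ := Fin.append G.γ fun _ : Fin r => 1)
      (γ' := Fin.append G.γ τ') (fun i => by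
        induction i using Fin.addCases with
        | left i => rw [Fin.append_left, Fin.append_left, inv_mul_cancel]; exact one_mem _
        | right i => rw [Fin.append_right, Fin.append_right, inv_one, one_mul]; exact hτ i)
      z).1 (wd (Fin.append G.γ fun _ : Fin r => 1) z)
    rw [mul_inv_cancel_left, Mod.wd_append] at e
    change ψ (_ - C _) = _ - _
    rw [map_sub, hZ.2.c, ht, ← e]
  · change ψ (Fin.append (dS G.rc id) (fun _ : Fin r => 1) i - C _) =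
      (Z.d (Fin.append G.γ τ' i) : B) - _
    rw [map_sub, hZ.2.c]
    induction i using Fin.addCases with
    | left i => rw [Fin.append_left, Fin.append_left, hd]
    | right i => rw [Fin.append_right, Fin.append_right, (hτ i).2, map_one, Units.val_one]

/-- a point of level zero is a point of every level -/
theorem pull (h : Hm C (G.jv r) jr) {q : Fin r → ℕ} {τ' : Fin r → GQ}
    (hq : ∀ i, q i ∉ S.T ∧ ∃ P, Ov (q i) P ∧ Gn (q i) P (τ' i)) {B : Type} [CommRing B]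
    {Z : PO S B} {ψ : PS O (Sy n) →+* B} (hZ : Pz G Z ψ) :
    Hm Z.ι (Z.val (G.rcr r) (Fin.append G.γ τ')) (ψ.comp (jr.comp (io O _ r))) := by
  refine ⟨fun o => ?_, fun z => ?_⟩
  · rw [RingHom.comp_apply, RingHom.comp_apply, Rl86.ioC, h.c, hZ.2.c]
  · rw [RingHom.comp_apply, RingHom.comp_apply, Rl86.ioX]
    refine jr_x h hZ (fun i => ?_) z
    obtain ⟨h1, P, ⟨a1, a2, a3⟩, a4⟩ := hq i
    exact hZ.1.unr _ a1 h1 (Finset.notMem_empty _) P a2 a3 _ a4.1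

theorem a_le (h : Hm C (G.jv r) jr) : aF (G.rcr r) Sum.inl ≤ G.aP.comap jr := fun f hf => by
  refine (mem_aP G).2 fun B _ Z ψ hZ => ?_
  let l : FreeGroup (Fin (n + r)) →* GQ := FreeGroup.lift (Fin.append G.γ fun _ : Fin r => 1)
  refine hf B Z.ι (fun z => ψ (jr (X z))) (ψ.comp jr) ⟨Z.fin, fun w => Z.t (l w), Z.d.comp l,
    ⟨by rw [map_one, Z.tf.one], fun a b => by rw [map_mul, map_mul, Z.tf.comm],
      fun a b => by rw [map_mul, map_mul, map_inv]; exact Z.tf.mul _ _⟩, fun z => ?_⟩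
    ⟨fun o => by rw [RingHom.comp_apply, h.c, hZ.2.c], fun _ => rfl⟩
  refine (jr_x h hZ (τ' := fun _ => 1) (fun _ => one_mem _) z).trans ?_
  rcases z with z | i
  · change _ - _ = Z.t (l _) - _
    rw [Ut.lift_wd]
  · change _ - _ = ((Z.d (l _) : Bˣ) : B) - _
    rw [FreeGroup.lift_apply_of]

end

theorem io_dl {m : ℕ} (rc : Fin m → M2 O) (r : ℕ) (i k : Fin m) :
    io O (Sy m) r (dlS rc id i k) = dlS rc Sum.inl i k := by
  have a : ∀ s, io O (Sy m) r (tS rc id s) = tS rc Sum.inl s := fun s => by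
    rw [tS, tS, map_add, Rl86.ioC, Rl86.ioX]; rfl
  have b : ∀ s, io O (Sy m) r (dS rc id s) = dS rc Sum.inl s := fun s => by
    rw [dS, dS, map_add, Rl86.ioC, Rl86.ioX]; rfl
  simp only [dlS, _root_.P022G.Th.dl, trS, tr2, map_add, map_sub, map_mul, map_pow, map_ofNat,
    map_neg, a, b]

theorem rgal0C (hD : KDEL) (hR : RCOV) : RGAL0 := by
  intro O F _ _ _ _ _ _ _ ϖ S L X as β τ ι' _ _ _ K n G hϖ hC hK hK' r s V _ _ _ _ _ _ Y ht hG hY
  subst hG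
  letI : Algebra (S0 O τ L n S.T r) (S1 O τ L n S.T r) := (io O _ r).toAlgebra
  have hs := (hR O F ϖ S L X as β τ ι' K n Y.G' hϖ hC hK hK' r s V Y ht rfl hY).2.2.2.2.1
  have hd := hD O F ϖ S L X as β τ ι' K n Y.G' hϖ hC hK hK' r
  obtain ⟨i, k, hik, hx⟩ := Rl86.ex_dl hY
  have eδ : ψ1 S L τ n r (dlS (Y.G'.rcr r) Sum.inl i k) =
      io O _ r (ψ0 S L τ n r (dlS (Y.G'.rcr r) id i k)) := by rw [← io_dl, Rl86.psi_in]
  rw [eδ] at hx
  haveI := Coef.cpl (O := O)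
  have hp : (RingHom.ker Y.θ).IsPrime := RingHom.ker_isPrime Y.θ
  set W : Ideal (S1 O τ L n S.T r) := (Y.G'.aP.comap Y.jr).map (ψ1 S L τ n r) ⊔
    (t0 K Y.G' r).map (io O _ r) with hW
  set δ : S0 O τ L n S.T r := ψ0 S L τ n r (dlS (Y.G'.rcr r) id i k) with hδ
  have pm : ∀ f ∈ maximalIdeal (PP O n r), ψ1 S L τ n r f ∈ maximalIdeal (S1 O τ L n S.T r) :=
    fun f hf => by
      rw [P022D.CA.Cpl.mem_max_iff] at hf ⊢
      have e : constantCoeff (ψ1 S L τ n r f) = constantCoeff f := constantCoeff_rename _ f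
      rwa [e]
  have key : ∀ m, ∀ f ∈ Kn K Y.G' r (Y.q m) (Y.τ' m), io O _ r (δ * f) ∈ W := by
    intro m f hf
    refine P022D.PA.mem_of_sup _ _ fun N => ?_
    have h0 : (Y.G'.aP ⊔ maximalIdeal _ ^ N).comap Y.jr ≤
        (W ⊔ maximalIdeal _ ^ N).comap (ψ1 S L τ n r) := by
      refine (cm_sup hs _ N).trans (Ideal.map_le_iff_le_comap.1 ?_)
      rw [Ideal.map_sup]
      exact sup_le_sup le_sup_left (_root_.P022G.Lk.map_pow_le _ pm N)
    rcases G0.one Y.G' N with h | ⟨B, _, Z, ψ, hZ, h⟩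
    · rw [h, Ideal.comap_top, top_le_iff, Ideal.comap_eq_top_iff] at h0
      rw [h0]
      trivial
    · have h1 := hd (Y.q m) (Y.τ' m) (hY.gn m) B Z _ ⟨hZ.1.d2, hZ.1.dc, hZ.1.dl, fun l a b _ =>
        hZ.1.unr l a b (Finset.notMem_empty l)⟩ (pull hY.jr (hY.gn m) hZ) i k hik f hf
      refine (sup_le (Ideal.map_le_iff_le_comap.2 fun u hu => ?_) ?_ :
        _ ≤ (W ⊔ maximalIdeal _ ^ N).comap (io O _ r)) h1
      · rw [Ideal.mem_comap, Ideal.mem_comap, ← Rl86.psi_in]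
        exact h0 (h hu)
      · exact Ideal.map_le_iff_le_comap.1 (le_sup_right.trans le_sup_left)
  have hE : ∀ f ∈ Rel.IK (DD K n S.T r) Y.k, io O _ r (δ * f) ∈ W := by
    intro f hf
    refine (sup_le (fun u hu => ?_) (Ideal.span_le.2 ?_) :
      _ ≤ Pt.cl (W.comap (io O _ r)) δ) hf
    · refine key 0 u ?_
      rintro B _ j v ψ ⟨Xo, h1, rfl, rfl⟩ h2
      exact hK.eqs _ B Xo h1.1 ψ h2.c (fun z => h2.x (Sum.inl z)) hu
    · rintro _ ⟨a, rfl⟩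
      exact cl_mem (Pt.cl (W.comap (io O _ r)) δ) _ (hY.cvk a) fun m => key m _ (hY.kn m a)
  have hr : (Y.rd ϖ).𝔯 ≤ W := by
    refine Ideal.span_le.2 ?_
    rintro _ ⟨a, rfl⟩
    obtain ⟨h1, -, h3⟩ := Rl86.one hY W le_sup_left a
    exact add_mem (sub_mem (W.pow_mem_of_mem h1 2 two_pos) (W.mul_mem_left _ h1)) h3
  have lc : ∀ (E' : Ideal (S0 O τ L n S.T r)) (W' : Ideal (S1 O τ L n S.T r)), W ≤ W' →
      (∀ f ∈ E', io O _ r (δ * f) ∈ W') →
      Pt.Lc (RingHom.ker Y.θ) (E'.map (io O _ r) ⊔ (Y.rd ϖ).𝔯) W' := fun E' W' h1 h2 =>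
    Pt.Lc.sup hp (Pt.Lc.of_span hp (io O _ r '' E') le_rfl (by
      rintro _ ⟨f, hf, rfl⟩
      exact ⟨_, hx, by rw [← map_mul]; exact h2 f hf⟩)) (Pt.Lc.of_le hp (hr.trans h1))
  refine ⟨⟨a_le hY.jr, lc _ _ le_rfl hE⟩, fun 𝔟 hb hτ => ⟨(a_le hY.jr).trans hb, ?_⟩⟩
  set W' : Ideal (S1 O τ L n S.T r) := 𝔟.map (ψ1 S L τ n r) ⊔ (t0 K Y.G' r).map (io O _ r)
    with hW'
  have h1 : W ≤ W' := sup_le_sup_right (Ideal.map_mono hb) _
  refine lc _ _ h1 fun f hf => (sup_le (fun u hu => h1 (hE u hu)) (Ideal.span_le.2 ?_) :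
    _ ≤ Pt.cl (W'.comap (io O _ r)) δ) hf
  rintro _ ⟨l, hl, a, b, rfl⟩
  let φ := Ideal.Quotient.mk W'
  have z : ∀ u, u ∈ W' ↔ φ u = 0 := fun u => Ideal.Quotient.eq_zero_iff_mem.symm
  let m : S0 O τ L n S.T r →+* _ := φ.comp (io O _ r)
  have hm : t0 K Y.G' r ≤ RingHom.ker m := fun u hu =>
    (z _).1 (Ideal.mem_sup_right (Ideal.mem_map_of_mem _ hu))
  obtain ⟨s1, s2⟩ := Rl86.sym Y.G' φ hm
  have h2 : ∀ u ∈ tauP (Y.G'.rcr r) Sum.inl (Fin.castAdd r (Y.G'.iτ l)),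
      (φ.comp (ψ1 S L τ n r)) u = 0 := fun u hu =>
    (z _).1 (Ideal.mem_sup_left (Ideal.mem_map_of_mem _ (hτ l hl hu)))
  have hu : ∀ i, IsUnit ((ZS K Y.G' r i).map m) := fun i =>
    (KdC.ZS_unit K Y.G' r hC i).map m.mapMatrix
  have h3 := del_one (Kd.fr _ hu) (FreeGroup.of i) (FreeGroup.of k)
    (tau_tr _ hu (Fin.castAdd r (Y.G'.iτ l)) (by
      have := h2 _ (Or.inl rfl)
      rwa [map_sub, map_one, s2, sub_eq_zero] at this) fun s => by
      have := h2 _ (Or.inr ⟨s, rfl⟩)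
      rwa [map_sub, s1, s1, sub_eq_zero] at this)
  rw [Kd.fr_of, Kd.fr_of, Kd.fr_of, ← dlS_eq s1 s2 hik, RingHom.comp_apply, eδ] at h3
  have hk : ∀ i, m (MvPowerSeries.X (Sum.inl i)) = m (κS K Y.G' r i) := fun i => by
    have : m (MvPowerSeries.X (Sum.inl i) - κS K Y.G' r i) = 0 := hm (KdC.t0_κ K Y.G' r i)
    rwa [map_sub, sub_eq_zero] at this
  obtain ⟨P, Q, e1, -, -, e2⟩ := Rl86.conj K (fun γ => (γ : ℕ)) hK.uv m l
    (αS τ L n S.T r l) (ZS K Y.G' r (Fin.castAdd r (Y.G'.iφ l)))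
    (ZS K Y.G' r (Fin.castAdd r (Y.G'.iτ l))) (Rl86.al_unit l) fun j => hk (Sum.inr (l, j))
  have h4 := congrFun (congrFun (conj_one e1 h3) a) b
  rw [← e2] at h4
  refine (z _).2 ?_
  change m (δ * _) = 0
  rw [map_mul, Matrix.sub_apply, map_sub]
  have e3 : m ((1 : M2 (S0 O τ L n S.T r)) a b) = (1 : M2 _) a b :=
    congrFun (congrFun (P022D.R.map_one' m) a) b
  rw [e3]
  exact h4

end Vale.Agent.P022S.H21
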