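import Vale.Agent.P022S.Rows
import Vale.Agent.P022S.Rw.RlocB86
import Vale.Agent.P022S.Rw.Rgal0A
import Vale.Agent.P022G.Rw.Rgal

/-!
# P022S: the equations hold over the patched ring
-/

set_option linter.all false

noncomputable section

namespace Vale.Agent.P022S.H52

open IsLocalRing MvPowerSeries Filter
open Vale.Agent.P022 Vale.Agent.P022.H346 Vale.Agent.P022S.R Vale.Agent.P022S.Loc
open Vale.Agent.P027M.S (Inert mx)
open Vale.Agent.P022D.Sel (M2)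
open Vale.Agent.P022D.Core (PS io y1)
open Vale.Agent.P022E.Loc (Pl)
open Vale.Agent.P022E.GW (Ov Gn)
open Vale.Agent.P022E.As (Tg cc tt dd yy)
open Vale.Agent.P022G (Hm KI)
open Vale.Agent.P022G.Rg (ex_hm ioC ioX io_max quad_mem)
open Vale.Agent.P022G.Word (wd)
open _root_.P022G.Th (del dl del_eq map_dl)
open Vale.Agent.P022G

section alg
variable {O : Type} [CommRing O] {m : ℕ}

theorem wm_map {A B : Type} [CommRing A] [CommRing B] (u : A →+* B) (Z : Fin m → M2 A)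
    (s : Finset (Fin m)) : (wm Z s).map u = wm (fun i => (Z i).map u) s := by
  have h := map_list_prod u.mapMatrix ((s.sort (· ≤ ·)).map Z)
  rw [List.map_map] at h
  exact h

theorem wm_one {B : Type} [CommRing B] (Z : Fin m → M2 B) (i : Fin m) : wm Z {i} = Z i := by
  simp [wm]

theorem wm_lt {B : Type} [CommRing B] (Z : Fin m → M2 B) {i k : Fin m} (h : i < k) :
    wm Z {i, k} = Z i * Z k := by
  rw [wm, Finset.sort_insert _ (by simpa using h.le) (by simpa using h.ne)]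
  simp

theorem wm_two {B : Type} [CommRing B] (Z : Fin m → M2 B) {i k : Fin m} (h : i ≠ k) :
    (wm Z {i, k}).trace = (Z i * Z k).trace := by
  rcases lt_or_gt_of_ne h with h | h
  · rw [wm_lt Z h]
  · rw [Finset.pair_comm, wm_lt Z h, Matrix.trace_mul_comm]

theorem wd_one {G : Type} [Group G] (γ : Fin m → G) (i : Fin m) : wd γ {i} = γ i := by simp [wd]

variable {σ B : Type} [CommRing B] {j : O →+* B} {rc : Fin m → M2 O} {e : Sy m → σ}
  {t : Finset (Fin m) → B} {d : Fin m → B} {Ψ : PS O σ →+* B}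

theorem ev_t (hc : ∀ o, Ψ (C o) = j o) (hx : ∀ s, Ψ (X (e s)) = gv rc j t d s)
    (s : Finset (Fin m)) : Ψ (tS rc e s) = t s := by
  rw [tS, map_add, hc, hx]
  exact add_sub_cancel _ _

theorem ev_d (hc : ∀ o, Ψ (C o) = j o) (hx : ∀ s, Ψ (X (e s)) = gv rc j t d s) (i : Fin m) :
    Ψ (dS rc e i) = d i := by
  rw [dS, map_add, hc, hx]
  exact add_sub_cancel _ _

theorem ev_dl {Z : Fin m → M2 B} (ht : ∀ s, Ψ (tS rc e s) = (wm Z s).trace)
    (hd : ∀ i, Ψ (dS rc e i) = (Z i).det) {i k : Fin m} (h : i ≠ k) :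
    Ψ (dlS rc e i k) = del (Z i) (Z k) := by
  rw [dlS, map_dl, trS, trS, tr2, ht, ht, ht, hd, hd, wm_one, wm_one, wm_two Z h, del_eq]

theorem dS_unit (h : ∀ i, IsUnit (rc i).det) (i : Fin m) : IsUnit (dS rc e i) := by
  rw [isUnit_iff_constantCoeff, dS, map_add, constantCoeff_C, constantCoeff_X, add_zero]
  exact h i

theorem tf_comp {G H : Type} [Group G] [Group H] {t : G → B} {d : G →* Bˣ} (T : TF t d)
    (f : H →* G) : TF (fun w => t (f w)) (d.comp f) :=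
  ⟨by rw [map_one, T.one], fun g h => by rw [map_mul, map_mul, T.comm],
    fun g h => by rw [map_mul, map_mul, map_inv, T.mul]; rfl⟩

end alg

variable {O F : Type} [CommRing O] [Field F] {S : Dat O F} {L : Pl O} {β : Type}
  {τ ι' : β → Type} {n r : ℕ}

theorem p0C (o : O) : ψ0 S L τ n r (C o) = C o := rename_C _ o

theorem p0X (s : Sy (n + r)) : ψ0 S L τ n r (X s) = X (e0 r s) := rename_X _ s

theorem p1y (i : Fin r) : ψ1 S L τ n r (y1 O _ i) = y1 O _ i := rename_X _ _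

theorem p1io (f : PS O (Sy (n + r))) :
    ψ1 S L τ n r (io O _ r f) = io O _ r (ψ0 S L τ n r f) :=
  (rename_rename _ _ f).trans (rename_rename (e0 r : Sy (n + r) ↪ V0 τ L n S.T r)
    (Function.Embedding.inl : V0 τ L n S.T r ↪ V0 τ L n S.T r ⊕ Fin r) f).symm

theorem p1_max [IsLocalRing O] : ∀ f ∈ maximalIdeal (PP O n r),
    ψ1 S L τ n r f ∈ maximalIdeal (S1 O τ L n S.T r) := fun f hf => by
  rw [P022D.CA.Cpl.mem_max_iff] at hf ⊢
  have e : constantCoeff (ψ1 S L τ n r f) = constantCoeff f := constantCoeff_rename _ f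
  rwa [e]

theorem p0t (rc : Fin (n + r) → M2 O) (s : Finset (Fin (n + r))) :
    ψ0 S L τ n r (tS rc id s) = tS rc (e0 r) s := by
  rw [tS, tS, map_add, p0C, p0X]; rfl

theorem p0d (rc : Fin (n + r) → M2 O) (i : Fin (n + r)) :
    ψ0 S L τ n r (dS rc id i) = dS rc (e0 r) i := by
  rw [dS, dS, map_add, p0C, p0X]; rfl

theorem al_unit (l : ℕ) : IsUnit (αS (O := O) τ L n S.T r l).det := by
  unfold αS
  split_ifs with h
  · rw [MvPowerSeries.isUnit_iff_constantCoeff, RingHom.map_det]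
    have : (constantCoeff : PS O (V0 τ L n S.T r) →+* O).mapMatrix (1 + Matrix.of fun a b =>
        X (Sum.inr (Sum.inr (Sum.inr (⟨l, h⟩, a, b))))) = 1 := by
      rw [map_add, map_one]
      ext a b
      simp
    rw [this, Matrix.det_one]
    exact isUnit_one
  · rw [Matrix.det_one]
    exact isUnit_one

theorem rcr_unit {κ : Type} {gk : κ → GQ} (G : Gs S L gk n) (i : Fin (n + r)) :
    IsUnit (G.rcr r i).det := by
  refine Fin.addCases (fun i => ?_) (fun i => ?_) i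
  · rw [Gs.rcr, Fin.append_left, ← Matrix.isUnit_iff_isUnit_det]
    exact (Group.isUnit _).map L.r
  · rw [Gs.rcr, Fin.append_right, Matrix.det_one]
    exact isUnit_one

/-- the determinants as units -/
def dU {κ : Type} {gk : κ → GQ} (G : Gs S L gk n) (r : ℕ) (i : Fin (n + r)) :
    (PS O (Sy (n + r)))ˣ := (dS_unit (e := id) (rcr_unit G) i).unit

section quot
variable (K : Kx O β τ ι' L.C) (G : Gs S L K.g n) {B : Type} [CommRing B]
  (m : S0 O τ L n S.T r →+* B) (hm : t0 K G r ≤ RingHom.ker m)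
include hm

theorem q_t (s : Finset (Fin (n + r))) : m.comp (ψ0 S L τ n r) (tS (G.rcr r) id s) =
    (wm (fun i => (ZS K G r i).map m) s).trace := by
  have h : m (tS (G.rcr r) (e0 r) s - (wm (ZS K G r) s).trace) = 0 :=
    hm (Ideal.subset_span (Or.inl (Or.inl (Or.inl ⟨s, rfl⟩))))
  rw [map_sub, sub_eq_zero, Rl86.tr_map, wm_map] at h
  rw [RingHom.comp_apply, p0t, h]

theorem q_d (i : Fin (n + r)) : m.comp (ψ0 S L τ n r) (dS (G.rcr r) id i) =
    ((ZS K G r i).map m).det := by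
  have h : m (dS (G.rcr r) (e0 r) i - (ZS K G r i).det) = 0 :=
    hm (Ideal.subset_span (Or.inl (Or.inl (Or.inr ⟨i, rfl⟩))))
  rw [map_sub, sub_eq_zero, RingHom.map_det, RingHom.mapMatrix_apply] at h
  rw [RingHom.comp_apply, p0d, h]

theorem q_blk (uv : ∀ γ, K.u γ * K.v γ = 1) (l : L.C) :
    ∃ P Q : M2 B, P * Q = 1 ∧ Q * P = 1 ∧ ((DD K n S.T r).T l).map m =
      P * (ZS K G r (Fin.castAdd r (G.iτ l))).map m * Q := by
  obtain ⟨P, Q, h1, h2, -, h3⟩ := Rl86.conj K (fun γ => (γ : ℕ)) uv m l (αS τ L n S.T r l)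
    (ZS K G r (Fin.castAdd r (G.iφ l))) (ZS K G r (Fin.castAdd r (G.iτ l))) (al_unit l) fun a => by
      have h : m (X (Sum.inl (Sum.inr (l, a))) - κS K G r (Sum.inr (l, a))) = 0 :=
        hm (Ideal.subset_span (Or.inl (Or.inr ⟨Sum.inr (l, a), rfl⟩)))
      rw [map_sub, sub_eq_zero] at h
      exact h
  exact ⟨P, Q, h1, h2, h3⟩

theorem q_tr (uv : ∀ γ, K.u γ * K.v γ = 1) (l : L.C) : m ((DD K n S.T r).T l).trace =
    m (ψ0 S L τ n r (trS (G.rcr r) id (Fin.castAdd r (G.iτ l)))) := by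
  obtain ⟨P, Q, -, h2, h3⟩ := q_blk K G m hm uv l
  rw [Rl86.tr_map, h3, Rl86.tr_conj h2]
  exact ((q_t K G m hm _).trans (congrArg Matrix.trace (wm_one _ _))).symm

theorem q_one (uv : ∀ γ, K.u γ * K.v γ = 1) (l : L.C)
    (h : ∀ w, m (ψ0 S L τ n r (Ut.tw (tS (G.rcr r) id) (dU G r)
      (w * FreeGroup.of (Fin.castAdd r (G.iτ l))) - Ut.tw (tS (G.rcr r) id) (dU G r) w)) = 0)
    {i k : Fin (n + r)} (hik : i ≠ k) (a b : Fin 2) :
    m (ψ0 S L τ n r (dlS (G.rcr r) id i k) * ((DD K n S.T r).T l - 1) a b) = 0 := by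
  obtain ⟨P, Q, h1, -, h3⟩ := q_blk K G m hm uv l
  have hu : ∀ i, IsUnit ((ZS K G r i).map m) := fun i => by
    rw [Matrix.isUnit_iff_isUnit_det, ← q_d K G m hm]
    exact (dS_unit (rcr_unit G) i).map _
  have e1 := (Ut.spec_mat (p := tS (G.rcr r) id) (r := dU G r) _ hu (m.comp (ψ0 S L τ n r))
    (q_t K G m hm) (q_d K G m hm)).2.1
  have e2 := G0.del_one (Kd.fr _ hu) (FreeGroup.of i) (FreeGroup.of k)
    (g := FreeGroup.of (Fin.castAdd r (G.iτ l))) fun w => by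
      rw [← e1, ← e1, ← sub_eq_zero, ← map_sub]
      exact h w
  rw [Kd.fr_of, Kd.fr_of, Kd.fr_of] at e2
  have e3 := congrFun (congrFun (G0.conj_one h1 e2) a) b
  rw [← h3, ← ev_dl (q_t K G m hm) (q_d K G m hm) hik] at e3
  rw [map_mul, Matrix.sub_apply, map_sub]
  refine Eq.trans ?_ e3
  rw [Matrix.smul_apply, smul_eq_mul, Matrix.sub_apply, Matrix.map_apply, RingHom.comp_apply,
    Matrix.one_apply, Matrix.one_apply, apply_ite m, map_one, map_zero]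

end quot

theorem val_res [IsLocalRing O] [CharP F 2] {X : Finset ℕ} {as : ℕ} (hC : Cx S L X as)
    {κ : Type} {gk : κ → GQ} (G : Gs S L gk n) (γ : Fin (n + r) → GQ) {B : Type} [CommRing B]
    (Z : PO S B) (s : Sy (n + r)) : Z.π (Z.val (G.rcr r) γ s) = 0 := by
  have e : ∀ i, (G.rcr r i).map S.red = 1 := fun i => by
    refine Fin.addCases (fun i => ?_) (fun i => ?_) i
    · rw [Gs.rcr, Fin.append_left, Gs.rc, hC.ok.lift, mx, hC.rb1]
      rfl
    · rw [Gs.rcr, Fin.append_right, Matrix.map_one _ (map_zero _) (map_one _)]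
  rcases s with s | i
  · change Z.π (Z.t _ - Z.ι _) = 0
    have e2 : wm (fun i => (G.rcr r i).map S.red) s = 1 :=
      List.prod_eq_one fun x hx => by
        obtain ⟨i, -, rfl⟩ := List.mem_map.1 hx
        exact e i
    rw [map_sub, Z.rt, Z.alg, Rl86.tr_map, wm_map, e2, Matrix.trace_one, Fintype.card_fin,
      CharP.cast_eq_zero F 2, sub_self]
  · change Z.π ((Z.d _ : B) - Z.ι _) = 0
    rw [map_sub, Z.rd, Z.alg, RingHom.map_det, RingHom.mapMatrix_apply, e, Matrix.det_one,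
      sub_self]

theorem std_val {B : Type} [CommRing B] {Z : PO S B} {u : Tg O →+* B} (h : Z.Std u) {m : ℕ}
    (rc : Fin m → M2 O) (γ : Fin m → GQ) (s : Sy m) : u (vT rc γ s) = Z.val rc γ s := by
  rcases s with s | i
  · change u (tt _ - cc _) = Z.t _ - Z.ι _
    rw [map_sub, h.t, h.c]
  · change u (dd _ - cc _) = (Z.d _ : B) - Z.ι _
    rw [map_sub, h.d, h.c]

variable [IsLocalRing O] {K : Kx O β τ ι' L.C} {s : ℕ} {V : Type} [CommRing V]

/-- the ideal generated by `A`, the tautological relations and a power of the maximal ideal -/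
def bb (Y : Pc (S := S) (n := n) K r s V) (A : Ideal (PP O n r)) (j : ℕ) :
    Ideal (S1 O τ L n S.T r) :=
  A.map (ψ1 S L τ n r) ⊔ (t0 K Y.G' r).map (io O _ r) ⊔ maximalIdeal (S1 O τ L n S.T r) ^ j

/-- a pseudo object of level `c` which controls `A` modulo the `j`-th power -/
structure Ky (Y : Pc (S := S) (n := n) K r s V) (c : ℕ) (A : Ideal (PP O n r)) (j : ℕ) {B : Type}
    [CommRing B] (Z : PO S B) (Ψ : PP O n r →+* B) : Prop where
  cl : Z.Cl L (Finset.univ.image (Y.q c))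
  hm : Hm Z.ι (Z.val (Y.G'.rcr r) (Fin.append Y.G'.γ (Y.τ' c))) (Ψ.comp (io O _ r))
  qd : ∀ i, Ψ (y1 O _ i) ^ 2 - (Z.t (Y.τq c i) - 2) * Ψ (y1 O _ i) +
    (1 - Z.t (Y.τq c i) + Z.d (Y.τq c i)) = 0
  le : RingHom.ker Ψ ≤ A ⊔ maximalIdeal (PP O n r) ^ j

variable {Y : Pc (S := S) (n := n) K r s V} {c j : ℕ} {A : Ideal (PP O n r)} {B : Type}
  [CommRing B] {Z : PO S B} {Ψ : PP O n r →+* B}

theorem bt {f : S0 O τ L n S.T r} (hf : f ∈ t0 K Y.G' r) : io O _ r f ∈ bb Y A j :=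
  Ideal.mem_sup_left (Ideal.mem_sup_right (Ideal.mem_map_of_mem _ hf))

theorem bm {f : S0 O τ L n S.T r} (hf : f ∈ maximalIdeal (S0 O τ L n S.T r) ^ j) :
    io O _ r f ∈ bb Y A j :=
  Ideal.mem_sup_right (_root_.P022G.Lk.map_pow_le _ (io_max _ r) j (Ideal.mem_map_of_mem _ hf))

theorem bm0 {f : PS O (Sy (n + r))} (hf : f ∈ maximalIdeal (PS O (Sy (n + r))) ^ j) :
    io O _ r (ψ0 S L τ n r f) ∈ bb Y A j := by
  rw [← p1io]
  exact Ideal.mem_sup_right (_root_.P022G.Lk.map_pow_le _ p1_max j (Ideal.mem_map_of_mem _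
    (_root_.P022G.Lk.map_pow_le _ (io_max _ r) j (Ideal.mem_map_of_mem _ hf))))

theorem bq {f : S0 O τ L n S.T r} :
    (Ideal.Quotient.mk (bb Y A j)).comp (io O _ r) f = 0 ↔ io O _ r f ∈ bb Y A j :=
  Ideal.Quotient.eq_zero_iff_mem

theorem bq0 : t0 K Y.G' r ≤ RingHom.ker ((Ideal.Quotient.mk (bb Y A j)).comp (io O _ r)) :=
  fun _ hf => bq.2 (bt hf)

theorem Ky.mem (h : Ky Y c A j Z Ψ) {f : PP O n r} (hf : Ψ f = 0) :
    ψ1 S L τ n r f ∈ bb Y A j := by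
  obtain ⟨x, hx, y, hy, e⟩ := Submodule.mem_sup.1 (h.le hf)
  rw [← e, map_add]
  exact add_mem (Ideal.mem_sup_left (Ideal.mem_sup_left (Ideal.mem_map_of_mem _ hx)))
    (Ideal.mem_sup_right (_root_.P022G.Lk.map_pow_le _ p1_max j (Ideal.mem_map_of_mem _ hy)))

theorem Ky.mem0 (h : Ky Y c A j Z Ψ) {f : PS O (Sy (n + r))}
    (hf : Ψ.comp (io O _ r) f = 0) : io O _ r (ψ0 S L τ n r f) ∈ bb Y A j := by
  rw [← p1io]
  exact h.mem hf

theorem Ky.rk (h : Ky Y c A j Z Ψ) (ϖ : O) :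
    (Y.rd ϖ).𝔞 ≤ A ⊔ maximalIdeal (PP O n r) ^ j := by
  refine le_trans (fun f hf => ?_) h.le
  refine hf B Z.ι (fun z => Ψ (X z)) Ψ ⟨Z.fin, _, _,
    tf_comp Z.tf (FreeGroup.lift (Fin.append Y.G'.γ (Y.τ' c))), fun z => ?_⟩
    ⟨fun o => ?_, fun _ => rfl⟩
  · have e := h.hm.x z
    rw [RingHom.comp_apply, ioX] at e
    simp only [Ut.lift_wd, MonoidHom.comp_apply, FreeGroup.lift_apply_of]
    exact e
  · have e := h.hm.c o
    rwa [RingHom.comp_apply, ioC] at e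

theorem Ky.kn (h : Ky Y c A j Z Ψ) {δ f : S0 O τ L n S.T r}
    (h8 : δ * f ∈ (RingHom.ker (Ψ.comp (io O _ r))).map (ψ0 S L τ n r) ⊔ t0 K Y.G' r) :
    io O _ r δ * io O _ r f ∈ bb Y A j := by
  rw [← map_mul]
  exact (sup_le (Ideal.map_le_iff_le_comap.2 fun u hu => h.mem0 hu) fun u hu => bt hu :
    _ ≤ (bb Y A j).comap (io O _ r)) h8

theorem Ky.root (h : Ky Y c A j Z Ψ) (i : Fin r)
    (t1 : Ψ.comp (io O _ r) (Y.tn c i) = Z.t (Y.τq c i))
    (t2 : Ψ.comp (io O _ r) (Y.dn c i) = Z.d (Y.τq c i))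
    (c1 : Y.tn c i - Y.ta i ∈ maximalIdeal (PS O (Sy (n + r))) ^ j)
    (c2 : Y.dn c i - Y.da i ∈ maximalIdeal (PS O (Sy (n + r))) ^ j) :
    y1 O _ i ^ 2 - io O _ r (ψ0 S L τ n r (Y.ta i) - 2) * y1 O _ i +
      io O _ r (1 - ψ0 S L τ n r (Y.ta i) + ψ0 S L τ n r (Y.da i)) ∈ bb Y A j := by
  have h8 := h.mem (f := y1 O _ i ^ 2 - (io O _ r (Y.tn c i) - 2) * y1 O _ i +
      (1 - io O _ r (Y.tn c i) + io O _ r (Y.dn c i))) (by
    rw [RingHom.comp_apply] at t1 t2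
    rw [map_add, map_sub, map_mul, map_pow, map_add, map_sub, map_sub, map_one, map_ofNat, t1, t2]
    exact h.qd i)
  have m1 := bm0 (Y := Y) (A := A) c1
  have m2 := bm0 (Y := Y) (A := A) c2
  rw [map_add, map_sub, map_mul, map_pow, map_add, map_sub, map_sub, map_one, map_ofNat, p1io,
    p1io, p1y] at h8
  rw [map_sub, map_sub] at m1 m2
  rw [map_add, map_sub, map_sub, map_one, map_ofNat]
  exact quad_mem _ h8 m1 m2

theorem Ky.tr (h : Ky Y c A j Z Ψ) (uv : ∀ γ, K.u γ * K.v γ = 1) (l : L.C)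
    (hl : Z.t (L.τ l) = 0) : io O _ r ((DD K n S.T r).T l).trace ∈ bb Y A j := by
  rw [← bq, q_tr K Y.G' _ bq0 uv l, bq]
  refine h.mem0 ?_
  rw [trS, ev_t (e := id) h.hm.c h.hm.x, wd_one, Fin.append_left, Y.G'.hτ, hl]

theorem Ky.one (h : Ky Y c A j Z Ψ) (uv : ∀ γ, K.u γ * K.v γ = 1) (l : L.C)
    (u : ∀ g, Z.t (g * L.τ l) = Z.t g) {i k : Fin (n + r)} (hik : i ≠ k) (a b : Fin 2) :
    io O _ r (ψ0 S L τ n r (dlS (Y.G'.rcr r) id i k) * ((DD K n S.T r).T l - 1) a b) ∈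
      bb Y A j := by
  have e := (Ut.spec (p := tS (Y.G'.rcr r) id) (r := dU Y.G' r) Z.tf
    (Fin.append Y.G'.γ (Y.τ' c)) (Ψ.comp (io O _ r)) (ev_t (e := id) h.hm.c h.hm.x)
    (ev_d (e := id) h.hm.c h.hm.x)).2.1
  refine bq.1 (q_one K Y.G' _ bq0 uv l (fun w => bq.2 (h.mem0 ?_)) hik a b)
  rw [map_sub, e, e, map_mul, FreeGroup.lift_apply_of, Fin.append_left, Y.G'.hτ, u, sub_self]

theorem ex_ky [CharP F 2] {X : Finset ℕ} {as : ℕ} (hC : Cx S L X as)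
    {a : Ideal (Tg O)} {Z : PO S (Tg O ⧸ a)} (z1 : Z.Std (Ideal.Quotient.mk a))
    (z2 : Z.Cl L (Finset.univ.image (Y.q c))) (z3 : ∀ i, Z.π (Ideal.Quotient.mk a (yy i)) = 0)
    (a3 : ∀ i, dd (Y.τq c i) - (1 + yy i) * (tt (Y.τq c i) - (1 + yy i)) ∈ a)
    (a4 : ∀ Ψ : PP O n r →+* Tg O ⧸ a, Hm ((Ideal.Quotient.mk a).comp MvPolynomial.C)
      (fun z => Ideal.Quotient.mk a (Y.G'.vP (Y.τ' c) z)) Ψ →
      RingHom.ker Ψ ≤ A ⊔ maximalIdeal (PP O n r) ^ j) : ∃ Ψ, Ky Y c A j Z Ψ := by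
  haveI := Z.fin
  obtain ⟨Ψ, hΨ⟩ := ex_hm Z.π Z.loc ((Ideal.Quotient.mk a).comp MvPolynomial.C)
    (fun z => Ideal.Quotient.mk a (Y.G'.vP (Y.τ' c) z)) (by
      rintro (z | i)
      · exact (congrArg Z.π (std_val z1 _ _ z)).trans (val_res hC Y.G' _ Z z)
      · exact z3 i)
  refine ⟨Ψ, z2, ⟨fun o => ?_, fun z => ?_⟩, fun i => ?_, a4 Ψ hΨ⟩
  · rw [RingHom.comp_apply, ioC, hΨ.c]
    exact z1.c o
  · rw [RingHom.comp_apply, ioX, hΨ.x]
    exact std_val z1 _ _ z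
  · have e1 : Ψ (y1 O _ i) = Ideal.Quotient.mk a (yy i) := hΨ.x (Sum.inr i)
    have e2 := Ideal.Quotient.eq_zero_iff_mem.2 (a3 i)
    simp only [map_sub, map_mul, map_add, map_one, z1.t, z1.d] at e2
    rw [e1]
    linear_combination e2

variable [Fintype β] [∀ b, Fintype (τ b)]

theorem del_not (hY : Y.Ok) : ∃ i k : Fin (n + r), i ≠ k ∧
    Y.θ (io O _ r (ψ0 S L τ n r (dlS (Y.G'.rcr r) id i k))) ≠ 0 := by
  obtain ⟨i, k, h0, hik⟩ := hY.irr
  have h1 : Fin.castAdd r i ≠ Fin.castAdd r k := fun e => h0 (Fin.castAdd_injective _ _ e)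
  refine ⟨_, _, h1, fun h => hik ?_⟩
  have c1 : ∀ o, (Y.θ.comp (io O _ r)).comp (ψ0 S L τ n r) (C o) = Y.j o := fun o => by
    rw [RingHom.comp_apply, p0C, hY.cf.c]
  have c2 : ∀ z, (Y.θ.comp (io O _ r)).comp (ψ0 S L τ n r) (X (id z)) =
      sv (Y.G'.rcr r) Y.j (fun i => (Y.ρ (Fin.append Y.G'.γ (fun _ => 1) i) : M2 V)) z :=
    fun z => by
      rw [RingHom.comp_apply, id, p0X, hY.cf.x]
      rfl
  have e1 := ev_dl (ev_t c1 c2) (ev_d c1 c2) h1
  have e2 := ev_dl (ev_t (e := id) hY.crv.hm.c hY.crv.hm.x)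
    (ev_d (e := id) hY.crv.hm.c hY.crv.hm.x) h0
  simp only [Fin.append_left] at e1
  rw [RingHom.mem_ker, e2, ← e1]
  exact h

theorem eq_kn [∀ b, Fintype (ι' b)] {ϖ : O} (hO : K.Ok L S ϖ) (G : Gs S L K.g n) (q : Fin r → ℕ)
    (τ' : Fin r → GQ) : (DD K n S.T r).I ≤ Kn K G r q τ' := by
  rintro f hf B _ _ _ ψ ⟨Z, h1, rfl, rfl⟩ h2
  exact hO.eqs _ B Z h1.1 ψ h2.c (fun i => h2.x (Sum.inl i)) hf


theorem rgalC (hK : KDEL) : RGAL := by
  intro O F _ _ _ _ _ _ _ ϖ S L X as β τ ι' _ _ _ K n G hϖ hC hO hD r s V _ _ _ _ _ _ Y ht hG hY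
    _ N _ _ W H
  letI : Algebra (S0 O τ L n S.T r) (S1 O τ L n S.T r) := (io O _ r).toAlgebra
  subst hG
  have hKD := hK O F ϖ S L X as β τ ι' K n Y.G' hϖ hC hO hD r
  obtain ⟨i0, k0, h0, hδ⟩ := del_not hY
  obtain ⟨δ, eδ⟩ : ∃ δ : S0 O τ L n S.T r,
    δ = ψ0 S L τ n r (dlS (Y.G'.rcr r) id i0 k0) := ⟨_, rfl⟩
  have hp : (Y.rd ϖ).𝔭.IsPrime := RingHom.ker_isPrime Y.θ
  have key : ∀ c j, ∃ (a : Ideal (Tg O)) (Z : PO S (Tg O ⧸ a)) (Ψ : PP O n r →+* Tg O ⧸ a),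
      W a ∧ Z.Std (Ideal.Quotient.mk a) ∧
      Ky Y c (Module.annihilator (PP O n r) (N c)) j Z Ψ := by
    intro c j
    obtain ⟨a, ⟨Z, z1, z2, z3, -⟩, a2, a3, a4⟩ := H c j
    obtain ⟨Ψ, h⟩ := ex_ky hC z1 z2 z3 a3 a4
    exact ⟨a, Z, Ψ, a2, z1, h⟩
  have ha : ∀ c, (Y.rd ϖ).𝔞 ≤ Module.annihilator (PP O n r) (N c) := fun c f hf =>
    P022D.PA.mem_of_sup _ _ fun j => by
      obtain ⟨a, Z, Ψ, -, -, h⟩ := key c j
      exact h.rk ϖ hf
  have kA : ∀ c j, ∀ f ∈ Kn K Y.G' r (Y.q c) (Y.τ' c),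
      io O _ r δ * io O _ r f ∈ bb Y (Module.annihilator (PP O n r) (N c)) j := by
    intro c j f hf
    obtain ⟨a, Z, Ψ, -, -, h⟩ := key c j
    rw [eδ]
    exact h.kn (hKD _ _ (hY.gn c) _ Z _ h.cl h.hm i0 k0 h0 f hf)
  have main : ∀ E' : Ideal (S0 O τ L n S.T r),
      (∀ f ∈ E', ∀ c j, io O _ r δ * io O _ r f ∈
        bb Y (Module.annihilator (PP O n r) (N c)) j) →
      (Y.rd ϖ).Gal ((Y.rd ϖ).E ⊔ E') (Pt.An Y.U N) := by
    intro E' hE
    refine Pt.gal_lim (Y.rd ϖ) hp p1_max Y.U N _ (Eventually.of_forall ha)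
      {c | ∀ j, ∀ᶠ m in (Y.U : Filter ℕ),
        io O _ r δ * c ∈ bb Y (Module.annihilator (PP O n r) (N m)) j} ?_
      fun c hc => ⟨io O _ r δ, eδ ▸ hδ, hc⟩
    refine sup_le (Ideal.map_le_iff_le_comap.2 (sup_le (sup_le ?_ (Ideal.span_le.2 ?_)) ?_))
      (Ideal.span_le.2 ?_)
    · exact fun f hf => Ideal.subset_span fun j => Eventually.of_forall fun c =>
        kA c j f (eq_kn hO _ _ _ hf)
    · rintro _ ⟨a, rfl⟩
      refine Ideal.subset_span fun j => (hY.cvk a j).mono fun c hn => ?_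
      have h1 := sub_mem (kA c j _ (hY.kn c a)) (Ideal.mul_mem_left _ (io O _ r δ) (bm hn))
      rwa [map_sub, ← mul_sub, sub_sub_cancel] at h1
    · exact fun f hf => Ideal.subset_span fun j => Eventually.of_forall fun c => hE f hf c j
    · rintro _ ⟨i, rfl⟩
      refine Ideal.subset_span fun j => ((hY.cvt i j).and (hY.cvd i j)).mono fun c hn => ?_
      obtain ⟨a, Z, Ψ, -, -, h⟩ := key c j
      obtain ⟨t1, t2⟩ := hY.tn c i _ Z _ h.cl h.hm
      exact Ideal.mul_mem_left _ _ (h.root i t1 t2 hn.1 hn.2)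
  refine ⟨?_, fun l hl => main _ fun f hf c j => ?_, fun hX => main _ fun f hf c j => ?_⟩
  · exact (main ⊥ fun f hf c j => by
      rw [Ideal.mem_bot.1 hf, map_zero, mul_zero]; exact zero_mem _).mono _ le_sup_left le_rfl
  · obtain ⟨u, rfl⟩ := Ideal.mem_span_singleton'.1 hf
    obtain ⟨a, Z, Ψ, h1, h2, h⟩ := key c j
    rw [map_mul]
    exact Ideal.mul_mem_left _ _ (Ideal.mul_mem_left _ _ (h.tr hO.uv l
      ((h2.t _).symm.trans (Ideal.Quotient.eq_zero_iff_mem.2 (hl a h1)))))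
  · obtain ⟨a, Z, Ψ, h1, h2, h⟩ := key c j
    rw [← map_mul]
    refine Submodule.span_induction (p := fun f _ => io O _ r (δ * f) ∈
      bb Y (Module.annihilator (PP O n r) (N c)) j) ?_ ?_ ?_ ?_ hf
    · rintro _ ⟨l, hl, a1, a2, rfl⟩
      rw [eδ]
      refine h.one hO.uv l (fun g => ?_) h0 a1 a2
      rw [← h2.t, ← h2.t]
      exact Ideal.Quotient.eq.2 (hX a h1 l hl g)
    · rw [mul_zero, map_zero]; exact zero_mem _
    · intro x y _ _ h1 h2
      rw [mul_add, map_add]; exact add_mem h1 h2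
    · intro u x _ h1
      rw [smul_eq_mul, mul_left_comm, map_mul]; exact Ideal.mul_mem_left _ _ h1

end Vale.Agent.P022S.H52
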