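import Vale.Agent.P022S.Utr
import Vale.Agent.P022S.Rep

/-!
# P022S: a generator acts trivially if and only if it does not change the traces
-/

set_option linter.all false

noncomputable section

namespace Vale.Agent.P022S.Rl86

open Vale.Agent.P022.H346 Vale.Agent.P022G.Word _root_.P022G.Th Vale.Agent.P022S.Ut

theorem one_iff {G B : Type} [Group G] [CommRing B] [IsDomain B] (R : G →* M2 B) {a b : G}
    (h : del (R a) (R b) ≠ 0) (g : G) : (∀ w, (R (w * g)).trace = (R w).trace) ↔ R g = 1 := by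
  refine ⟨fun k => ?_, fun k w => by rw [map_mul, k, mul_one]⟩
  have e : ∀ w, (R g * R w).trace = (1 * R w).trace := fun w => by
    rw [Matrix.trace_mul_comm, ← map_mul, k, one_mul]
  have s := same (R a) (R b) (R g) 1 (by simpa using e 1) (e a) (e b)
    (by rw [← map_mul]; exact e _)
  ext i j
  exact mul_left_cancel₀ h (congrFun (congrFun s i) j)

variable {P B : Type} [CommRing P] [CommRing B] {n : ℕ} {p : Finset (Fin n) → P}
  {r : Fin n → Pˣ} (Z : Fin n → M2 B) (hu : ∀ i, IsUnit (Z i)) (ψ : P →+* B)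
  (hp : ∀ s, ψ (p s) = ((s.sort (· ≤ ·)).map Z).prod.trace) (hr : ∀ i, ψ (r i) = (Z i).det)
include hu hp hr

theorem map_δ (a b : FreeGroup (Fin n)) :
    ψ (Rep.δ (tw p r) (dw r) a b) = del (Kd.fr Z hu a) (Kd.fr Z hu b) := by
  obtain ⟨-, e1, e2⟩ := spec_mat Z hu ψ hp hr
  rw [Rep.δ, map_dl, e1, e1, e1, e2, e2, del_eq, map_mul]

theorem tw_of (i : Fin n) : ψ (tw p r (FreeGroup.of i)) = (Z i).trace := by
  rw [(spec_mat Z hu ψ hp hr).2.1, Kd.fr_of]

theorem tw_two (i k : Fin n) :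
    ψ (tw p r (FreeGroup.of i * FreeGroup.of k)) = (Z i * Z k).trace := by
  rw [(spec_mat Z hu ψ hp hr).2.1, map_mul, Kd.fr_of, Kd.fr_of]

/-- the equations `tw (w * i) = tw w` say that `Z i = 1` -/
theorem tau_iff [IsDomain B] {a b : FreeGroup (Fin n)} (h : ψ (Rep.δ (tw p r) (dw r) a b) ≠ 0)
    (i : Fin n) : (∀ w, ψ (tw p r (w * FreeGroup.of i) - tw p r w) = 0) ↔ Z i = 1 := by
  rw [map_δ Z hu ψ hp hr] at h
  rw [← Kd.fr_of Z hu i, ← one_iff _ h]
  refine forall_congr' fun w => ?_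
  rw [map_sub, sub_eq_zero, (spec_mat Z hu ψ hp hr).2.1, (spec_mat Z hu ψ hp hr).2.1]

end Vale.Agent.P022S.Rl86
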