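import Vale.Agent.P022S.Rw.B87
import Vale.Agent.P022S.UpH87

/-!
# P022S: row RUP
-/

set_option linter.all false

noncomputable section

namespace Vale.Agent.P022S.B87

open MvPowerSeries Vale.Agent.P022S.R Vale.Agent.P022S.Loc
open Vale.Agent.P022D.Core (PS io)
open Vale.Agent.P022D.Sel (M2)

theorem rupC (hR : RCOV) : RUP := by
  classical
  intro O F _ _ _ _ _ _ _ ϖ S L X as β τ ι' _ _ _ K n G hϖ hC hK hD r s V _ _ _ _ _ _ Y ht hG hY
    η hη g1 g2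
  obtain ⟨i, k, -, e⟩ := ex_del hY
  have hT : 0 < S.T.card := Finset.card_pos.2 ⟨S.l0, S.hl0⟩
  have hp : (t0 K Y.G' r).map (io O _ r) ≤ RingHom.ker Y.θ :=
    (hR O F ϖ S L X as β τ ι' K n G hϖ hC hK hD r s V Y ht hG hY).2.1
  have hm := (IsDiscreteValuationRing.irreducible_iff_uniformizer ϖ).1 hϖ
  have r1 := (P022D.Rl.Ch0.reg (σ := Sy (n + r) ⊕ Fin r) hm).1
  have r2 := _root_.P022G.Up.reg2 (σ := Fin 2 × Fin 2 × Fin 2) (ω := V0 τ L n S.T r ⊕ Fin r)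
    (O := O)
  let eP : Sy (n + r) ⊕ Fin r ↪ V0 τ L n S.T r ⊕ Fin r :=
    (e0 (S := S) (τ := τ) r).sumMap (Function.Embedding.refl _)
  have hE : _root_.P022G.Sum.Ext (ψ1 S L τ n r) _ := _root_.P022G.Sum.ext_emb (R := O) eP
  let Z : Fin (n + r) → M2 (S1 O τ L n S.T r) := fun i => (ZS K Y.G' r i).map (io O _ r)
  have hu : ∀ i, IsUnit (Z i) := fun i => (ZS_unit Y.G' r i).map (io O _ r).mapMatrix
  have e1 : ∀ s, ψ1 S L τ n r (tS (Y.G'.rcr r) Sum.inl s) -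
      (Kd.fr Z hu (P022G.Word.wd FreeGroup.of s)).trace =
      io O _ r (tS (Y.G'.rcr r) (e0 r) s - (wm (ZS K Y.G' r) s).trace) := fun s => by
    rw [psi_t, Kd.fr_wd, map_sub, tr_map, wm_map]
    rfl
  have e2 : ∀ i, ψ1 S L τ n r (dS (Y.G'.rcr r) Sum.inl i) - (Kd.fr Z hu (.of i)).det =
      io O _ r (dS (Y.G'.rcr r) (e0 r) i - (ZS K Y.G' r i).det) := fun i => by
    rw [psi_d, Kd.fr_of, map_sub, det_map]
  refine Up.up (p := tS (Y.G'.rcr r) Sum.inl)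
    (r := fun i => (d_unit (rcr_unit Y.G' r) Sum.inl i).unit) hE (Kd.fr Z hu)
    (.of (Fin.castAdd r i)) (.of (Fin.castAdd r k)) (RingHom.ker_isPrime Y.θ)
    (Sum.elim (fun i => io O _ r (MvPowerSeries.X (Sum.inl i) - κS K Y.G' r i))
      fun p : Fin 2 × Fin 2 => io O _ r ((αS τ L n S.T r S.l0 - 1) p.1 p.2))
    ?_ (fun s => ?_) (fun i => ?_) ?_ (fun 𝔮 hq k1 k2 k3 => ?_) (k := 4 * S.T.card - 1) ?_
    (aT_le (rcr_unit Y.G' r) Sum.inl) η hη g1 g2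
  · rintro (i | p)
    · exact hp (Ideal.mem_map_of_mem _ (t0_k Y.G' r i))
    · exact hp (Ideal.mem_map_of_mem _ (t0_a Y.G' r p))
  · exact e1 s ▸ hp (Ideal.mem_map_of_mem _ (t0_t Y.G' r s))
  · exact (e2 i).symm ▸ hp (Ideal.mem_map_of_mem _ (t0_d Y.G' r i))
  · rw [Kd.fr_of, Kd.fr_of, ← del_map]
    exact e
  · change (t0 K Y.G' r).map (io O _ r) ≤ 𝔮
    rw [Ideal.map_le_iff_le_comap, t0, Ideal.span_le]
    rintro _ (((⟨s, rfl⟩ | ⟨i, rfl⟩) | ⟨i, rfl⟩) | ⟨p, rfl⟩)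
    · exact (congrArg (· ∈ 𝔮) (e1 s)).mp (k2 s)
    · exact (congrArg (· ∈ 𝔮) (e2 i)).mp (k3 i)
    · exact k1 (.inl i)
    · exact k1 (.inr p)
  · rw [Fintype.card_subtype_compl, Set.card_range_of_injective eP.injective]
    simp only [Fintype.card_sum, Fintype.card_prod, Fintype.card_fin, Fintype.card_coe]
    omega

end Vale.Agent.P022S.B87
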