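import Vale.Agent.P022S.Rows
import Vale.Agent.P022S.Tn.B
import Vale.Agent.P022S.Tn.Cpt

/-!
# P022S, rows REPO and TANV
-/

set_option linter.all false

noncomputable section

namespace Vale.Agent.P022S.Tn

open NumberField IsLocalRing MvPowerSeries
open Vale.Agent.P022 Vale.Agent.P022S.R Vale.Agent.P022S.Loc
open Vale.Agent.P022G (Hm)
open Vale.Agent.P027M.S (Inert mx)
open Vale.Agent.P022D.Sel (M2)
open Vale.Agent.P022D.Core (PS Coef)
open Vale.Agent.P022D.R (map_one')
open Vale.Agent.P022E.Loc (Pl)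
open Vale.Agent.P022E.GW (Ov Gn)
open _root_.P022G.Sel (mr tI rd)

section alg
variable {O A B : Type} [CommRing O] [CommRing A] [CommRing B] {m : ℕ}

theorem wm_map (f : A →+* B) (Z : Fin m → M2 A) (s : Finset (Fin m)) :
    (wm Z s).map f = wm (fun i => (Z i).map f) s := by
  unfold wm
  rw [← RingHom.mapMatrix_apply, map_list_prod, List.map_map]
  rfl

theorem tr_map (f : A →+* B) (M : M2 A) : f M.trace = (M.map f).trace := by
  simp only [Matrix.trace_fin_two, Matrix.map_apply, map_add]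

theorem det_map (f : A →+* B) (M : M2 A) : f M.det = (M.map f).det := f.map_det M

theorem sv_map (rc : Fin m → M2 O) (f : A →+* B) (j : O →+* A) (Z : Fin m → M2 A) (z : Sy m) :
    f (sv rc j Z z) = sv rc (f.comp j) (fun i => (Z i).map f) z := by
  rcases z with s | i
  · exact (map_sub _ _ _).trans (congrArg₂ _ ((tr_map f _).trans (by rw [wm_map])) rfl)
  · exact (map_sub _ _ _).trans (congrArg₂ _ (det_map f _) rfl)

theorem sv_self (rc : Fin m → M2 O) (j : O →+* A) (z : Sy m) :
    sv rc j (fun i => (rc i).map j) z = 0 := by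
  rcases z with s | i
  · exact sub_eq_zero.2 ((tr_map j _).trans (by rw [wm_map])).symm
  · exact sub_eq_zero.2 (det_map j _).symm

end alg

variable {O F : Type} [CommRing O] [Field F] {S : Dat O F} {L : Pl O} {β : Type} {τ ι' : β → Type}
  (K : Kx O β τ ι' L.C) {n : ℕ} (G : Gs S L K.g n) (r : ℕ) (τ' : Fin r → GQ)

/-- the coordinates of the framed ring on objects -/
def vv : Crd S (V0 τ L n S.T r) := fun _ _ X => v0 K G r X.ι X.ρ X.α X.β τ'

variable {K G r τ'}

theorem vv_res (hL : Loc L.D (ClG L S) (K.crd L S))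
    (hr : ∀ i, (G.rcr r i).map S.red = mx S.rb (Fin.append G.γ τ' i))
    (A : Type) [CommRing A] (X : Obj S A) (h : ClG L S A X) (s) : X.π (vv K G r τ' A X s) = 0 := by
  rcases s with i | z | p | p
  · exact hL.res A X h i
  · refine (sv_map _ X.π X.ι _ z).trans ?_
    rw [show X.π.comp X.ι = S.red from RingHom.ext X.alg,
      show (fun i => (X.ρ (Fin.append G.γ τ' i)).map X.π) = fun i => (G.rcr r i).map S.red from
        funext fun i => (X.res _).trans (hr i).symm]
    exact sv_self _ _ z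
  · refine (map_sub _ _ _).trans (sub_eq_zero.2 ?_)
    rw [X.alg]
    exact (congrFun (congrFun (X.res _) _) _).trans (congrFun (congrFun (hr p.1) _) _).symm
  · refine (map_sub _ _ _).trans (sub_eq_zero.2 ?_)
    exact (congrFun (congrFun (X.one p.1) _) _).trans (congrFun (congrFun (map_one' X.π) _) _).symm

theorem vv_nat (hL : Loc L.D (ClG L S) (K.crd L S)) (A B : Type) [CommRing A] [CommRing B]
    (X : Obj S A) (Y : Obj S B) (u : A →+* B) (k : Hom X Y u) (h : ClG L S A X) (s) :
    u (vv K G r τ' A X s) = vv K G r τ' B Y s := by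
  rcases s with i | z | p | p
  · exact hL.nat A B X Y u k h i
  · refine (sv_map _ u X.ι _ z).trans ?_
    rw [show u.comp X.ι = Y.ι from RingHom.ext k.ι,
      show (fun i => (X.ρ (Fin.append G.γ τ' i)).map u) = fun i => Y.ρ (Fin.append G.γ τ' i) from
        funext fun i => k.ρ _]
    rfl
  · exact (map_sub _ _ _).trans (congrArg₂ _ (congrFun (congrFun (k.ρ _) _) _) (k.ι _))
  · exact (map_sub _ _ _).trans (congrArg₂ _ (congrFun (congrFun (k.α p.1) _) _)
      (congrFun (congrFun (map_one' u) _) _))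

/-- the constants lift the residual representation -/
theorem rcr_red [IsLocalRing O] {X : Finset ℕ} {as : ℕ} (hC : Cx S L X as) (i : Fin (n + r)) :
    (G.rcr r i).map S.red = mx S.rb (Fin.append G.γ τ' i) := by
  have e : ∀ g, mx S.rb g = 1 := fun g => congrArg Units.val (hC.rb1 g)
  rw [e]
  refine Fin.addCases (fun i => ?_) (fun i => ?_) i
  · rw [Gs.rcr, Fin.append_left]
    exact (hC.ok.lift _).trans (e _)
  · rw [Gs.rcr, Fin.append_right]
    exact map_one' _

/-- **row REPO** -/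
theorem repoC : REPO := by
  intro O F _ _ _ _ _ _ _ ϖ S L X as β τ ι' _ _ _ K n G hϖ hC hK hD r q τ' hq B _ _ π ψ hl hπ hk
  have := Coef.cpl (O := O)
  have := Coef.fin (O := O)
  exact cpt hC.ok.ker (hK.clo.ty (Finset.univ.image q)) (vv K G r τ')
    (fun A _ Y h => vv_res hK.loc (rcr_red hC) A Y h.1)
    (fun A B _ _ Y Y' u k h => vv_nat hK.loc A B Y Y' u k h.1)
    (fun A _ Y h R h0 h1 => ev_sub hC.rb1 (G.gen r q τ' hq) Y h.2 R h0 (fun i a b => by
      have := R.add_mem (h1 (.inr (.inr (.inl (i, a, b))))) (h0 (G.rcr r i a b))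
      exact (sub_add_cancel (Y.ρ (Fin.append G.γ τ' i) a b) (Y.ι (G.rcr r i a b))) ▸ this)
      fun l hl a b => h1 (.inr (.inr (.inr (⟨l, hl⟩, a, b))))) B π ψ hl hπ
    fun f hf => hk fun A _ j v φ ⟨Y, a, b, c⟩ d => hf A Y φ a (by subst b c; exact d)

/-- **row TANV** -/
theorem tanvC (hO : COBJ) : TANV := by
  intro O F _ _ _ _ _ _ _ ϖ S L X as β τ ι' _ _ _ K n G hϖ hC hK hD V _ _ _ _ _ _ t j ρ θ ht hc r q
    τ' hq θ0 hf N hfin
  refine tanv_gen hC.ok.ker hC.rb1 (vv K G r τ') (Ty (ClG L S) (Finset.univ.image q))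
    (fun _ _ _ h => h.2) (Kn K G r q τ')
    (repoC O F ϖ S L X as β τ ι' K n G hϖ hC hK hD r q τ' hq)
    (fun B _ Y Y' a b c d e => hD B Y Y' a b c.1 d.1 (funext e)) (G.gen r q τ' hq) ht N
    (fun g a b => ?_) (hc.lv N) θ0
    ((hO O F ϖ S L X as β τ ι' K n G hϖ hC hK hD V t j ρ θ ht hc).2.2 r q τ' hq θ0 hf)
    (fun i a b => ⟨C (G.rcr r i a b) + MvPowerSeries.X (.inr (.inr (.inl (i, a, b)))),
      fun B _ Y ψ h => ?_, ?_⟩)
    (fun l hl _ a b => ⟨MvPowerSeries.X (.inr (.inr (.inr (⟨l, hl⟩, a, b)))),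
      fun B _ Y ψ h => h.x _, (hf.x _).trans (sub_self ((1 : M2 V) a b))⟩) hfin
  · have e := hc.res g a b
    have k := congrFun (congrFun (hC.ok.lift g) a) b
    rw [Matrix.map_apply, mx, hC.rb1, Units.val_one] at k
    have := j_zero j (L.r g a b - (1 : M2 O) a b) ((hC.ok.ker _).1 (by
      rw [map_sub, k, Matrix.one_apply, Matrix.one_apply, apply_ite S.red, map_one, map_zero,
        sub_self]))
    rw [map_sub, sub_eq_zero, Matrix.one_apply, apply_ite j, map_one, map_zero] at this
    rw [this] at e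
    rw [Matrix.sub_apply, Matrix.one_apply]
    exact e
  · rw [map_add, h.c, h.x]
    exact add_sub_cancel _ _
  · rw [map_add, hf.c, hf.x]
    have e : j (G.rcr r i a b) + v0 K G r j (fun g => (ρ g : M2 V)) (fun _ => 1) (fun _ => 1)
        (fun _ => 1) (.inr (.inr (.inl (i, a, b)))) =
        mr ρ (Fin.append G.γ (fun _ : Fin r => 1) i) a b := add_sub_cancel _ _
    rw [e]
    refine Fin.addCases (fun i => ?_) (fun i => ?_) i
    · rw [Fin.append_left, Fin.append_left, sub_self]
      exact dvd_zero _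
    · obtain ⟨c, P, d, e⟩ := hq i
      have k : mr (rd (tI t N) ρ) 1 = mr (rd (tI t N) ρ) (τ' i) :=
        congrArg Units.val ((map_one _).trans ((hc.lv N).unr _ c P d _ e.1).symm)
      rw [Fin.append_right, Fin.append_right]
      exact Ideal.mem_span_singleton.1 (Ideal.Quotient.eq.1 (congrFun (congrFun k a) b))

end Vale.Agent.P022S.Tn
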