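import Vale.Agent.P022S.Rows
import Vale.Agent.P022D.L2b.Ps

/-!
# P022S, row TRA: comparison of annihilators
-/

set_option linter.all false

open IsLocalRing NumberField MvPowerSeries

noncomputable section

namespace Vale.Agent.P022S.H22

open Vale.Agent.P022 Vale.Agent.P022S.R Vale.Agent.P022S.Loc
open Vale.Agent.P027M.S (Inert mx)
open Vale.Agent.P022D.Core (PS)
open Vale.Agent.P022D.Sel (M2)
open Vale.Agent.P022E.As (Tg cc tt dd yy Gw)
open Vale.Agent.P022E.Loc (Pl)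
open Vale.Agent.P022G (Hm KI subL resJ Tr)
open Vale.Agent.P022G.Word (wd)

variable {O F : Type} [CommRing O] [IsLocalRing O] [Field F] {S : Dat O F} {L : Pl O} {ϖ : O}

/-- approximation by polynomials -/
theorem poly {τ : Type} [Fintype τ] (R : Subring (MvPowerSeries τ O)) (hC : ∀ c, C c ∈ R)
    (hX : ∀ s, X s ∈ R) (n : ℕ) :
    ∀ f : MvPowerSeries τ O, ∃ p ∈ R, f - p ∈ maximalIdeal (MvPowerSeries τ O) ^ n := by
  induction n with
  | zero => exact fun f => ⟨0, R.zero_mem, by simp⟩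
  | succ n ih =>
    intro f
    obtain ⟨g, hg, -⟩ := P022D.CA.Cpl.exists_decompV (f - C (constantCoeff f)) (by simp)
    choose p hp hp' using fun s => ih (g s)
    refine ⟨C (constantCoeff f) + ∑ s, X s * p s,
      R.add_mem (hC _) (R.sum_mem fun s _ => R.mul_mem (hX s) (hp s)), ?_⟩
    rw [← sub_sub, hg, ← Finset.sum_sub_distrib]
    refine Ideal.sum_mem _ fun s _ => ?_
    rw [← mul_sub, pow_succ']
    exact Ideal.mul_mem_mul ((P022D.CA.Cpl.mem_max_iff _).2 (by simp)) (hp' s)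

/-- good ideals without the auxiliary primes are good -/
theorem gs_sub {X : Finset ℕ} {as : ℕ} (hC : Cx S L X as) {r : ℕ} {a : Ideal (Tg O)}
    (k : Mod.Gs ϖ (subL L X) (S.T \ X) ∅ r a) : Mod.Gs ϖ L S.T ∅ r a := by
  have h := k.gw
  refine ⟨⟨h.fin, h.nil0, h.nilt, h.nild, h.nily, h.t1, h.tc, h.tm, h.d1, h.dm, h.opn,
    fun l hl h1 h2 => h.unr l hl (fun h3 => h1 (Finset.mem_sdiff.1 h3).1) h2, h.clt, ?_, h.yz⟩,
    k.opn, fun l hl h1 h2 => k.unr l hl (fun h3 => h1 (Finset.mem_sdiff.1 h3).1) h2⟩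
  rintro g (hg | hg | ⟨l, hl, rfl⟩ | hg)
  · exact h.cld g (Or.inl hg)
  · exact h.cld g (Or.inr (Or.inl hg))
  · by_cases hX : l ∈ X
    · have hp := (hC.ok.pr l hl).1
      have hP := hC.ok.hP l hl
      have hτ := (hC.ok.tm l hl).tau
      have e1 := hC.unr l hp (Or.inr hX) _ hP.1 hP.2 _ hτ
      rw [e1, Matrix.det_one, show (cc (1 : O) : Tg O) = 1 from map_one MvPolynomial.C]
      exact k.unr l hp (fun h3 => (Finset.mem_sdiff.1 h3).2 hX) (Finset.notMem_empty l) _ hP.1 hP.2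
        _ hτ
    · refine h.cld _ (Or.inr (Or.inr (Or.inl ⟨l, ?_, rfl⟩)))
      rcases Finset.mem_union.1 hl with h1 | h1
      · exact Finset.mem_union_left _ h1
      · exact Finset.mem_union_right _ (Finset.mem_sdiff.2 ⟨h1, hX⟩)
  · exact h.cld g (Or.inr (Or.inr (Or.inr hg)))

variable {m : ℕ}

theorem wm_r (γ : Fin m → GQ) (s : Finset (Fin m)) :
    wm (fun i => L.r (γ i)) s = L.r (wd γ s) := by
  rw [wm, wd, map_list_prod, List.map_map]
  rfl

theorem red_one {X : Finset ℕ} {as : ℕ} (hC : Cx S L X as) (g : GQ) :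
    (L.r g).map S.red = 1 := by
  rw [hC.ok.lift g, mx, hC.rb1]
  rfl

theorem red_tr [CharP F 2] {X : Finset ℕ} {as : ℕ} (hC : Cx S L X as) (g : GQ) :
    S.red (L.r g).trace = 0 := by
  have h := congrArg Matrix.trace (red_one hC g)
  rw [Matrix.trace_fin_two, Matrix.map_apply, Matrix.map_apply, ← map_add,
    ← Matrix.trace_fin_two] at h
  rw [h, Matrix.trace_one, Fintype.card_fin]
  exact CharP.cast_eq_zero F 2

theorem red_det {X : Finset ℕ} {as : ℕ} (hC : Cx S L X as) (g : GQ) :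
    S.red (L.r g).det = 1 := by
  rw [RingHom.map_det, RingHom.mapMatrix_apply, red_one hC g, Matrix.det_one]

/-- the evaluation at a pseudo object exists -/
theorem ex_hm [CharP F 2] {X : Finset ℕ} {as : ℕ} (hC : Cx S L X as) {B : Type} [CommRing B]
    (Z : PO S B) (γ : Fin m → GQ) :
    ∃ ψ : PS O (Sy m) →+* B, Hm Z.ι (Z.val (fun i => L.r (γ i)) γ) ψ := by
  have := Z.fin
  obtain ⟨k, hk⟩ := Kd.nil Z.π Z.loc
  have n : ∀ s, Z.π (Z.val (fun i => L.r (γ i)) γ s) = 0 := by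
    rintro (i | i)
    · show Z.π (Z.t _ - Z.ι _) = 0
      rw [map_sub, Z.rt, Z.alg, wm_r, red_tr hC, sub_self]
    · show Z.π ((Z.d _ : B) - Z.ι _) = 0
      rw [map_sub, Z.rd, Z.alg, red_det hC, sub_self]
  letI := Z.ι.toAlgebra
  obtain ⟨φ, hφ⟩ := P022D.L2b.exists_ev (O := O) (Z.val (fun i => L.r (γ i)) γ) fun s =>
    ⟨k, by rw [← Ideal.mem_bot, ← hk]; exact Ideal.pow_mem_pow (n s) k⟩
  exact ⟨φ, fun o => φ.commutes o, hφ⟩

theorem hm_max {B σ : Type} [CommRing B] (Z : PO S B) {v : σ → B} {ψ : PS O σ →+* B}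
    (h : Hm Z.ι v ψ) : RingHom.ker (Z.π.comp ψ) = maximalIdeal (PS O σ) :=
  ker_eq_maximalIdeal _ fun y => by
    obtain ⟨c, rfl⟩ := S.surj y
    exact ⟨C c, by rw [RingHom.comp_apply, h.c, Z.alg]⟩

theorem hm_nil {B σ : Type} [CommRing B] (Z : PO S B) {v : σ → B} {ψ : PS O σ →+* B}
    (h : Hm Z.ι v ψ) : ∃ k : ℕ, ∀ f ∈ maximalIdeal (PS O σ) ^ k, ψ f = 0 := by
  have := Z.fin
  obtain ⟨k, hk⟩ := Kd.nil Z.π Z.loc
  refine ⟨k, fun f hf => ?_⟩
  rw [← hm_max Z h, ← RingHom.comap_ker] at hf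
  have := Ideal.le_comap_pow ψ k hf
  rwa [hk, Ideal.mem_comap, Ideal.mem_bot] at this

/-- on polynomials the evaluation is given by the symbols -/
theorem hm_poly {B : Type} [CommRing B] {Z : PO S B} {u : Tg O →+* B} (hu : Z.Std u)
    {rc : Fin m → M2 O} {γ : Fin m → GQ} {ψ : PS O (Sy m) →+* B} (h : Hm Z.ι (Z.val rc γ) ψ)
    (p : MvPolynomial (Sy m) O) :
    ψ (MvPolynomial.eval₂Hom C X p) = u (MvPolynomial.eval₂Hom MvPolynomial.C (vT rc γ) p) := by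
  have e : ψ.comp (MvPolynomial.eval₂Hom C X) =
      u.comp (MvPolynomial.eval₂Hom MvPolynomial.C (vT rc γ)) := by
    refine MvPolynomial.ringHom_ext (fun o => ?_) fun s => ?_
    · rw [RingHom.comp_apply, RingHom.comp_apply, MvPolynomial.eval₂Hom_C, MvPolynomial.eval₂Hom_C,
        h.c]
      exact (hu.c o).symm
    · rw [RingHom.comp_apply, RingHom.comp_apply, MvPolynomial.eval₂Hom_X', MvPolynomial.eval₂Hom_X',
        h.x]
      rcases s with i | i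
      · show Z.t _ - Z.ι _ = u (tt _ - cc _)
        rw [map_sub, hu.t, hu.c]
      · show (Z.d _ : B) - Z.ι _ = u (dd _ - cc _)
        rw [map_sub, hu.d, hu.c]
  exact DFunLike.congr_fun e p

/-- **TRA** -/
theorem traC (hW : GPW) : TRA := by
  intro O F _ _ _ _ _ _ _ ϖ S L X0 as β τ ι' _ _ _ K n G hϖ hC hK hD Y Y' _ _ _ _ _ _ hY' hD' hT f hf
  rintro B _ j v ψ ⟨w, Z, u, hu, hker, rfl, rfl⟩ hψ
  have W := hW O F ϖ S L X0 as β τ ι' K n G hϖ hC hK hD
  obtain ⟨s, hs⟩ := hT w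
  have key : ∀ y : Y', ∃ k : ℕ, ∀ p : MvPolynomial (Sy n) O,
      f - MvPolynomial.eval₂Hom C X p ∈ maximalIdeal (PS O (Sy n)) ^ k →
      MvPolynomial.eval₂Hom MvPolynomial.C (vT G.rc G.γ) p • y = 0 := by
    intro y
    by_cases h0 : Ideal.torsionOf (Tg O) Y' y = ⊤
    · exact ⟨0, fun p _ => (Ideal.mem_torsionOf_iff _ _).1 (h0 ▸ Submodule.mem_top)⟩
    obtain ⟨Z', s1, -⟩ := W ∅ 0 _ h0 (gs_sub hC (Mod.gd_of hY' hD' y))
    obtain ⟨ψ', h'⟩ := ex_hm hC Z' G.γ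
    obtain ⟨k, hk⟩ := hm_nil Z' h'
    refine ⟨k, fun p hp => (Ideal.mem_torsionOf_iff _ _).1 ?_⟩
    have e1 : ψ' f = 0 := hf _ _ _ ψ' ⟨y, Z', _, s1, Ideal.mk_ker, rfl, rfl⟩ h'
    have e2 := hk _ hp
    rw [map_sub, e1, zero_sub, neg_eq_zero, hm_poly s1 h'] at e2
    exact Ideal.Quotient.eq_zero_iff_mem.1 e2
  choose k hk using key
  obtain ⟨k0, hk0⟩ := hm_nil Z hψ
  obtain ⟨_, ⟨p, rfl⟩, hp⟩ := poly
    (MvPolynomial.eval₂Hom (C : O →+* PS O (Sy n)) X).range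
    (fun c => ⟨MvPolynomial.C c, MvPolynomial.eval₂Hom_C _ _ c⟩)
    (fun s => ⟨MvPolynomial.X s, MvPolynomial.eval₂Hom_X' _ _ s⟩) (k0 + s.sup k) f
  have e1 := hk0 _ (Ideal.pow_le_pow_right (Nat.le_add_right _ _) hp)
  have e2 := hs _ fun y hy => hk y p
    (Ideal.pow_le_pow_right ((Finset.le_sup hy).trans (Nat.le_add_left _ _)) hp)
  rw [map_sub, sub_eq_zero, hm_poly hu hψ] at e1
  rw [e1, ← RingHom.mem_ker, hker]
  exact (Ideal.mem_torsionOf_iff _ _).2 e2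

end Vale.Agent.P022S.H22
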