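import Vale.Agent.P022S.Rows
import Vale.Agent.P022S.Typ

/-!
# P022S, row TYP
-/

set_option linter.all false

noncomputable section

namespace Vale.Agent.P022S.H20

open NumberField IsLocalRing MvPowerSeries
open Vale.Agent.P022 Vale.Agent.P022S.R Vale.Agent.P022S.Loc
open Vale.Agent.P027M.S (mx)
open Vale.Agent.P022D.Sel (M2)
open Vale.Agent.P022D.Core (PS Coef)

theorem wm_one {B : Type} [CommRing B] {m : ℕ} (Z : Fin m → M2 B) (i : Fin m) :
    wm Z {i} = Z i := by
  simp [wm]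

theorem wm_two {B : Type} [CommRing B] {m : ℕ} (Z : Fin m → M2 B) {i k : Fin m} (h : i ≠ k) :
    (wm Z {i, k}).trace = (Z i * Z k).trace := by
  rcases lt_or_gt_of_ne h with c | c
  · rw [wm, Finset.sort_insert _ (by simpa using c.le) (by simpa using h)]
    simp
  · rw [wm, Finset.pair_comm, Finset.sort_insert _ (by simpa using c.le) (by simpa using h.symm),
      Matrix.trace_mul_comm]
    simp

theorem typC : TYP := by
  intro O F _ _ _ _ _ _ _ ϖ S L X as β τ ι' _ _ _ K n G hϖ hC hK hD V _ _ _ _ _ t j ρ θ ht h l hl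
  have ok := hC.ok
  have h2 : (2 : V) = 0 := CharTwo.two_eq_zero
  have lW : (l : ℕ) ∈ L.W ∪ L.C := Finset.mem_union_right _ l.2
  have sc : ∀ g, t ∣ (ρ g : M2 V).trace := fun g => by
    have a1 : j (L.r g).trace = 0 := P022G.Typ.j0 h2 j ((ok.ker _).1 (by
      rw [AddMonoidHom.map_trace S.red, ok.lift, mx, hC.rb1, Units.val_one, Matrix.trace_one,
        Fintype.card_fin, Nat.cast_ofNat, CharTwo.two_eq_zero]))
    rw [Matrix.trace_fin_two, map_add] at a1
    have := dvd_add (h.res g 0 0) (h.res g 1 1)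
    rwa [← add_sub_add_comm, a1, sub_zero, ← Matrix.trace_fin_two] at this
  have e : ∀ s, θ (tS G.rc id s) = (wm (fun i => (ρ (G.γ i) : M2 V)) s).trace := fun s => by
    rw [tS, map_add, h.hm.c, h.hm.x]
    simp [sv, gv]
  have p := ok.pr l lW
  obtain ⟨a, b⟩ := Nice.typS ht ρ (fun N => (h.lv N).opn) h.det sc p.1 p.2 (ok.tm l lW)
  rw [Gs.fr, trS, e, wm_one, G.hφ] at hl
  have ne : G.iτ l ≠ G.iφ l := fun c => by
    simpa using G.inj (a₁ := Sum.inr (Sum.inl l)) (a₂ := Sum.inr (Sum.inr l)) c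
  refine ⟨by rw [trS, e, wm_one, G.hτ]; exact a, ?_⟩
  rw [tr2, e, wm_two _ ne, G.hτ, G.hφ]
  exact (b hl).1

end Vale.Agent.P022S.H20
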