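import Vale.Agent.P022S.Rows
import Vale.Agent.P022S.Typ

/-!
# P022S, row TYP: the tame relation on a curve
-/

set_option linter.all false

noncomputable section

namespace Vale.Agent.P022S

open NumberField IsLocalRing MvPowerSeries
open Vale.Agent.P022 Vale.Agent.P022S.R Vale.Agent.P022S.Loc
open Vale.Agent.P027M.S (mx)
open Vale.Agent.P022D.Sel (M2)
open Vale.Agent.P022D.Core (PS Coef)
open Vale.Agent.P022E.Loc (Pl)
open Vale.Agent.P022G (Hm)

namespace H99T

theorem wm_one {B : Type} [CommRing B] {m : ℕ} (Z : Fin m → M2 B) (i : Fin m) :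
    wm Z {i} = Z i := by simp [wm]

theorem sort_two {m : ℕ} {i k : Fin m} (h : i < k) :
    ({i, k} : Finset (Fin m)).sort (· ≤ ·) = [i, k] := by
  rw [Finset.sort_insert _ (by simpa using h.le) (by simpa using h.ne), Finset.sort_singleton]

theorem wm_two {B : Type} [CommRing B] {m : ℕ} (Z : Fin m → M2 B) {i k : Fin m} (h : i ≠ k) :
    (wm Z {i, k}).trace = (Z i * Z k).trace := by
  rcases lt_or_gt_of_ne h with c | c
  · simp [wm, sort_two c]
  · rw [Finset.pair_comm, Matrix.trace_mul_comm]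
    simp [wm, sort_two c]

/-- the values of the symbols at a framed point -/
theorem tS_val {O B : Type} [CommRing O] [CommRing B] {m : ℕ} {rc : Fin m → M2 O} {j : O →+* B}
    {Z : Fin m → M2 B} {θ : PS O (Sy m) →+* B} (h : Hm j (sv rc j Z) θ) (s : Finset (Fin m)) :
    θ (tS rc id s) = (wm Z s).trace := by
  rw [tS, map_add, h.c, h.x]
  simp [sv, gv]

theorem dS_val {O B : Type} [CommRing O] [CommRing B] {m : ℕ} {rc : Fin m → M2 O} {j : O →+* B}
    {Z : Fin m → M2 B} {θ : PS O (Sy m) →+* B} (h : Hm j (sv rc j Z) θ) (i : Fin m) :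
    θ (dS rc id i) = (Z i).det := by
  rw [dS, map_add, h.c, h.x]
  simp [sv, gv]

/-- the traces on a curve are residually zero -/
theorem sc {O F : Type} [CommRing O] [IsDomain O] [IsDiscreteValuationRing O] [Coef O] [Field F]
    [CharP F 2] {S : Dat O F} {L : Pl O} (ok : OkG L S) (h1 : ∀ g, S.rb g = 1) {V : Type}
    [CommRing V] [IsDomain V] [CharP V 2] {t : V} {j : O →+* V} {ρ : GQ →* GL (Fin 2) V}
    (res : ∀ g a b, t ∣ (ρ g : M2 V) a b - j (L.r g a b)) (g : GQ) : t ∣ (ρ g : M2 V).trace := by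
  have a1 : j (L.r g).trace = 0 := P022G.Typ.j0 CharTwo.two_eq_zero j ((ok.ker _).1 (by
    rw [AddMonoidHom.map_trace S.red, ok.lift, mx, h1]
    simp [CharTwo.two_eq_zero]))
  rw [Matrix.trace_fin_two, map_add] at a1
  have e : (ρ g : M2 V).trace =
      ((ρ g : M2 V) 0 0 - j (L.r g 0 0)) + ((ρ g : M2 V) 1 1 - j (L.r g 1 1)) := by
    rw [Matrix.trace_fin_two]
    linear_combination a1
  rw [e]
  exact dvd_add (res g 0 0) (res g 1 1)

end H99T

/-- **row TYP** -/
theorem H99T.typC : TYP := by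
  intro O F _ _ _ _ _ _ _ ϖ S L X as β τ ι' _ _ _ K n G hϖ hC hK hD V _ _ _ _ _ t j ρ θ ht h l hl
  have lW : (l : ℕ) ∈ L.W ∪ L.C := Finset.mem_union_right _ l.2
  have p := hC.ok.pr l lW
  have k := Nice.typS ht ρ (fun N => (h.lv N).opn) h.det (H99T.sc hC.ok hC.rb1 h.res) p.1 p.2
    (hC.ok.tm l lW)
  have ne : G.iτ l ≠ G.iφ l := fun e =>
    Sum.inl_ne_inr (Sum.inr_injective (G.inj (a₁ := Sum.inr (Sum.inl l))
      (a₂ := Sum.inr (Sum.inr l)) e))
  rw [Gs.fr, trS, H99T.tS_val h.hm, H99T.wm_one, G.hφ] at hl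
  rw [trS, tr2, H99T.tS_val h.hm, H99T.tS_val h.hm, H99T.wm_one, H99T.wm_two _ ne, G.hτ, G.hφ]
  exact ⟨k.1, (k.2 hl).1⟩

end Vale.Agent.P022S
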